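import Mathlib

/-! A Banach space with an equivalent norm given by a seminorm. -/

noncomputable section

namespace Vale.Agent.P218T

variable {X : Type} [NormedAddCommGroup X] [NormedSpace ℂ X]

/-- the seminorm is equivalent to the norm -/
def Eqv (p : Seminorm ℂ X) : Prop := ∃ C : ℝ, ∀ x, ‖x‖ ≤ C * p x ∧ p x ≤ C * ‖x‖

/-- the space with the norm `p` -/
@[nolint unusedArguments]
def Rn (p : Seminorm ℂ X) (_ : Eqv p) : Type := X

namespace Rn

variable {p : Seminorm ℂ X} {h : Eqv p}

instance : AddCommGroup (Rn p h) := inferInstanceAs (AddCommGroup X)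
instance : Module ℂ (Rn p h) := inferInstanceAs (Module ℂ X)

instance : NormedAddCommGroup (Rn p h) :=
  AddGroupNorm.toNormedAddCommGroup (E := Rn p h)
    { toFun := fun x => p x
      map_zero' := map_zero p
      add_le' := map_add_le_add p
      neg' := map_neg_eq_map p
      eq_zero_of_map_eq_zero' := fun x hx => by
        obtain ⟨C, hC⟩ := h
        have := (hC x).1
        rw [show p x = 0 from hx, mul_zero] at this
        exact norm_le_zero_iff.1 this }

theorem norm_def (x : Rn p h) : ‖x‖ = p x := rfl

instance : NormedSpace ℂ (Rn p h) := ⟨fun c x => (map_smul_eq_mul p c x).le⟩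

/-- the identity, as a linear equivalence -/
def mkL (h : Eqv p) : X ≃ₗ[ℂ] Rn p h where
  toFun x := x
  invFun x := x
  map_add' _ _ := rfl
  map_smul' _ _ := rfl
  left_inv _ := rfl
  right_inv _ := rfl

/-- the identity -/
def mk (h : Eqv p) : X ≃L[ℂ] Rn p h :=
  (mkL h).toContinuousLinearEquivOfBounds h.choose h.choose
    (fun x => (h.choose_spec x).2) fun x => (h.choose_spec x).1

@[simp] theorem norm_mk (x : X) : ‖mk h x‖ = p x := rfl

@[simp] theorem p_symm (x : Rn p h) : p ((mk h).symm x) = ‖x‖ := rfl

instance [CompleteSpace X] : CompleteSpace (Rn p h) :=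
  (completeSpace_congr (e := (mk h).toEquiv) (mk h).isUniformEmbedding).1 inferInstance

end Rn

theorem Eqv.cont {p : Seminorm ℂ X} (h : Eqv p) : Continuous p :=
  (continuous_norm.comp (Rn.mk h).continuous :)

end Vale.Agent.P218T
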