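import Vale.Agent.P218T.Model
import Vale.Agent.P218N.Spec
import Vale.Agent.P218B.Phi
import Vale.Agent.P218W.Jet

/-! The geometry of the models: charts `(z, θ)` of the ends, frames, lifts of functions of
`(z, θ)` to the tube, and the statements about them. -/

open MeasureTheory Set Filter Topology
open scoped ContDiff RealInnerProductSpace Real

noncomputable section

namespace Vale.Agent.P218T

open Vale.Agent.P218.H63 (IsTubeShrinker)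
open Vale.Agent.P218B (desc J2 gr2)
open Vale.Agent.P218H (op sa)
open Vale.Agent.P218N (V3 cx nu cr dt kk nn gg pd e2 g2 eX vv vD kE fr Orth LINP)
open Vale.Agent.P218W (jet Le)

/-- periodicity above the height `R` -/
def Per {V : Type*} (R : ℝ) (F : ℝ × ℝ → V) : Prop :=
  ∀ z θ, R < z → F (z, θ + 2 * π) = F (z, θ)

/-- the jet `(F, F_θ, F_θθ, F_z, F_zθ, F_zz)` of a vector valued function -/
def jv (F : ℝ × ℝ → V3) (y : ℝ × ℝ) (k : Fin 6) : V3 := fun i => jet (fun q => F q i) k y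

/-- the shrinker operator on jets, parameters in the order `(z, θ)` -/
def eJ (t : ℂ) (J : Fin 6 → V3) : ℂ := e2 t (J 0) (J 3) (J 1) (J 5) (J 4) (J 2)

/-- the signed area element -/
def Jg (w : E3 → ℝ) (P : ℝ × ℝ → E3) (y : ℝ × ℝ) : ℝ :=
  dt (cr (fderiv ℝ P y (1, 0)).ofLp (fderiv ℝ P y (0, 1)).ofLp) (gradient w (P y)).ofLp

/-- `P` is a chart of `S` near `y` -/
structure Pc (S : Set E3) (P : ℝ × ℝ → E3) (y : ℝ × ℝ) : Prop where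
  sm : ContDiffAt ℝ ∞ P y
  mem : ∀ᶠ q in 𝓝 y, P q ∈ S
  inj : ∀ v, fderiv ℝ P y v = 0 → v = 0

/-- a chart of an end above the height `R` -/
structure Cht (P : ℝ × ℝ → E3) (R K : ℝ) : Prop where
  sm : ∀ y : ℝ × ℝ, R < y.1 → ContDiffAt ℝ ∞ P y
  per : Per R P
  fib : ∀ y y' : ℝ × ℝ, R < y.1 → R < y'.1 → P y = P y' →
    y'.1 = y.1 ∧ ∃ k : ℤ, y'.2 = y.2 + k * (2 * π)
  rad : ∀ y : ℝ × ℝ, R < y.1 → y.1 ≤ ‖P y‖ ∧ ‖P y‖ ≤ y.1 + 1 / 8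
  lo : ∀ y : ℝ × ℝ, R < y.1 → ∀ v, ‖v‖ ≤ K * ‖fderiv ℝ P y v‖
  j2 : ∀ y : ℝ × ℝ, R < y.1 → J2 P y (K * y.1) (K * y.1) (K * y.1)

/-- the chart is close to its model: direction `d`, tangent vectors `a` and `l b` -/
def Nr (P : ℝ × ℝ → E3) (d b : ℝ → E3) (l : ℝ → ℝ) (R η : ℝ) : Prop :=
  ∀ y : ℝ × ℝ, R < y.1 → ‖P y - y.1 • d y.2‖ ≤ η * y.1 ∧ ‖fderiv ℝ P y (1, 0) - d y.2‖ ≤ η ∧
    ‖fderiv ℝ P y (0, 1) - l y.1 • b y.2‖ ≤ η * l y.1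

/-! ### cylindrical ends -/

/-- the radial vector -/
def eR (Q : E3 ≃ₗᵢ[ℝ] E3) (θ : ℝ) : E3 := Q !₂[Real.cos θ, Real.sin θ, 0]

/-- the angular vector -/
def eT (Q : E3 ≃ₗᵢ[ℝ] E3) (θ : ℝ) : E3 := Q !₂[-Real.sin θ, Real.cos θ, 0]

/-- the moving frame `(e_r, e_θ, e_z)` -/
def FQ (Q : E3 ≃ₗᵢ[ℝ] E3) (θ : ℝ) : V3 → V3 := fr (cx (eR Q θ)) (cx (eT Q θ)) (cx (axis Q))

/-- the squared radius -/
def VS (f : ℝ × ℝ → ℝ) (y : ℝ × ℝ) : ℂ := ((√2 + f y) ^ 2 : ℝ)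

/-- the operator of a cylindrical end on jets -/
def vJ (t z : ℂ) (J : Fin 6 → ℂ) : ℂ := vv t z (J 0) (J 3) (J 1) (J 5) (J 4) (J 2)

/-- the jet of `r e_r + ζ e_z` in the moving frame -/
def cyJ (r : Fin 6 → ℂ) (ζ ζ₁ ζ₂ : ℂ) : Fin 6 → V3 :=
  ![![r 0, 0, ζ], ![r 1, r 0, 0], ![r 2 - r 0, 2 * r 1, 0], ![r 3, 0, ζ₁], ![r 4, r 3, 0],
    ![r 5, 0, ζ₂]]

/-- the jet of `r` in terms of `r` and of the jet of `V = r²` -/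
def sqJ (r : ℂ) (V : Fin 6 → ℂ) : Fin 6 → ℂ :=
  ![r, V 1 / (2 * r), V 2 / (2 * r) - V 1 ^ 2 / (4 * r ^ 3), V 3 / (2 * r),
    V 4 / (2 * r) - V 3 * V 1 / (4 * r ^ 3), V 5 / (2 * r) - V 3 ^ 2 / (4 * r ^ 3)]

/-! ### conical ends -/

/-- the chart of a conical end, `z = e^s` -/
def conP (γ n : ℝ → E3) (g : ℝ × ℝ → ℝ) (y : ℝ × ℝ) : E3 := conePt γ n g (Real.log y.1, y.2)

/-- the height over the cone -/
def uS (g : ℝ × ℝ → ℝ) (y : ℝ × ℝ) : ℂ := (y.1 * g (Real.log y.1, y.2) : ℝ)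

/-- the speed of the link -/
def spd (γ : ℝ → E3) : ℝ := ‖deriv γ 0‖

/-- the unit tangent of the link -/
def tn (γ : ℝ → E3) (θ : ℝ) : E3 := (spd γ)⁻¹ • deriv γ θ

/-- the geodesic curvature: `n' = -κ γ'` -/
def kap (γ n : ℝ → E3) (θ : ℝ) : ℝ := -⟪deriv n θ, deriv γ θ⟫ / spd γ ^ 2

/-- the moving frame `(γ, γ' / l, n)` -/
def FK (γ n : ℝ → E3) (θ : ℝ) : V3 → V3 := fr (cx (γ θ)) (cx (tn γ θ)) (cx (n θ))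

/-- the jet of `z γ + u n` in the moving frame -/
def coJ (l κ κ' z : ℂ) (u : Fin 6 → ℂ) : Fin 6 → V3 :=
  ![![z, 0, u 0], ![0, l * (z - κ * u 0), u 1],
    ![-(l * (l * (z - κ * u 0))), -(l * (κ' * u 0 + 2 * κ * u 1)),
      u 2 + l * κ * (l * (z - κ * u 0))],
    ![1, 0, u 3], ![0, l * (1 - κ * u 3), u 4], ![0, 0, u 5]]

/-- the normalised jet `(u/z, u_θ/z, u_θθ/z, u_z, u_zθ, z u_zz, z (z u_z - u))` -/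
def jk (z : ℂ) (J : Fin 6 → ℂ) : Fin 7 → ℂ :=
  ![J 0 / z, J 1 / z, J 2 / z, J 3, J 4, z * J 5, z * (z * J 3 - J 0)]

/-- the operator of a conical end on normalised jets -/
def kJ (γ n : ℝ → E3) (θ : ℝ) (J : Fin 7 → ℂ) : ℂ :=
  kE (spd γ) (kap γ n θ) (deriv (kap γ n) θ : ℝ) (J 0) (J 1) (J 2) (J 3) (J 4) (J 5) (J 6)

/-! ### the data -/

/-- a model with its constants and signs -/
structure Mod where
  S : Set E3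
  w : E3 → ℝ
  δ : ℝ
  C : ℝ
  n₁ : ℕ
  n₂ : ℕ
  Q : Fin n₁ → E3 ≃ₗᵢ[ℝ] E3
  f : Fin n₁ → ℝ × ℝ → ℝ
  γ : Fin n₂ → ℝ → E3
  n : Fin n₂ → ℝ → E3
  g : Fin n₂ → ℝ × ℝ → ℝ
  R₀ : ℝ
  R : ℝ
  K : ℝ
  s : Fin n₁ ⊕ Fin n₂ → ℝ
  ε : Fin n₁ ⊕ Fin n₂ → ℝ

namespace Mod

variable (M : Mod)

/-- the ends -/
abbrev I := Fin M.n₁ ⊕ Fin M.n₂

/-- the charts -/
def P : M.I → ℝ × ℝ → E3
  | .inl i => cylPt (M.Q i) (M.f i)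
  | .inr j => conP (M.γ j) (M.n j) (M.g j)

/-- the normal of the model -/
def nE : M.I → ℝ → E3
  | .inl i => eR (M.Q i)
  | .inr j => M.n j

/-- the frames -/
def Fr : M.I → ℝ → V3 → V3
  | .inl i => FQ (M.Q i)
  | .inr j => FK (M.γ j) (M.n j)

/-- the sign of the area element -/
def sg : M.I → ℝ
  | .inl i => -(M.ε (.inl i) * M.s (.inl i))
  | .inr j => M.ε (.inr j) * M.s (.inr j)

/-- the signed area element -/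
def Js (e : M.I) : ℝ × ℝ → ℝ := Jg M.w (M.P e)

/-- the area element -/
def JS (e : M.I) (y : ℝ × ℝ) : ℝ := M.sg e * M.Js e y

/-- the charts of the tube -/
def Ph (e : M.I) (a : (ℝ × ℝ) × ℝ) : E3 := M.P e a.1 + a.2 • gradient M.w (M.P e a.1)

/-- their domain -/
def O : Set ((ℝ × ℝ) × ℝ) := {a | M.R < a.1.1 ∧ |a.2| < M.δ}

/-- a function of `(z, θ)` as a function on the tube over the end `e`, zero elsewhere -/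
def lift {V : Type*} [NormedAddCommGroup V] (e : M.I) (F : ℝ × ℝ → V) : E3 → V :=
  desc (M.Ph e) M.O fun a => F a.1

/-- the part of the end `e` with heights in `t` -/
def En (e : M.I) (t : Set ℝ) : Set E3 := M.P e '' (t ×ˢ univ)

/-- the geometry of the ends -/
structure Geo : Prop where
  ended : Ended M.S M.w M.δ M.C M.Q M.f M.γ M.n M.g M.R₀
  one : 1 ≤ M.R ∧ 1 ≤ M.K
  cht : ∀ e, Cht (M.P e) M.R M.K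
  mem : ∀ e (y : ℝ × ℝ), M.R < y.1 → M.P e y ∈ M.S
  cov : ∀ p ∈ M.S, M.R + 1 / 8 < ‖p‖ → ∃ e, ∃ y : ℝ × ℝ, M.R < y.1 ∧ M.P e y = p
  dis : ∀ e e' (y y' : ℝ × ℝ), M.R < y.1 → M.R < y'.1 → M.P e y = M.P e' y' → e = e'
  sq : ∀ e, M.s e * M.s e = 1 ∧ M.ε e * M.ε e = 1
  orth : ∀ e θ, Orth (M.Fr e θ) (M.ε e)
  sgn : ∀ e (y : ℝ × ℝ), M.R < y.1 → 1 / 2 ≤ M.s e * ⟪gradient M.w (M.P e y), M.nE e y.2⟫
  ori : ∀ e (y : ℝ × ℝ), M.R < y.1 → 0 < M.JS e y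
  rs : ∀ i (y : ℝ × ℝ), M.R < y.1 → |M.f i y| ≤ 1 / 8
  ku : ∀ j (y : ℝ × ℝ), M.R < y.1 → |kap (M.γ j) (M.n j) y.2 * M.g j (Real.log y.1, y.2)| ≤ 1 / 8

end Mod

/-! ### statements -/

/-- **the geometry exists** -/
def GEO : Prop := ∀ S : Set E3, IsEndedShrinker S → ∃ M : Mod, M.S = S ∧ M.Geo

/-- covariance, the equation of `S` and its linearisation in a chart -/
def COV : Prop := ∀ (S : Set E3) (w : E3 → ℝ) (δ C : ℝ), IsTubeShrinker S w δ C → ContDiff ℝ ∞ w →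
  ∀ (P : ℝ × ℝ → E3) (y : ℝ × ℝ), Pc S P y → Jg w P y ≠ 0 ∧
    Jg w P y ^ 2 = gr2 (fderiv ℝ P y (1, 0)) (fderiv ℝ P y (0, 1)) ∧
    cr (fderiv ℝ P y (1, 0)).ofLp (fderiv ℝ P y (0, 1)).ofLp = Jg w P y • (gradient w (P y)).ofLp ∧
    eJ 1 (jv (fun q => cx (P q)) y) = 0 ∧
    (∀ X Y : E3 → V3, DifferentiableAt ℝ X (P y) → DifferentiableAt ℝ Y (P y) →
      cr (jv (fun q => X (P q)) y 3) (jv (fun q => X (P q)) y 1) =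
        (Jg w P y : ℂ) • nn (pd X (P y)) (nu w (P y)) ∧
      g2 (jv (fun q => X (P q)) y 3) (jv (fun q => X (P q)) y 1) =
        (Jg w P y : ℂ) ^ 2 * gg (pd X (P y)) (nu w (P y)) ∧
      cr (jv (fun q => X (P q)) y 3) (jv (fun q => Y (P q)) y 1) -
        cr (jv (fun q => X (P q)) y 1) (jv (fun q => Y (P q)) y 3) =
        (Jg w P y : ℂ) • kk (pd X (P y)) (pd Y (P y)) (nu w (P y))) ∧
    (∀ (X : E3 → V3) (t : ℂ), ContDiffAt ℝ 2 X (P y) →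
      eJ t (jv (fun q => X (P q)) y) = Jg w P y * eX t X (nu w) (P y)) ∧
    ∀ (Y : E3 → V3) (J : ℂ → Fin 6 → V3), ContDiffAt ℝ 2 Y (P y) →
      J 0 = jv (fun q => cx (P q)) y → HasDerivAt J (jv (fun q => Y (P q)) y) 0 →
      HasDerivAt (fun s => eJ 1 (J s))
        (Jg w P y * (2 * op (sa w) (fun x => dt (Y x) (nu w x)) (P y))) 0

/-- jets in the moving frame of a cylinder -/
def CYLJ : Prop := ∀ Q : E3 ≃ₗᵢ[ℝ] E3, (∃ ε : ℝ, ε * ε = 1 ∧ ∀ θ, Orth (FQ Q θ) ε) ∧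
  (∀ f (y : ℝ × ℝ), cx (cylPt Q f y) = FQ Q y.2 ![((√2 + f y : ℝ) : ℂ), 0, (y.1 : ℂ)]) ∧
  (∀ (r : ℝ × ℝ → ℂ) (ζ ζ₁ : ℝ → ℂ) (ζ₂ : ℂ) (y : ℝ × ℝ), ContDiffAt ℝ 2 r y →
    (∀ᶠ z in 𝓝 y.1, HasDerivAt ζ (ζ₁ z) z) → ContDiffAt ℝ 1 ζ₁ y.1 → HasDerivAt ζ₁ ζ₂ y.1 →
    jv (fun q => FQ Q q.2 ![r q, 0, ζ q.1]) y =
      fun k => FQ Q y.2 (cyJ (fun i => jet r i y) (ζ y.1) (ζ₁ y.1) ζ₂ k)) ∧
  (∀ (r V : ℝ × ℝ → ℂ) (y : ℝ × ℝ), ContDiffAt ℝ 2 r y → (∀ᶠ q in 𝓝 y, r q ^ 2 = V q) → r y ≠ 0 →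
    (fun i => jet r i y) = sqJ (r y) fun i => jet V i y) ∧
  ∀ (T : V3 → V3) (ε t r ζ ζ₁ ζ₂ : ℂ) (V : Fin 6 → ℂ), Orth T ε → r ^ 2 = V 0 → r ≠ 0 → ζ₁ ≠ 0 →
    vD (V 0) (V 3 / ζ₁) (V 1) ≠ 0 → eJ t (fun k => T (cyJ (sqJ r V) ζ ζ₁ ζ₂ k)) =
      -(ε * ζ₁) * vv t ζ (V 0) (V 3 / ζ₁) (V 1) ((V 5 - V 3 * ζ₂ / ζ₁) / ζ₁ ^ 2) (V 4 / ζ₁) (V 2)

/-- jets in the moving frame of a cone -/
def CONJ : Prop := ∀ γ n : ℝ → E3, IsLink γ n → 0 < spd γ ∧ (∀ θ, ‖deriv γ θ‖ = spd γ) ∧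
  ContDiff ℝ ∞ (kap γ n) ∧ (∀ θ, kap γ n (θ + 2 * π) = kap γ n θ) ∧
  (∀ θ, deriv n θ = -kap γ n θ • deriv γ θ) ∧
  (∃ ε : ℝ, ε * ε = 1 ∧ ∀ θ, Orth (FK γ n θ) ε) ∧
  (∀ (g : ℝ × ℝ → ℝ) (y : ℝ × ℝ), 0 < y.1 →
    cx (conP γ n g y) = FK γ n y.2 ![(y.1 : ℂ), 0, uS g y]) ∧
  (∀ (u : ℝ × ℝ → ℂ) (y : ℝ × ℝ), ContDiffAt ℝ 2 u y →
    jv (fun q => FK γ n q.2 ![(q.1 : ℂ), 0, u q]) y = fun k => FK γ n y.2
      (coJ (spd γ) (kap γ n y.2) (deriv (kap γ n) y.2 : ℝ) y.1 (fun i => jet u i y) k)) ∧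
  ∀ (T : V3 → V3) (ε z : ℂ) (θ : ℝ) (u : Fin 6 → ℂ), Orth T ε → z ≠ 0 →
    eJ 1 (fun k => T (coJ (spd γ) (kap γ n θ) (deriv (kap γ n) θ : ℝ) z u k)) =
      ε * kJ γ n θ (jk z u)

/-- the chart of a cylindrical end -/
def CYL : Prop := ∀ (Q : E3 ≃ₗᵢ[ℝ] E3) (f : ℝ × ℝ → ℝ), Decays f → ∀ η > 0, ∃ R K : ℝ,
  Cht (cylPt Q f) R K ∧ Nr (cylPt Q f) (fun _ => axis Q) (eT Q) (fun _ => √2) R η

/-- the normalised jets of a conical end tend to zero, the last one is bounded -/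
def CONW : Prop := ∀ (γ n : ℝ → E3) (g : ℝ × ℝ → ℝ), IsLink γ n → Decays g →
  (∀ y : ℝ × ℝ, 0 < y.1 → ContDiffAt ℝ ∞ (uS g) y) ∧
  (∀ η > 0, ∃ R > 0, ∀ k : Fin 6,
    Le (Ici R) (fun y => jk y.1 (fun i => jet (uS g) i y) k.castSucc) (fun _ => 1) η) ∧
  ∀ R₁, (∀ y : ℝ × ℝ, R₁ < y.1 → kJ γ n y.2 (jk y.1 fun i => jet (uS g) i y) = 0) →
    ∃ R > 0, ∃ K, Le (Ici R) (fun y => jk y.1 (fun i => jet (uS g) i y) 6) (fun _ => 1) K ∧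
      ∀ y : ℝ × ℝ, R ≤ y.1 → |g (Real.log y.1, y.2)| ≤ K / y.1 ^ 2

/-- the chart of a conical end -/
def CON : Prop := ∀ (γ n : ℝ → E3) (g : ℝ × ℝ → ℝ), IsLink γ n → Decays g →
  (∀ η > 0, ∃ R > 0, Nr (conP γ n g) γ (tn γ) (fun z => spd γ * z) R η ∧
    ∀ y : ℝ × ℝ, R < y.1 → ContDiffAt ℝ ∞ (conP γ n g) y ∧
      ∀ v, fderiv ℝ (conP γ n g) y v = 0 → v = 0) ∧
  ∀ R₁ K₁ : ℝ, (∀ y : ℝ × ℝ, R₁ ≤ y.1 → |g (Real.log y.1, y.2)| ≤ K₁ / y.1 ^ 2) →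
    ∃ R K, Cht (conP γ n g) R K

/-- the jets of a cylindrical end tend to those of the cylinder -/
def CYLW : Prop := ∀ f : ℝ × ℝ → ℝ, Decays f → ContDiff ℝ ∞ (VS f) ∧
  (∀ η > 0, ∃ R, ∀ k, Le (Ici R) (jet (fun y => VS f y - 2) k) (fun _ => 1) η) ∧
  ∀ R₁, (∀ y : ℝ × ℝ, R₁ < y.1 → vJ 1 y.1 (fun k => jet (VS f) k y) = 0) →
    ∀ η > 0, ∃ R, Le (Ici R) (fun y => y.1 * jet (VS f) 3 y) (fun _ => 1) η

end Vale.Agent.P218T
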