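import Vale.Agent.P218.H63.Defs

/-! The models: smooth self-shrinking surfaces in `ℝ³` with finitely many ends, each smoothly
asymptotic to a round cylinder or to a regular cone. -/

open MeasureTheory Set Filter Topology
open scoped ContDiff

namespace Vale.Agent.P218T

open Vale.Agent.P218 Vale.Agent.P218.H63

/-- Euclidean three-space -/
abbrev E3 := EuclideanSpace ℝ (Fin 3)

/-- `f (z, θ)` is smooth, `2π`-periodic in `θ`, and tends to zero as `z → ∞` together with all its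
derivatives, uniformly in `θ` -/
structure Decays (f : ℝ × ℝ → ℝ) : Prop where
  smooth : ContDiff ℝ ∞ f
  per : ∀ z θ, f (z, θ + 2 * Real.pi) = f (z, θ)
  lim : ∀ (k : ℕ) (ε : ℝ), 0 < ε → ∃ R : ℝ, ∀ y : ℝ × ℝ, R ≤ y.1 → ‖iteratedFDeriv ℝ k f y‖ ≤ ε

/-- the point with height `z`, angle `θ` and distance `√2 + f (z, θ)` from the axis `Q e₃` -/
noncomputable def cylPt (Q : E3 ≃ₗᵢ[ℝ] E3) (f : ℝ × ℝ → ℝ) (y : ℝ × ℝ) : E3 :=
  Q !₂[(√2 + f y) * Real.cos y.2, (√2 + f y) * Real.sin y.2, y.1]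

/-- the axis of the cylinder -/
noncomputable def axis (Q : E3 ≃ₗᵢ[ℝ] E3) : E3 := Q !₂[0, 0, 1]

/-- `γ` is a smooth embedded closed curve in the unit sphere, of constant speed, and `n` is a unit
normal field of the cone over `γ` -/
structure IsLink (γ n : ℝ → E3) : Prop where
  smooth : ContDiff ℝ ∞ γ
  smooth_n : ContDiff ℝ ∞ n
  per : ∀ θ, γ (θ + 2 * Real.pi) = γ θ
  per_n : ∀ θ, n (θ + 2 * Real.pi) = n θ
  unit : ∀ θ, ‖γ θ‖ = 1
  speed : ∃ l : ℝ, 0 < l ∧ ∀ θ, ‖deriv γ θ‖ = l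
  inj : InjOn γ (Ico 0 (2 * Real.pi))
  unit_n : ∀ θ, ‖n θ‖ = 1
  perp : ∀ θ, inner ℝ (n θ) (γ θ) = 0
  perp' : ∀ θ, inner ℝ (n θ) (deriv γ θ) = 0

/-- the point `e^s (γ θ + f (s, θ) n θ)`: height `e^s f (s, θ)` over the cone -/
noncomputable def conePt (γ n : ℝ → E3) (f : ℝ × ℝ → ℝ) (y : ℝ × ℝ) : E3 :=
  Real.exp y.1 • (γ y.2 + f y • n y.2)

/-- `S = {w = 0}` is a smooth self-shrinker with a uniform tubular neighbourhood which, outside a
bounded set, consists of `n₁` graphs over half cylinders of radius `√2` and `n₂` graphs over regular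
cones, each smoothly asymptotic to its cylinder or cone; the asymptotic directions of different ends
are different. -/
structure Ended (S : Set E3) (w : E3 → ℝ) (δ C : ℝ) {n₁ n₂ : ℕ}
    (Q : Fin n₁ → E3 ≃ₗᵢ[ℝ] E3) (f : Fin n₁ → ℝ × ℝ → ℝ)
    (γ n : Fin n₂ → ℝ → E3) (g : Fin n₂ → ℝ × ℝ → ℝ) (R : ℝ) : Prop where
  tube : IsTubeShrinker S w δ C
  smooth : ContDiff ℝ ∞ w
  cyl : ∀ i, Decays (f i)
  link : ∀ j, IsLink (γ j) (n j)
  cone : ∀ j, Decays (g j)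
  cyl_mem : ∀ i y, R ≤ y.1 → cylPt (Q i) (f i) y ∈ S
  cone_mem : ∀ j y, R ≤ y.1 → conePt (γ j) (n j) (g j) y ∈ S
  cover : Bornology.IsBounded (S \ ((⋃ i, cylPt (Q i) (f i) '' {y | R ≤ y.1}) ∪
    ⋃ j, conePt (γ j) (n j) (g j) '' {y | R ≤ y.1}))
  axis_inj : Function.Injective fun i => axis (Q i)
  axis_link : ∀ i j θ, axis (Q i) ≠ γ j θ
  link_link : ∀ j j' θ θ', γ j θ = γ j' θ' → j = j'

/-- a smooth self-shrinker whose ends are asymptotically cylindrical or conical -/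
def IsEndedShrinker (S : Set E3) : Prop :=
  ∃ (w : E3 → ℝ) (δ C : ℝ) (n₁ n₂ : ℕ) (Q : Fin n₁ → E3 ≃ₗᵢ[ℝ] E3) (f : Fin n₁ → ℝ × ℝ → ℝ)
    (γ n : Fin n₂ → ℝ → E3) (g : Fin n₂ → ℝ × ℝ → ℝ) (R : ℝ), Ended S w δ C Q f γ n g R

/-- **The statement T\*.** -/
def TStar : Prop :=
  ∀ μ : ℝ → Measure E3, IsIntegralBrakkeFlow 2 μ → μ 0 univ < ⊤ → ∀ (x₀ : E3) (t₀ : ℝ), 0 < t₀ →
    ∀ S : Set E3, IsEndedShrinker S →
    (∃ ν : ℝ → Measure E3, IsTangentFlow 2 μ x₀ t₀ ν ∧ ν (-1) = (μH[2] : Measure E3).restrict S) →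
    TangentFlowUnique 2 μ x₀ t₀

end Vale.Agent.P218T
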