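import Vale.Agent.P218T.Geo

/-! The chart of a conical end. -/

open MeasureTheory Set Filter Topology
open scoped ContDiff RealInnerProductSpace Real

noncomputable section

namespace Vale.Agent.P218T

open Vale.Agent.P218B (J2 d2)

namespace Co

section gen

variable {D V : Type} [NormedAddCommGroup D] [NormedSpace ℝ D] [NormedAddCommGroup V]
  [NormedSpace ℝ V]

theorem two_le : (2 : WithTop ℕ∞) ≤ (∞ : WithTop ℕ∞) :=
  WithTop.coe_le_coe.2 (le_top (a := (2 : ℕ∞)))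

theorem j2_it {f : D → V} {x : D} {a b c : ℝ} (h : ContDiffAt ℝ 2 f x)
    (h0 : ‖iteratedFDeriv ℝ 0 f x‖ ≤ a) (h1 : ‖iteratedFDeriv ℝ 1 f x‖ ≤ b)
    (h2 : ‖iteratedFDeriv ℝ 2 f x‖ ≤ c) : J2 f x a b c :=
  ⟨h, by rwa [norm_iteratedFDeriv_zero] at h0, by rwa [norm_iteratedFDeriv_one] at h1, by
    rwa [← norm_iteratedFDeriv_fderiv, norm_iteratedFDeriv_one] at h2⟩

theorem j2_fst (y : ℝ × ℝ) : J2 (fun q : ℝ × ℝ => q.1) y |y.1| 1 0 :=
  let h := J2.clm (ContinuousLinearMap.fst ℝ ℝ ℝ) y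
  ⟨h.cd, le_rfl, h.h1.trans (ContinuousLinearMap.norm_fst_le _ _ _), h.h2⟩

theorem j2_snd (y : ℝ × ℝ) : J2 (fun q : ℝ × ℝ => q.2) y |y.2| 1 0 :=
  let h := J2.clm (ContinuousLinearMap.snd ℝ ℝ ℝ) y
  ⟨h.cd, le_rfl, h.h1.trans (ContinuousLinearMap.norm_snd_le _ _ _), h.h2⟩

/-- periodic smooth functions have bounded jets -/
theorem j2_per {f : ℝ → V} (h : ContDiff ℝ ∞ f) (hp : ∀ θ, f (θ + 2 * π) = f θ) :
    ∃ A ≥ (1 : ℝ), ∀ θ, J2 f θ A A A := by
  choose B hB using fun k : ℕ => (Function.Periodic.isBounded_of_continuous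
    (f := iteratedFDeriv ℝ k f) (fun θ => by
      rw [← iteratedFDeriv_comp_add_right, show (fun z => f (z + _)) = f from funext hp])
    Real.two_pi_pos.ne' (h.continuous_iteratedFDeriv (by exact_mod_cast le_top))).exists_norm_le
  have := abs_nonneg (B 0)
  have := abs_nonneg (B 1)
  have := abs_nonneg (B 2)
  refine ⟨1 + |B 0| + |B 1| + |B 2|, by linarith, fun θ => (j2_it (h.contDiffAt.of_le two_le)
    (hB 0 _ ⟨θ, rfl⟩) (hB 1 _ ⟨θ, rfl⟩) (hB 2 _ ⟨θ, rfl⟩)).mono ?_ ?_ ?_⟩ <;>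
    linarith [le_abs_self (B 0), le_abs_self (B 1), le_abs_self (B 2)]

theorem j2_log {z : ℝ} (hz : 1 ≤ z) : J2 Real.log z |Real.log z| 1 1 := by
  refine j2_it (Real.contDiffAt_log.2 (by linarith)) (by simp) ?_ ?_ <;>
    rw [norm_iteratedFDeriv_eq_norm_iteratedDeriv]
  · simpa [abs_of_pos (one_pos.trans_le hz)] using inv_le_one_of_one_le₀ hz
  · simpa [iteratedDeriv_succ] using inv_le_one_of_one_le₀ (one_le_pow₀ (n := 2) hz)

theorem orth_le {a b : E3} (h : ⟪a, b⟫ = 0) : ‖a‖ + ‖b‖ ≤ 2 * ‖a + b‖ := by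
  have := norm_add_sq_real a b
  nlinarith [norm_nonneg a, norm_nonneg b, norm_nonneg (a + b), sq_nonneg (‖a‖ - ‖b‖),
    abs_le_of_sq_le_sq' (show (‖a‖ + ‖b‖) ^ 2 ≤ (2 * ‖a + b‖) ^ 2 by
      nlinarith [sq_nonneg (‖a‖ - ‖b‖), sq_nonneg ‖a + b‖]) (by positivity)]

/-- the lower bound for the differential -/
theorem lo {A : ℝ × ℝ →L[ℝ] E3} {d b : E3} {l : ℝ} (hd : ‖d‖ = 1) (hb : ‖b‖ = 1)
    (h : ⟪d, b⟫ = 0) (hl : 0 ≤ l) (h1 : ‖A (1, 0) - d‖ ≤ 1 / 4)
    (h2 : ‖A (0, 1) - l • b‖ ≤ 1 / 4 * l) (v : ℝ × ℝ) : |v.1| + |v.2| * l ≤ 4 * ‖A v‖ := by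
  have e : v.1 • d + v.2 • l • b = A v - (v.1 • (A (1, 0) - d) + v.2 • (A (0, 1) - l • b)) := by
    rw [show A v = v.1 • A (1, 0) + v.2 • A (0, 1) by rw [← map_smul, ← map_smul, ← map_add]; simp,
      smul_sub, smul_sub]
    abel
  have k := orth_le (a := v.1 • d) (b := v.2 • l • b) (by simp [inner_smul_left, inner_smul_right, h])
  have k' := norm_sub_le_of_le (le_refl ‖A v‖) (norm_add_le_of_le
    (norm_smul_le v.1 (A (1, 0) - d)) (norm_smul_le v.2 (A (0, 1) - l • b)))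
  rw [← e] at k'
  simp only [norm_smul, hd, hb, Real.norm_eq_abs, abs_of_nonneg hl, mul_one] at k k'
  nlinarith [abs_nonneg v.1, abs_nonneg v.2]

end gen

variable {γ n : ℝ → E3} {g : ℝ × ℝ → ℝ} {y : ℝ × ℝ}

theorem spd_eq (h : IsLink γ n) : 0 < spd γ ∧ ∀ θ, ‖deriv γ θ‖ = spd γ :=
  let ⟨_, h1, h2⟩ := h.speed; ⟨h1.trans_eq (h2 0).symm, fun θ => (h2 θ).trans (h2 0).symm⟩

theorem dγ (h : IsLink γ n) (θ : ℝ) : HasDerivAt γ (deriv γ θ) θ :=
  (h.smooth.differentiable (by simp) θ).hasDerivAt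

theorem perp (h : IsLink γ n) (θ : ℝ) : ⟪γ θ, deriv γ θ⟫ = 0 := by
  have := ((dγ h θ).inner ℝ (dγ h θ)).unique ((hasDerivAt_const θ (1 : ℝ)).congr_of_eventuallyEq
    (.of_forall fun t => by simp [h.unit]))
  rw [real_inner_comm (γ θ)] at this
  linarith

theorem smul_tn (h : IsLink γ n) (z θ : ℝ) : (spd γ * z) • tn γ θ = z • deriv γ θ := by
  rw [tn, smul_smul, mul_comm _ z, mul_inv_cancel_right₀ (spd_eq h).1.ne']

theorem inj (h : IsLink γ n) {a b : ℝ} (e : γ a = γ b) : ∃ k : ℤ, b - a = k • (2 * π) := by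
  have p : Function.Periodic γ (2 * π) := h.per
  refine (toIcoMod_eq_toIcoMod Real.two_pi_pos (a := 0)).1 (h.inj (toIcoMod_mem_Ico' _ _)
    (toIcoMod_mem_Ico' _ _) ?_)
  rw [toIcoMod, toIcoMod, p.sub_zsmul_eq, p.sub_zsmul_eq, e]

/-- the chord-arc property -/
theorem arc (h : IsLink γ n) : ∃ c > (0 : ℝ), ∀ a b, |a - b| ≤ π → c * |a - b| ≤ ‖γ a - γ b‖ := by
  have p : Function.Periodic γ (2 * π) := h.per
  have hc := h.smooth.continuous
  have k := ((isCompact_Icc (a := 0) (b := 2 * π)).prod (isCompact_Icc (a := -π)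
    (b := π))).mem_prod_nhdsSet_of_forall (l := 𝓝[>] (0 : ℝ))
    (s := {z : ℝ × ℝ × ℝ | z.1 * |z.2.2| ≤ ‖γ (z.2.1 + z.2.2) - γ z.2.1‖}) fun z hz => by
      refine Filter.prod_mono_left _ nhdsWithin_le_nhds ?_
      rw [← nhds_prod_eq]
      rcases eq_or_ne z.2 0 with e | e
      · have l := half_pos (spd_eq h).1
        have t : Tendsto (fun q : ℝ × ℝ × ℝ => (q.2.1 + q.2.2, q.2.1)) (𝓝 (0, z))
            (𝓝 (z.1, z.1)) := Continuous.tendsto' (by fun_prop) _ _ (by simp [e])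
        filter_upwards [t.eventually ((hasStrictFDerivAt_iff_isLittleO.1 ((h.smooth.contDiffAt
          (x := z.1)).hasStrictDerivAt (by simp)).hasStrictFDerivAt).def l),
          (continuous_fst.tendsto _).eventually_le_const l] with q h1 h2
        have h3 := norm_sub_norm_le ((q.2.1 + q.2.2 - q.2.1) • deriv γ z.1)
          (γ (q.2.1 + q.2.2) - γ q.2.1)
        rw [norm_sub_rev (_ • _)] at h3
        simp only [add_sub_cancel_left, norm_smul, (spd_eq h).2, Real.norm_eq_abs,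
          ContinuousLinearMap.toSpanSingleton_apply] at h1 h3
        show _ ≤ _
        nlinarith [abs_nonneg q.2.2]
      · refine ContinuousAt.eventually_lt (f := fun z : ℝ × ℝ × ℝ => z.1 * |z.2.2|)
          (g := fun z => ‖γ (z.2.1 + z.2.2) - γ z.2.1‖) (by fun_prop) (by fun_prop) ?_ |>.mono
            fun _ => le_of_lt
        simp only [zero_mul, norm_pos_iff, sub_ne_zero]
        intro e'
        obtain ⟨k, hk⟩ := inj h e'.symm
        rw [add_sub_cancel_left, zsmul_eq_mul] at hk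
        have h1 : (-1 : ℝ) < k := by nlinarith [hz.2.1, Real.pi_pos]
        have h2 : (k : ℝ) < 1 := by nlinarith [hz.2.2, Real.pi_pos]
        have : k = 0 := by
          have : (-1 : ℤ) < k := by exact_mod_cast h1
          have : k < 1 := by exact_mod_cast h2
          omega
        exact e (by simp [hk, this])
  obtain ⟨c, h1, h2⟩ := ((Eventually.curry k).and self_mem_nhdsWithin).exists
  refine ⟨c, h2, fun a b hab => ?_⟩
  have := h1.self_of_nhdsSet (toIcoMod Real.two_pi_pos 0 b, a - b)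
    ⟨Ico_subset_Icc_self (toIcoMod_mem_Ico' _ _), abs_le.1 hab⟩
  simp only [toIcoMod] at this
  rwa [p.sub_zsmul_eq, sub_add_eq_add_sub, add_sub_cancel, p.sub_zsmul_eq] at this

/-- the height function -/
def G (g : ℝ × ℝ → ℝ) (y : ℝ × ℝ) : ℝ := g (Real.log y.1, y.2)

theorem P_eq (hy : 0 < y.1) : conP γ n g y = y.1 • (γ y.2 + G g y • n y.2) := by
  rw [conP, conePt, Real.exp_log hy, G]

theorem P_ev (hy : 0 < y.1) :
    conP γ n g =ᶠ[𝓝 y] fun q => q.1 • (γ q.2 + G g q • n q.2) :=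
  ((continuous_fst.tendsto y).eventually_const_lt hy).mono fun _ => P_eq

theorem sm (h : IsLink γ n) (hg : Decays g) (hy : 0 < y.1) : ContDiffAt ℝ ∞ (conP γ n g) y :=
  (contDiffAt_fst.smul ((h.smooth.contDiffAt.comp y contDiffAt_snd).add
    ((hg.smooth.contDiffAt.comp y ((contDiffAt_fst.log hy.ne').prodMk contDiffAt_snd)).smul
      (h.smooth_n.contDiffAt.comp y contDiffAt_snd)))).congr_of_eventuallyEq (P_ev hy)

theorem dP (h : IsLink γ n) (hg : Decays g) (hy : 0 < y.1) (v : ℝ × ℝ) :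
    fderiv ℝ (conP γ n g) y v = v.1 • γ y.2 + (y.1 * v.2) • deriv γ y.2 +
      (v.1 * G g y + fderiv ℝ g (Real.log y.1, y.2) (v.1, y.1 * v.2)) • n y.2 +
      (y.1 * v.2 * G g y) • deriv n y.2 := by
  have h1 := (dγ h y.2).hasFDerivAt.comp y hasFDerivAt_snd
  have h2 := (h.smooth_n.differentiable (by simp) y.2).hasDerivAt.hasFDerivAt.comp y hasFDerivAt_snd
  have h3 := (hg.smooth.differentiable (by simp) _).hasFDerivAt.comp y
    ((hasFDerivAt_fst.log hy.ne').prodMk hasFDerivAt_snd)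
  have e : ((v.1, y.1 * v.2) : ℝ × ℝ) = y.1 • (y.1⁻¹ * v.1, v.2) := by simp [hy.ne']
  rw [((hasFDerivAt_fst.smul (h1.add (h3.smul h2))).congr_of_eventuallyEq (P_ev hy)).fderiv, e,
    map_smul]
  simp [G]
  module

theorem nr (h : IsLink γ n) (hg : Decays g) {η : ℝ} (hη : 0 < η) :
    ∃ R > 0, Nr (conP γ n g) γ (tn γ) (fun z => spd γ * z) R η := by
  obtain ⟨A, hA, hn⟩ := j2_per h.smooth_n h.per_n
  have hl := (spd_eq h).1
  set ε := min (η / 2) (η * spd γ / (1 + A)) with hε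
  have ε0 : 0 < ε := by positivity
  have ε1 : ε ≤ η / 2 := min_le_left _ _
  have ε2 : ε * (1 + A) ≤ η * spd γ := (le_div_iff₀ (by positivity)).1 (min_le_right _ _)
  obtain ⟨R₀, h0⟩ := hg.lim 0 ε ε0
  obtain ⟨R₁, h1⟩ := hg.lim 1 ε ε0
  refine ⟨Real.exp (max R₀ R₁), Real.exp_pos _, fun y hy => ?_⟩
  have p := (Real.exp_pos _).trans hy
  have q := max_le_iff.1 ((Real.lt_log_iff_exp_lt p).2 hy).le
  have k0 : |G g y| ≤ ε := by simpa [G] using h0 (Real.log y.1, y.2) q.1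
  have k1 := (fderiv ℝ g (Real.log y.1, y.2)).le_of_opNorm_le
    (norm_iteratedFDeriv_one (𝕜 := ℝ) g ▸ h1 (Real.log y.1, y.2) q.2)
  have k2 : ‖deriv n y.2‖ ≤ A := norm_deriv_eq_norm_fderiv.trans_le (hn y.2).h1
  refine ⟨?_, ?_, ?_⟩
  · rw [P_eq p, smul_add, add_sub_cancel_left, norm_smul, norm_smul, h.unit_n, Real.norm_eq_abs,
      Real.norm_eq_abs, abs_of_pos p]
    nlinarith
  · have := k1 (1, 0)
    simp only [dP h hg p, mul_zero, zero_mul, zero_smul, add_zero, one_smul, add_sub_cancel_left,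
      norm_smul, h.unit_n, mul_one, one_mul]
    exact (norm_add_le_of_le k0 this).trans (by simp; linarith)
  · have := k1 (0, y.1)
    simp only [dP h hg p, zero_mul, zero_smul, zero_add, mul_one, smul_tn h, add_assoc,
      add_sub_cancel_left]
    refine (norm_add_le _ _).trans ?_
    simp only [norm_smul, h.unit_n, norm_mul, Prod.norm_mk, norm_zero, Real.norm_eq_abs,
      abs_of_pos p, max_eq_right p.le, mul_one] at this ⊢
    nlinarith [mul_le_mul k0 k2 (norm_nonneg _) ε0.le]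

theorem lo' (h : IsLink γ n) {P : ℝ × ℝ → E3} {R η : ℝ} (hη : η ≤ 1 / 4) (hR : 0 < R)
    (k : Nr P γ (tn γ) (fun z => spd γ * z) R η) (hy : R < y.1) (v : ℝ × ℝ) :
    |v.1| + |v.2| * (spd γ * y.1) ≤ 4 * ‖fderiv ℝ P y v‖ := by
  have hl := spd_eq h
  have p : 0 ≤ spd γ * y.1 := (mul_pos hl.1 (hR.trans hy)).le
  exact lo (h.unit _) (by simp [tn, norm_smul, hl.2, abs_of_pos hl.1, hl.1.ne'])
    (by simp [tn, inner_smul_right, perp h]) p ((k y hy).2.1.trans hη)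
    ((k y hy).2.2.trans (mul_le_mul_of_nonneg_right hη p)) v

/-- the mean value estimate for the deviation from the cone -/
theorem mv (h : IsLink γ n) {P : ℝ × ℝ → E3} {R η z z' : ℝ}
    (hs : ∀ y : ℝ × ℝ, R < y.1 → DifferentiableAt ℝ P y)
    (k : Nr P γ (tn γ) (fun z => spd γ * z) R η) (hz : R < z) (hz' : R < z') (θ θ' : ℝ) :
    ‖P (z, θ) - z • γ θ - (P (z', θ') - z' • γ θ')‖ ≤
      η * |z - z'| + η * (spd γ * z') * |θ - θ'| := by
  refine (norm_sub_le_norm_sub_add_norm_sub _ (P (z', θ) - z' • γ θ) _).trans (add_le_add ?_ ?_)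
  · exact (convex_Ioi R).norm_image_sub_le_of_norm_hasDerivWithin_le
      (f := fun t => P (t, θ) - t • γ θ) (fun t ht => (((hs (t, θ) ht).hasFDerivAt.comp_hasDerivAt
        t ((hasDerivAt_id t).prodMk (hasDerivAt_const t θ))).sub
        (by simpa using (hasDerivAt_id t).smul_const (γ θ))).hasDerivWithinAt)
      (fun t ht => (k (t, θ) ht).2.1) hz' hz
  · exact convex_univ.norm_image_sub_le_of_norm_hasDerivWithin_le
      (f := fun t => P (z', t) - z' • γ t) (fun t _ => (((hs (z', t) hz').hasFDerivAt.comp_hasDerivAt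
        t ((hasDerivAt_const t z').prodMk (hasDerivAt_id t))).sub
        ((dγ h t).const_smul z')).hasDerivWithinAt)
      (fun t _ => smul_tn h z' t ▸ (k (z', t) hz').2.2) (mem_univ _) (mem_univ _)

theorem cone_lo (h : IsLink γ n) {z z' : ℝ} (h0 : 0 ≤ z') (h1 : z' ≤ z) (θ θ' : ℝ) :
    |z - z'| + z' * ‖γ θ - γ θ'‖ ≤ 2 * ‖z • γ θ - z' • γ θ'‖ := by
  have e : ‖z • γ θ - z' • γ θ'‖ ^ 2 = (z - z') ^ 2 + z * z' * ‖γ θ - γ θ'‖ ^ 2 := by
    simp only [norm_sub_sq_real, norm_smul, h.unit, inner_smul_left, inner_smul_right,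
      Real.norm_eq_abs, mul_one, sq_abs, conj_trivial]
    ring
  rw [abs_of_nonneg (sub_nonneg.2 h1)]
  refine (abs_le_of_sq_le_sq' ?_ (by positivity)).2
  nlinarith [sq_nonneg (z - z' - z' * ‖γ θ - γ θ'‖), sq_nonneg (z - z'),
    mul_nonneg (mul_nonneg (sub_nonneg.2 h1) h0) (sq_nonneg ‖γ θ - γ θ'‖),
    sq_nonneg (z' * ‖γ θ - γ θ'‖)]

theorem per_P (h : IsLink γ n) (hg : Decays g) (z : ℝ) :
    Function.Periodic (fun θ => conP γ n g (z, θ)) (2 * π) := fun θ => by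
  simp only [conP, conePt, h.per, h.per_n, hg.per]

theorem fib (h : IsLink γ n) (hg : Decays g) : ∃ R > 0, ∀ y y' : ℝ × ℝ, R < y.1 → R < y'.1 →
    conP γ n g y = conP γ n g y' → y'.1 = y.1 ∧ ∃ k : ℤ, y'.2 = y.2 + k * (2 * π) := by
  obtain ⟨c, c0, hc⟩ := arc h
  have hl := (spd_eq h).1
  obtain ⟨R, R0, k⟩ := nr h hg (η := min (1 / 4) (c / 4 / spd γ)) (by positivity)
  have key : ∀ z z' θ θ', R < z' → z' ≤ z → |θ - θ'| ≤ π →
      conP γ n g (z, θ) = conP γ n g (z', θ') → z = z' ∧ θ = θ' := fun z z' θ θ' h1 h2 h3 e => by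
    have p := R0.trans h1
    have k1 := mv h (fun y hy => (sm h hg (R0.trans hy)).differentiableAt (by simp)) k
      (h1.trans_le h2) h1 θ θ'
    rw [e, sub_sub_sub_cancel_left, norm_sub_rev] at k1
    have k2 := cone_lo h p.le h2 θ θ'
    have k3 := mul_le_mul_of_nonneg_left (hc θ θ' h3) p.le
    have k4 := mul_le_mul_of_nonneg_right (min_le_left (1 / 4) (c / 4 / spd γ)) (abs_nonneg (z - z'))
    have k5 := mul_le_mul_of_nonneg_right ((le_div_iff₀ hl).1 (min_le_right (1 / 4) (c / 4 / spd γ)))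
      (mul_nonneg p.le (abs_nonneg (θ - θ')))
    have k6 := mul_nonneg p.le (mul_nonneg c0.le (abs_nonneg (θ - θ')))
    have k7 : z' * (c * |θ - θ'|) = 0 := by nlinarith [abs_nonneg (z - z')]
    exact ⟨sub_eq_zero.1 (abs_nonpos_iff.1 (by nlinarith)), by simpa [p.ne', c0.ne', sub_eq_zero]
      using k7⟩
  refine ⟨R, R0, fun y y' h1 h2 e => ?_⟩
  have m := toIcoMod_mem_Ico Real.two_pi_pos (y.2 - π) y'.2
  have m' : |y.2 - toIcoMod Real.two_pi_pos (y.2 - π) y'.2| ≤ π :=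
    abs_le.2 ⟨by linarith [m.2], by linarith [m.1]⟩
  have e' : conP γ n g (y.1, y.2) = conP γ n g (y'.1, toIcoMod Real.two_pi_pos (y.2 - π) y'.2) :=
    e.trans ((per_P h hg y'.1).sub_zsmul_eq (x := y'.2) _).symm
  obtain ⟨k1, k2⟩ : y.1 = y'.1 ∧ y.2 = toIcoMod Real.two_pi_pos (y.2 - π) y'.2 :=
    (le_total y'.1 y.1).elim (fun a => key _ _ _ _ h2 a m' e') fun a =>
      (key _ _ _ _ h1 a (by rwa [abs_sub_comm]) e'.symm).imp Eq.symm Eq.symm
  exact ⟨k1.symm, toIcoDiv Real.two_pi_pos (y.2 - π) y'.2, by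
    rw [← zsmul_eq_mul]; exact eq_add_of_sub_eq k2.symm⟩

theorem j2 (h : IsLink γ n) (hg : Decays g) : ∃ R ≥ (1 : ℝ), ∃ K : ℝ, ∀ y : ℝ × ℝ, R < y.1 →
    J2 (conP γ n g) y (K * y.1) (K * y.1) (K * y.1) := by
  obtain ⟨A, hA, h1⟩ := j2_per h.smooth h.per
  obtain ⟨B, hB, h2⟩ := j2_per h.smooth_n h.per_n
  choose R hR using fun k => hg.lim k 1 one_pos
  refine ⟨Real.exp (|R 0| + |R 1| + |R 2|), Real.one_le_exp (by positivity), 3 * (A + 5 * B),
    fun y hy => ?_⟩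
  have p := (Real.one_le_exp (by positivity)).trans hy.le
  have p0 := one_pos.trans_le p
  have q := ((Real.lt_log_iff_exp_lt p0).2 hy).le
  have k1 : J2 g (Real.log y.1, y.2) 1 1 1 := by
    refine j2_it (hg.smooth.contDiffAt.of_le two_le) (hR 0 _ ?_) (hR 1 _ ?_) (hR 2 _ ?_) <;>
      linarith [abs_nonneg (R 0), abs_nonneg (R 1), abs_nonneg (R 2), le_abs_self (R 0),
        le_abs_self (R 1), le_abs_self (R 2)]
  have k2 := (((j2_log p).comp (j2_fst y)).mono (le_max_left _ |y.2|) (b' := 1) (c' := 1)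
    (by simp) (by simp)).prodMk ((j2_snd y).mono (le_max_right _ _) le_rfl zero_le_one)
  have k3 := (((h1 y.2).comp (j2_snd y)).add ((J2.comp (f := fun q : ℝ × ℝ => (Real.log q.1, q.2)) k1
    k2).smul ((h2 y.2).comp (j2_snd y)))).mono
    (a' := A + 5 * B) (b' := A + 5 * B) (c' := A + 5 * B) (by linarith) (by linarith) (by linarith)
  refine (((j2_fst y).smul k3).congr (P_ev p0)).mono ?_ ?_ ?_ <;> rw [abs_of_pos p0] <;> nlinarith

end Co

open Co in
theorem con : CON := by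
  intro γ n g h hg
  have hl := (spd_eq h).1
  refine ⟨fun η hη => ?_, fun R₁ K₁ hK => ?_⟩
  · obtain ⟨R, R0, k⟩ := nr h hg (η := min η (1 / 4)) (by positivity)
    refine ⟨R, R0, fun y hy => ?_, fun y hy => ⟨sm h hg (R0.trans hy), fun v hv => ?_⟩⟩
    · have p := (R0.trans hy).le
      exact ⟨(k y hy).1.trans (by gcongr; exact min_le_left _ _), (k y hy).2.1.trans
        (min_le_left _ _), (k y hy).2.2.trans (by gcongr; exact min_le_left _ _)⟩
    · have := lo' h (min_le_right _ _) R0 k hy v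
      have p := mul_pos hl (R0.trans hy)
      rw [hv, norm_zero] at this
      exact Prod.ext (abs_nonpos_iff.1 (by nlinarith [abs_nonneg v.2]))
        (abs_nonpos_iff.1 (by nlinarith [abs_nonneg v.1]))
  obtain ⟨R₂, p2, k2⟩ := nr h hg (η := 1 / 4) (by positivity)
  obtain ⟨R₃, p3, k3⟩ := fib h hg
  obtain ⟨R₄, p4, K, k4⟩ := j2 h hg
  obtain ⟨R, hR⟩ : ∃ R, ∀ z, R < z → R₁ ≤ z ∧ R₂ < z ∧ R₃ < z ∧ R₄ < z ∧ 8 * K₁ ≤ z ∧
      (spd γ)⁻¹ ≤ z := ⟨|R₁| + R₂ + R₃ + R₄ + 8 * |K₁| + (spd γ)⁻¹, fun z hz => by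
    have := inv_pos.2 hl
    refine ⟨?_, ?_, ?_, ?_, ?_, ?_⟩ <;>
      linarith [abs_nonneg R₁, abs_nonneg K₁, le_abs_self R₁, le_abs_self K₁]⟩
  refine ⟨R, max K 4, fun y hy => sm h hg (p2.trans (hR _ hy).2.1), fun z θ _ => per_P h hg z θ,
    fun y y' a b => k3 y y' (hR _ a).2.2.1 (hR _ b).2.2.1, fun y hy => ?_, fun y hy v => ?_,
    fun y hy => ?_⟩ <;> obtain ⟨a1, a2, a3, a4, a5, a6⟩ := hR _ hy <;> have p := p2.trans a2
  · have e := norm_add_sq_real (γ y.2) (G g y • n y.2)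
    rw [inner_smul_right, real_inner_comm, h.perp, h.unit] at e
    have k := mul_le_mul_of_nonneg_left (hK y a1) p.le
    rw [P_eq p, norm_smul, Real.norm_of_nonneg p.le]
    refine ⟨le_mul_of_one_le_right p.le (abs_le_of_sq_le_sq' (by nlinarith) (norm_nonneg _)).2,
      (mul_le_mul_of_nonneg_left (norm_add_le _ _) p.le).trans ?_⟩
    rw [norm_smul, h.unit, h.unit_n, mul_one, mul_add, mul_one, add_le_add_iff_left]
    refine k.trans ?_
    rw [sq, ← div_div, mul_div_cancel₀ _ p.ne', div_le_iff₀ p]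
    linarith
  · have k := lo' h le_rfl p2 k2 a2 v
    have k' : 1 ≤ spd γ * y.1 := by rwa [← div_le_iff₀' hl, one_div]
    refine (norm_prod_le_iff.2 ⟨?_, ?_⟩).trans (mul_le_mul_of_nonneg_right (le_max_right K 4)
      (norm_nonneg _)) <;> rw [Real.norm_eq_abs] <;> nlinarith [abs_nonneg v.1, abs_nonneg v.2]
  · have := mul_le_mul_of_nonneg_right (le_max_left K 4) p.le
    exact (k4 y a4).mono this this this

end Vale.Agent.P218T
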