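import Vale.Agent.P218T.Spec
import Vale.Agent.P218Q.Bas
import Vale.Agent.P218G.Hlf

/-! The assembly of the interface `LF` from the finite dimensional reduction. -/

open Set Filter Topology MeasureTheory Metric

noncomputable section

namespace Vale.Agent.P218T

open Vale.Agent.P218 Vale.Agent.P218Q Vale.Agent.P218G Vale.Agent.P218D Vale.Agent.P218Q.FD

variable {α ι : Type} [Fintype α] [Fintype ι]
  {X Y : (ι → ℝ) → Type} {C : Type} [∀ W, NormedAddCommGroup (X W)]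
  [∀ W, NormedSpace ℂ (X W)] [∀ W, NormedAddCommGroup (Y W)] [∀ W, NormedSpace ℂ (Y W)]
  [NormedAddCommGroup C] [NormedSpace ℂ C] {o : Obj α ι X Y C} {F : FD α ι}
  {U : ∀ Z : ℝ, (α ⊕ ι → ℂ) → X fun _ => Z} {K r e₀ : ℝ}
  {Ψ Θ : (α ⊕ ι → ℂ) → α ⊕ ι → ℂ}

omit [Fintype ι] in
theorem dg_mem {Zs Z : ℝ} (h : Zs ≤ Z) (h0 : 0 ≤ Z) :
    (dg Z : (ι → ℝ) × ℝ) ∈ P218Q.Ad Zs :=
  ⟨fun _ => h, fun _ _ => by change Z ≤ 10 * Z; linarith, zero_le_one, le_rfl⟩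

theorem tendsto_isq (K : ℝ) : Tendsto (fun Z : ℝ => K * (1 / Z ^ 2)) atTop (𝓝 0) := by
  simpa using (tendsto_inv_atTop_zero.comp (tendsto_pow_atTop two_ne_zero)).const_mul K

theorem theta_zero (hL : Link o F U K) (hO : F.Out Ψ Θ r) : Θ 0 = 0 := by
  refine tendsto_nhds_unique hO.base (squeeze_zero_norm' ?_ (tendsto_isq K))
  filter_upwards [eventually_ge_atTop (F.Zs F.J0), eventually_ge_atTop 2,
    ev_quad one_pos 0 (4 * (7 / 5 * nu F.J0) + 1)] with Z h1 h2 h3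
  simpa using (hL.mid Z h1 0 ⟨fun _ => by simpa using F.r0, fun l => mem_dsc h2
    (by change _ < Z ^ 2; linarith) (by simp)⟩ fun l => by simp).2.2.1

theorem chart (h0 : Θ 0 = 0) (h : F.NFm Ψ Θ r) : ∃ B s : ℝ, 0 ≤ B ∧ 0 < s ∧ ∀ ξ, ‖ξ‖ < s →
    Θ (Ψ ξ) = ξ ∧ Ψ (star ξ) = star (Ψ ξ) ∧ ‖Ψ ξ‖ ≤ B * ‖ξ‖ ∧ ContinuousAt Ψ ξ ∧
      DifferentiableAt ℂ Θ ξ ∧ ‖fderiv ℂ Θ ξ‖ ≤ B := by
  have h1 := h.hol'
  have h2 := h.left
  have h3 := h.conj'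
  have h4 := h.right 0 (mem_ball_self h.r0)
  rw [h0] at h1 h2 h3 h4
  obtain ⟨B, hB, h5⟩ := h1.self_of_nhds.isBigO_sub.exists_nonneg
  have h6 := P268.analyticAt_of_differentiableOn isOpen_ball h.hol (mem_ball_self h.r0)
  obtain ⟨s, hs, h7⟩ := Metric.eventually_nhds_iff_ball.1 (h1.and (h2.and (h3.and (h5.bound.and
    (h6.eventually_analyticAt.and
      (h6.fderiv.continuousAt.norm.eventually (gt_mem_nhds (lt_add_one _))))))))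
  refine ⟨B + (‖fderiv ℂ Θ 0‖ + 1), s, by positivity, hs, fun ξ hξ => ?_⟩
  obtain ⟨k1, k2, k3, k4, k5, k6⟩ := h7 ξ (mem_ball_zero_iff.2 hξ)
  rw [h4, sub_zero, sub_zero] at k4
  exact ⟨k2, k3, k4.trans (by gcongr; exact le_add_of_nonneg_right (by positivity)),
    k1.continuousAt, k5.differentiableAt, by linarith⟩

theorem grad_le (hL : Link o F U K) {Z : ℝ} (hZ : F.Zs F.J0 ≤ Z) (h0 : 0 ≤ Z) {x : α ⊕ ι → ℂ}
    (hΘ : DifferentiableAt ℂ Θ x) (hm : F.inv F.J0 (dg Z) (Θ x) ∈ F.dm F.J0 (dg Z))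
    (he : ∀ᶠ x' in 𝓝 x, F.X F.J0 (dg Z) (F.inv F.J0 (dg Z) (Θ x')) = Θ x') :
    ‖fderiv ℂ (F.fN Θ F.J0 fun _ => Z) x‖ ≤ Fintype.card (α ⊕ ι) * ‖fderiv ℂ Θ x‖ *
      ‖o.lm _ (U Z (F.inv F.J0 (dg Z) (Θ x)))‖ := by
  have hp := dg_mem (ι := ι) hZ h0
  have h1 := diff_inv le_rfl hp hm
  rw [he.self_of_nhds] at h1
  have h2 := (h1.comp x hΘ).hasFDerivAt
  have hn := (open_dom _ _ _).mem_nhds hm
  have h3 := ((F.holf _ le_rfl _ hp).differentiableAt hn).hasFDerivAt.comp x h2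
  have h4 := ((F.holX _ le_rfl _ hp).differentiableAt hn).hasFDerivAt.comp x h2
  have h5 : fderiv ℂ (F.fN Θ F.J0 fun _ => Z) x = _ := h3.fderiv
  have h6 : fderiv ℂ Θ x = _ := (h4.congr_of_eventuallyEq (he.mono fun _ h => h.symm)).fderiv
  refine ContinuousLinearMap.opNorm_le_bound _ (by positivity) fun v => ?_
  rw [h5, ContinuousLinearMap.comp_apply, (hL.sol Z hZ _ hm).2.2.2.2.2, mul_assoc, mul_assoc,
    ← nsmul_eq_mul, ← Finset.card_univ]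
  refine (norm_sum_le _ _).trans (Finset.sum_le_card_nsmul _ _ _ fun i _ => ?_)
  rw [norm_mul, mul_left_comm]
  refine mul_le_mul (norm_le_pi_norm _ i) ((norm_le_pi_norm _ i).trans ?_) (norm_nonneg _)
    (norm_nonneg _)
  rw [← ContinuousLinearMap.comp_apply]
  exact (congrArg (fun A : (α ⊕ ι → ℂ) →L[ℂ] α ⊕ ι → ℂ => ‖A v‖) h6.symm).trans_le
    ((fderiv ℂ Θ x).le_opNorm v)

variable (o F U Ψ Θ e₀) in
/-- the facts about the real member with constraint values `ξ` and cut `Z` -/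
structure Gd (B : ℝ) (ξ : α ⊕ ι → ℂ) (Z : ℝ) (y : α ⊕ ι → ℂ) : Prop where
  rs : o.RS e₀ Z (y ∘ .inr) (y ∘ .inl) (U Z y)
  xx : o.xx _ (U Z y) = ξ
  lm : star (o.lm _ (U Z y)) = o.lm _ (U Z y)
  hs : o.hs _ (y ∘ .inr) (U Z y) ≤ B * (‖ξ‖ + 1 / Z ^ 2)
  lmb : ‖o.lm _ (U Z y)‖ ≤ B * o.hs _ (y ∘ .inr) (U Z y)
  gr : ‖fderiv ℂ (F.fN Θ F.J0 fun _ => Z) (Ψ ξ)‖ ≤ B * ‖o.lm _ (U Z y)‖
  val : F.fN Θ F.J0 (fun _ => Z) (Ψ ξ) = o.f o.J₀ 0 _ (U Z y, bs (y ∘ .inr) 1)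
  fs : ‖F.fN Θ F.J0 (fun _ => Z) (Ψ ξ) - o.FS‖ ≤ B * (‖ξ‖ + 1 / Z)

theorem exists_gd (hL : Link o F U K) (hO : F.Out Ψ Θ r) (he : 0 < e₀) (he1 : e₀ ≤ 1) :
    ∃ B s Z₂ : ℝ, 1 ≤ B ∧ 0 < s ∧
      (∀ ξ, ‖ξ‖ < s → Ψ (star ξ) = star (Ψ ξ) ∧ ‖Ψ ξ‖ ≤ B * ‖ξ‖ ∧ ContinuousAt Ψ ξ) ∧
      (∀ ξ Z, ‖ξ‖ < s → star ξ = ξ → Z₂ ≤ Z → (∀ l, ‖Ψ ξ (.inr l)‖ * Z ^ 3 ≤ 1) →
        Gd o F U e₀ Ψ Θ B ξ Z (F.inv F.J0 (dg Z) ξ)) ∧
      ContinuousOn (fun q : ℝ × (α ⊕ ι → ℂ) => o.co _ (U q.1 (F.inv F.J0 (dg q.1) q.2)))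
        {q | Z₂ ≤ q.1 ∧ ‖q.2‖ < s ∧ ∀ l, ‖Ψ q.2 (.inr l)‖ * q.1 ^ 3 ≤ 1} := by
  obtain ⟨B, s, hB, hs, h1⟩ := chart (theta_zero hL hO) hO.nf
  obtain ⟨r', Z₁, hr', h2, h3⟩ := hO.mem
  have hK := hL.K0
  have hs' : 0 < min s r' := lt_min hs hr'
  obtain ⟨Z₂, h4⟩ := eventually_atTop.1 ((eventually_ge_atTop Z₁).and ((eventually_ge_atTop
    (F.Zs F.J0)).and ((eventually_ge_atTop 2).and (eventually_ge_atTop (3 / e₀)))))
  have h5 : ∀ ξ : α ⊕ ι → ℂ, ‖ξ‖ < min s r' / (B + 1) → ‖ξ‖ < s ∧ ‖Ψ ξ‖ < min s r' := by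
    intro ξ hξ
    rw [lt_div_iff₀ (by positivity)] at hξ
    have k1 : ‖ξ‖ < s := by nlinarith [norm_nonneg ξ, min_le_left s r']
    exact ⟨k1, by nlinarith [norm_nonneg ξ, (h1 ξ k1).2.2.1]⟩
  have h6 : ∀ (a Z : ℝ), 0 ≤ a → 2 ≤ Z → a * Z ^ 3 ≤ 1 → a < 1 / Z ^ 2 := by
    intro a Z k1 k2 k3
    rw [lt_div_iff₀ (by positivity)]
    nlinarith [mul_nonneg k1 (sq_nonneg Z)]
  refine ⟨(B + 1) * (Fintype.card (α ⊕ ι) + 1) + K * (K + 1), min s r' / (B + 1), Z₂,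
    by nlinarith [(Fintype.card (α ⊕ ι)).cast_nonneg (α := ℝ), mul_nonneg hK hK], by positivity,
    fun ξ hξ => ?_, fun ξ Z hξ hr hZ hc => ?_, ?_⟩
  · obtain ⟨-, k1, k2, k3, -⟩ := h1 ξ (h5 ξ hξ).1
    refine ⟨k1, k2.trans (mul_le_mul_of_nonneg_right ?_ (norm_nonneg _)), k3⟩
    nlinarith [(Fintype.card (α ⊕ ι)).cast_nonneg (α := ℝ), mul_nonneg hK hK]
  · obtain ⟨z1, z2, z3, z4⟩ := h4 Z hZ
    obtain ⟨k1, k2⟩ := h5 ξ hξ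
    rw [lt_min_iff] at k2
    obtain ⟨k3, k4, -⟩ := h1 ξ k1
    have k5 := fun l => h6 _ Z (norm_nonneg _) z3 (hc l)
    obtain ⟨k6, k7, k8, k9⟩ := h2 Z z1 _ k2.2 k5
    have k10 := grad_le hL z2 (by linarith) (h1 _ k2.1).2.2.2.2.1 k6 (by
      filter_upwards [ball_mem_nhds _ (sub_pos.2 k2.2), eventually_all.2 fun l =>
        (continuous_apply (Sum.inr l)).norm.continuousAt.eventually (gt_mem_nhds (k5 l))]
        with x m1 m2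
      exact (h2 Z z1 x (by linarith [norm_lt_of_mem_ball m1]) m2).2.1)
    rw [← k4, hr, k3] at k8
    rw [k3] at k6 k7 k9 k10
    have k11 : ∀ l, ‖F.inv F.J0 (dg Z) ξ (.inr l)‖ * Z ^ 2 ≤ e₀ := fun l => by
      have m1 := mul_le_mul_of_nonneg_right (k9 l) (by positivity : 0 ≤ Z ^ 3)
      have m2 : 1 / Z ^ 4 * Z ^ 3 ≤ 1 := by
        rw [one_div, inv_mul_le_iff₀ (by positivity), mul_one]
        exact pow_le_pow_right₀ (by linarith) (by norm_num)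
      rw [div_le_iff₀ he] at z4
      refine le_of_mul_le_mul_right ?_ (by linarith : 0 < Z)
      nlinarith [hc l]
    obtain ⟨m1, m2, m3, m4, m5, -⟩ := hL.sol Z z2 _ k6
    obtain ⟨n1, n2, -, n4, n5⟩ := hL.mid Z z2 _ k6 fun l => (k11 l).trans he1
    rw [k7] at n2
    have m6 : F.fN Θ F.J0 (fun _ => Z) (Ψ ξ) = F.f F.J0 (dg Z) (F.inv F.J0 (dg Z) ξ) := by
      rw [fN, k3]
      rfl
    have c0 : (0 : ℝ) ≤ (B + 1) * (Fintype.card (α ⊕ ι) + 1) := by positivity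
    have c1 : 1 / Z ^ 2 ≤ 1 / Z := one_div_le_one_div_of_le (by linarith) (by nlinarith)
    have c2 : 0 ≤ 1 / Z ^ 2 := by positivity
    have c3 := norm_nonneg ξ
    refine ⟨⟨m1, k11, m2, funext fun l => congrFun k8.symm _, funext fun l => congrFun k8.symm _,
      (m3 k8.symm).1⟩, m4.symm.trans k7, (m3 k8.symm).2, n1.trans ?_, n4.trans ?_, k10.trans ?_,
      m6.trans m5, m6 ▸ n5.trans ?_⟩
    · nlinarith [mul_le_mul_of_nonneg_left n2 hK, mul_nonneg c0 (add_nonneg c3 c2),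
        mul_nonneg hK c3]
    · refine mul_le_mul_of_nonneg_right (by nlinarith) (add_nonneg (apply_nonneg _ _)
        (norm_nonneg _))
    · refine mul_le_mul_of_nonneg_right ?_ (norm_nonneg _)
      nlinarith [mul_le_mul_of_nonneg_left (h1 _ k2.1).2.2.2.2.2
        ((Fintype.card (α ⊕ ι)).cast_nonneg (α := ℝ)), mul_nonneg hK hK,
        (Fintype.card (α ⊕ ι)).cast_nonneg (α := ℝ)]
    · nlinarith [mul_le_mul_of_nonneg_left n2 hK, mul_nonneg c0 (add_nonneg c3 (c2.trans c1)),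
        mul_nonneg hK c3, mul_le_mul_of_nonneg_left c1 (mul_nonneg hK hK)]
  · have k1 : ContinuousOn (fun q : ℝ × (α ⊕ ι → ℂ) => (q.1, Ψ q.2)) {q | Z₂ ≤ q.1 ∧
        ‖q.2‖ < min s r' / (B + 1) ∧ ∀ l, ‖Ψ q.2 (.inr l)‖ * q.1 ^ 3 ≤ 1} := fun q hq =>
      (continuousAt_fst.prodMk (ContinuousAt.comp (h1 _ (h5 _ hq.2.1).1).2.2.2.1
        continuousAt_snd)).continuousWithinAt
    have k2 : ∀ q : ℝ × (α ⊕ ι → ℂ), Z₂ ≤ q.1 ∧ ‖q.2‖ < min s r' / (B + 1) ∧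
        (∀ l, ‖Ψ q.2 (.inr l)‖ * q.1 ^ 3 ≤ 1) → Z₁ ≤ q.1 ∧ ‖Ψ q.2‖ < r' ∧
          ∀ l, ‖Ψ q.2 (.inr l)‖ < 1 / q.1 ^ 2 := fun q hq =>
      ⟨(h4 _ hq.1).1, (h5 _ hq.2.1).2.trans_le (min_le_right _ _),
        fun l => h6 _ _ (norm_nonneg _) (h4 _ hq.1).2.2.1 (hq.2.2 l)⟩
    refine (hL.cont.comp (continuousOn_fst.prodMk (h3.comp k1 k2)) fun q hq =>
      ⟨(h4 _ hq.1).2.1, (h2 _ (k2 q hq).1 _ (k2 q hq).2.1 (k2 q hq).2.2).1⟩).congr fun q hq => ?_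
    simp only [Function.comp_apply, (h1 _ (h5 _ hq.2.1).1).1]

omit [Fintype α] in
theorem zc_inv {η : ℝ} (hη : 0 < η) : ∃ ε₀ : ℝ, 0 < ε₀ ∧ ∀ (x : α ⊕ ι → ℝ) (ε : ℝ), 0 < ε →
    ε ≤ ε₀ → ε < 1 → 1 / zc x ε ^ 3 ≤ ‖fun j => x (Sum.inr j)‖ + η := by
  refine ⟨Real.exp (-(η⁻¹ + 1) ^ 2 / 16), Real.exp_pos _, fun x ε h1 h2 h3 => ?_⟩
  obtain ⟨k1, -, -, k2 | k2⟩ := zc_spec x h1 h3 <;> rw [div_le_iff₀ (by positivity), add_mul]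
  · have k3 : η⁻¹ + 1 ≤ zc x ε := (pow_le_pow_iff_left₀ (by positivity) k1.le two_ne_zero).1
      (by linarith [Real.exp_le_exp.1 (k2.le.trans h2)])
    have k4 := inv_pos.2 hη
    have k5 : η⁻¹ ≤ zc x ε ^ 3 := by
      linarith [le_self_pow₀ (n := 3) (by linarith : 1 ≤ zc x ε) (by norm_num)]
    rw [inv_le_iff_one_le_mul₀' hη] at k5
    linarith [mul_nonneg (norm_nonneg fun j => x (Sum.inr j)) (pow_pos k1 3).le]
  · linarith [mul_pos hη (pow_pos k1 3)]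

theorem rp_re {σ : Type} {v : σ → ℂ} (h : star v = v) : (P218G.rp fun s => (v s).re) = v :=
  funext fun s => Complex.conj_eq_iff_re.1 (congrFun h s)

theorem norm_lam {σ τ : Type} [Fintype σ] [Fintype τ] (e : τ ≃ σ) {v : σ → ℂ} (h : star v = v)
    (c : ℝ) : ‖fun i => c * (v (e i)).re‖ = |c| * ‖v‖ := by
  rw [← Real.norm_eq_abs, ← rp_re h, norm_rp, ← e.surjective.pi_norm_comp, ← norm_smul]
  rfl

theorem dfn_mono {w : E3 → ℝ} {δ a K K' : ℝ} (h : Dfn w δ a K) (hK : K ≤ K') : Dfn w δ a K' :=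
  ⟨h.dpos, h.apos, h.smooth, h.lo, fun x hx => (h.b1 x hx).trans hK,
    fun x hx => (h.b2 x hx).trans hK, fun x hx => (h.bx x hx).trans hK⟩

theorem cl2_mono {f g : E3 → ℝ} {ω ω' : ℝ} (h : Cl2 ω f g) (h0 : 0 < ω) (h1 : ω ≤ ω') :
    Cl2 ω' f g := fun p hp =>
  (h p (hp.trans (inv_anti₀ h0 h1))).imp (·.trans h1) fun k => k.imp (·.trans h1) (·.trans h1)

variable {k : ℕ} {c₀ : ℝ}

/-- the constraint values -/
def tx (e : Fin k ≃ α ⊕ ι) (c₀ : ℝ) (x : Fin k → ℝ) : α ⊕ ι → ℂ :=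
  P218G.rp fun s => x (e.symm s) / c₀

/-- the normal coordinates -/
def nx (Ψ : (α ⊕ ι → ℂ) → α ⊕ ι → ℂ) (e : Fin k ≃ α ⊕ ι) (c₀ : ℝ) (x : Fin k → ℝ) : α ⊕ ι → ℝ :=
  fun s => (Ψ (tx e c₀ x) s).re

theorem norm_tx (e : Fin k ≃ α ⊕ ι) (hc : 0 < c₀) (x : Fin k → ℝ) : ‖tx e c₀ x‖ ≤ ‖x‖ / c₀ := by
  rw [tx, norm_rp]
  refine (pi_norm_le_iff_of_nonneg (by positivity)).2 fun s => ?_
  rw [norm_div, Real.norm_of_nonneg hc.le]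
  exact div_le_div_of_nonneg_right (norm_le_pi_norm x _) hc.le

theorem exists_par (hL : Link o F U K) (hO : F.Out Ψ Θ r) (he : 0 < e₀) (he1 : e₀ ≤ 1)
    (e : Fin k ≃ α ⊕ ι) (hc : 0 < c₀) : ∃ B : ℝ, 1 ≤ B ∧
      Tendsto (fun Z : ℝ => F.fN Θ F.J0 (fun _ => Z) 0) atTop (𝓝 (o.FS : ℂ)) ∧
      ∀ η > 0, ∃ ρ > 0, ρ ≤ η ∧ ρ < 1 ∧ (∀ x ε Z y, ‖x‖ ≤ ρ → 0 < ε → ε ≤ ρ →
        Z = zc (nx Ψ e c₀ x) ε → y = F.inv F.J0 (dg Z) (tx e c₀ x) →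
        Gd o F U e₀ Ψ Θ B (tx e c₀ x) Z y ∧ o.hs _ (y ∘ .inr) (U Z y) + 1 / Z ≤ η ∧
          P218G.rp (nx Ψ e c₀ x) = Ψ (tx e c₀ x) ∧ ‖nx Ψ e c₀ x‖ ≤ η ∧
          ‖nx Ψ e c₀ x‖ ≤ B * (‖x‖ / c₀)) ∧
        ∀ ε, 0 < ε → ε ≤ ρ → ContinuousOn (fun x => o.co _ (U (zc (nx Ψ e c₀ x) ε)
          (F.inv F.J0 (dg (zc (nx Ψ e c₀ x) ε)) (tx e c₀ x)))) (closedBall 0 ρ) := by
  obtain ⟨B, s, Z₂, hB, hs, h1, h2, h3⟩ := exists_gd hL hO he he1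
  refine ⟨B, hB, ?_, fun η hη => ?_⟩
  · have k1 : Ψ 0 = 0 := by simpa using (h1 0 (by simpa using hs)).2.1
    rw [tendsto_iff_norm_sub_tendsto_zero]
    refine squeeze_zero' (.of_forall fun _ => norm_nonneg _) ((eventually_ge_atTop Z₂).mono
      fun Z hZ => ?_) (by simpa using tendsto_inv_atTop_zero.const_mul B)
    simpa [k1] using (h2 0 Z (by simpa using hs) (star_zero _) hZ (by simp [k1])).fs
  obtain ⟨s₁, k1, k2, k3⟩ := zc_top (α := α) (ι := ι) (max (max Z₂ 1) (3 * B / η))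
  obtain ⟨m, m0, m1, m2, m3⟩ : ∃ m, 0 < m ∧ m ≤ s₁ ∧ m ≤ η / 3 ∧ m < s :=
    ⟨min (min s₁ (η / 3)) (s / 2), by positivity, (min_le_left _ _).trans (min_le_left _ _),
      (min_le_left _ _).trans (min_le_right _ _), (min_le_right _ _).trans_lt (half_lt_self hs)⟩
  have hr : ∀ x, star (tx e c₀ x) = tx e c₀ x := fun x => funext fun s => Complex.conj_ofReal _
  have k4 : ∀ x ε, ‖x‖ ≤ min m (m * c₀ / B) → 0 < ε → ε ≤ min m (m * c₀ / B) →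
      B * (‖x‖ / c₀) ≤ m ∧ ‖tx e c₀ x‖ < s ∧ P218G.rp (nx Ψ e c₀ x) = Ψ (tx e c₀ x) ∧
      ‖nx Ψ e c₀ x‖ ≤ B * (‖x‖ / c₀) ∧ max (max Z₂ 1) (3 * B / η) ≤ zc (nx Ψ e c₀ x) ε ∧
      ∀ l, ‖Ψ (tx e c₀ x) (.inr l)‖ * zc (nx Ψ e c₀ x) ε ^ 3 ≤ 1 := by
    intro x ε l1 l2 l3
    rw [le_min_iff] at l1 l3
    have l4 : B * (‖x‖ / c₀) ≤ m := by
      rw [← mul_div_assoc, div_le_iff₀ hc]
      linarith [(le_div_iff₀ (by linarith : 0 < B)).1 l1.2]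
    have l5 := norm_tx e hc x
    have l6 : ‖tx e c₀ x‖ < s := by nlinarith [norm_nonneg (tx e c₀ x)]
    have l7 : P218G.rp (nx Ψ e c₀ x) = Ψ (tx e c₀ x) :=
      rp_re (by rw [← (h1 _ l6).1, hr])
    have l8 : ‖nx Ψ e c₀ x‖ ≤ B * (‖x‖ / c₀) := by
      rw [← norm_rp, l7]
      exact (h1 _ l6).2.1.trans (mul_le_mul_of_nonneg_left l5 (by linarith))
    obtain ⟨l9, l10, -⟩ := zc_spec (nx Ψ e c₀ x) l2 (by linarith)
    refine ⟨l4, l6, l7, l8, k3 _ ε (by linarith) l2 (by linarith), fun l => le_trans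
      (mul_le_mul_of_nonneg_right ?_ (pow_pos l9 3).le) l10⟩
    rw [← l7]
    exact (Complex.norm_real _).trans_le (norm_le_pi_norm (fun j => nx Ψ e c₀ x (.inr j)) l)
  refine ⟨min m (m * c₀ / B), by positivity, by linarith [min_le_left m (m * c₀ / B)],
    by linarith [min_le_left m (m * c₀ / B)], ?_, fun ε l2 l3 => ?_⟩
  · rintro x ε Z y l1 l2 l3 hZ hy
    obtain ⟨l4, l5, l6, l7, l8, l9⟩ := k4 x ε l1 l2 l3
    simp only [← hZ, max_le_iff] at l8 l9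
    have l10 := hy ▸ h2 _ Z l5 (hr x) l8.1.1 l9
    refine ⟨l10, ?_, l6, by linarith, l7⟩
    have l11 : 1 / Z ^ 2 ≤ 1 / Z := one_div_le_one_div_of_le (by linarith) (by nlinarith [l8.1.2])
    have l12 : B * (1 / Z) ≤ η / 3 := by
      rw [mul_one_div, div_le_iff₀ (by linarith)]
      linarith [(div_le_iff₀ hη).1 l8.2]
    have l13 : 0 ≤ 1 / Z := by have := l8.1.2; positivity
    nlinarith [l10.hs, mul_le_mul_of_nonneg_left (add_le_add (norm_tx e hc x) l11)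
      (by linarith : 0 ≤ B)]
  · have l4 : Continuous (tx e c₀) := by
      unfold tx P218G.rp
      fun_prop
    refine h3.comp (f := fun x => (zc (nx Ψ e c₀ x) ε, tx e c₀ x)) (fun x hx => ?_) fun x hx => ?_
    · obtain ⟨-, l5, -⟩ := k4 x ε (mem_closedBall_zero_iff.1 hx) l2 l3
      refine (ContinuousAt.prodMk ((zc_cont (p := (nx Ψ e c₀ x, ε)) l2 ?_).comp
        (f := fun x => (nx Ψ e c₀ x, ε)) (ContinuousAt.prodMk (continuousAt_pi.2 fun s => ?_)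
          continuousAt_const)) l4.continuousAt).continuousWithinAt
      · linarith [min_le_left m (m * c₀ / B)]
      · exact Complex.continuous_re.continuousAt.comp
          (continuousAt_pi.1 ((h1 _ l5).2.2.comp l4.continuousAt) s)
    · obtain ⟨-, l5, -, -, l8, l9⟩ := k4 x ε (mem_closedBall_zero_iff.1 hx) l2 l3
      exact ⟨((le_max_left _ _).trans (le_max_left _ _)).trans l8, l5, l9⟩

theorem rpow_mul_le {L B Λ p : ℝ} (h0 : 0 ≤ L) (hB : 1 ≤ B) (hΛ : 0 ≤ Λ) (h : L ≤ B * Λ)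
    (hp : 0 ≤ p) (hp3 : p ≤ 3) : L ^ p ≤ B ^ 3 * Λ ^ p := by
  refine (Real.rpow_le_rpow h0 h hp).trans ?_
  rw [Real.mul_rpow (by linarith) hΛ]
  exact mul_le_mul_of_nonneg_right
    (by exact_mod_cast Real.rpow_le_rpow_of_exponent_le hB hp3) (Real.rpow_nonneg hΛ _)

theorem gauge_alg {K B c a r η Z h : ℝ} (hK : 0 ≤ K) (hB : 0 < B) (hc : 0 < c) (h0 : 0 ≤ a)
    (h1 : a ≤ r) (h2 : r ≤ η) (hZ : 0 < Z) (h3 : 0 ≤ h) (h4 : h ≤ B * (a / c + 1 / Z ^ 2))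
    (h5 : 1 / Z ^ 3 ≤ B * (a / c) + r) (h6 : 1 / Z ≤ η)
    (h7 : K * (2 * B ^ 2 * (1 / c ^ 2 + (B / c + 1))) * η ≤ 1 / 4) : K * h ^ 2 ≤ r / 4 := by
  have r0 := h0.trans h1
  have n1 : (a / c) ^ 2 ≤ 1 / c ^ 2 * η * r := by
    rw [div_pow, mul_assoc, one_div_mul_eq_div, sq a]
    gcongr <;> linarith
  have n2 : (1 / Z ^ 2) ^ 2 ≤ (B / c + 1) * η * r := by
    calc (1 / Z ^ 2) ^ 2 = 1 / Z ^ 3 * (1 / Z) := by field_simp
      _ ≤ (B * (r / c) + r) * η := by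
        refine mul_le_mul (h5.trans ?_) h6 (by positivity) (by positivity)
        gcongr
      _ = _ := by ring
  calc K * h ^ 2 ≤ K * (B * (a / c + 1 / Z ^ 2)) ^ 2 := by gcongr
    _ ≤ K * (2 * B ^ 2 * ((a / c) ^ 2 + (1 / Z ^ 2) ^ 2)) := by
      refine mul_le_mul_of_nonneg_left ?_ hK
      linarith [mul_nonneg (sq_nonneg B) (sq_nonneg (a / c - 1 / Z ^ 2))]
    _ ≤ K * (2 * B ^ 2 * (1 / c ^ 2 * η * r + (B / c + 1) * η * r)) := by gcongr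
    _ = K * (2 * B ^ 2 * (1 / c ^ 2 + (B / c + 1))) * η * r := by ring
    _ ≤ r / 4 := by linarith [mul_le_mul_of_nonneg_right h7 r0]

/-- **the assembly** -/
theorem asm : ASM := by
  intro α ι _ _ X Y C _ _ _ _ _ _ o F U K hL Ψ Θ r hO hJ S w₀ δ₀ C₀ ψ w wc c₀ c₁ δ a₀ K' h₀ e₀ hD
  obtain ⟨hc, hc₁, hh, hK, he, he1⟩ := hD.pos
  obtain ⟨F₀, γ, K₁, r₁, g1, g2, g3, g4, g5, g6⟩ := hJ
  set e := (Fintype.equivFin (α ⊕ ι)).symm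
  obtain ⟨B, hB, h1, h2⟩ := exists_par hL hO he he1 e hc
  obtain rfl : F₀ = o.FS := by exact_mod_cast tendsto_nhds_unique g5 h1
  have ha : 0 < |c₁| := abs_pos.2 hc₁
  have hB0 : 0 < B := by linarith
  obtain ⟨ρ, ρ0, ρ1, ρ2, h3, -⟩ := h2 (min (min r₁ (1 / 11)) (|c₁| * B)⁻¹) (by positivity)
  have hl : ∀ {η ξ Z y}, Gd o F U e₀ Ψ Θ B ξ Z y → o.hs _ (y ∘ .inr) (U Z y) ≤ η →
      ‖fun i => c₁ * (o.lm _ (U Z y) (e i)).re‖ ≤ |c₁| * B * η := fun h h' => by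
    rw [norm_lam e h.lm, mul_assoc]
    exact mul_le_mul_of_nonneg_left (h.lmb.trans (mul_le_mul_of_nonneg_left h' hB0.le)) ha.le
  have hs0 : ∀ {Z} (c : ι → ℂ) (V : X fun _ => Z), 0 ≤ o.hs _ c V := fun c V =>
    add_nonneg (apply_nonneg _ _) (norm_nonneg _)
  have hz : ∀ (x : α ⊕ ι → ℝ) {ε ρ : ℝ}, 0 < ε → ε ≤ ρ → ρ < 1 → 0 < zc x ε :=
    fun x _ _ k1 k2 k3 => (zc_spec x k1 (k2.trans_lt k3)).1
  set B₁ := 1 + B / |c₁| with hB₁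
  have hB1 : 1 ≤ B₁ := le_add_of_nonneg_right (by positivity)
  have hB3 : 1 ≤ B₁ ^ 3 := one_le_pow₀ hB1
  have h4 : ∀ x ε Z y Λ, ‖x‖ ≤ ρ → 0 < ε → ε ≤ ρ → Z = zc (nx Ψ e c₀ x) ε →
      y = F.inv F.J0 (dg Z) (tx e c₀ x) → Λ = ‖fun i => c₁ * (o.lm _ (U Z y) (e i)).re‖ →
      11 ≤ Z ∧ Λ ^ 3 ≤ Λ ^ (2 * γ) ∧
      (o.f o.J₀ 0 _ (U Z y, bs (y ∘ .inr) 1)).re ≤ o.FS + K₁ * B₁ ^ 3 * (Λ ^ (2 * γ) + ε) ∧
      Real.exp (-Z ^ 2 / 16) ≤ K₁ * B₁ ^ 3 * (Λ ^ 3 + ε) := by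
    intro x ε Z y Λ k1 k2 k3 hZ hy hΛ
    obtain ⟨k4, k5, k6, k7, -⟩ := h3 x ε Z y k1 k2 k3 hZ hy
    simp only [le_min_iff] at k5 k7 ρ1
    obtain ⟨-, k8, k9⟩ := g6 _ ε k7.1.1 k2 (k3.trans ρ1.1.1)
    have k10 : 0 < Z := hZ ▸ hz _ k2 k3 ρ2
    have k11 : 0 ≤ Λ := hΛ ▸ norm_nonneg _
    have k12 : Λ ≤ 1 := by
      have := hl k4 (le_trans (le_add_of_nonneg_right (by positivity)) k5.2)
      rwa [mul_inv_cancel₀ (by positivity), ← hΛ] at this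
    have k13 : ‖fderiv ℂ (F.fN Θ F.J0 fun _ => Z) (Ψ (tx e c₀ x))‖ ≤ B₁ * Λ := by
      refine k4.gr.trans ?_
      rw [hΛ, norm_lam e k4.lm, ← mul_assoc, hB₁, add_mul, div_mul_cancel₀ _ ha.ne']
      exact mul_le_mul_of_nonneg_right (by linarith) (norm_nonneg _)
    rw [← hZ, k6] at k8 k9
    refine ⟨?_, ?_, ?_, k9.trans ?_⟩
    · exact (one_div_le_one_div k10 (by norm_num)).1 (by linarith [hs0 (y ∘ .inr) (U Z y), k5.1.2])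
    · exact_mod_cast Real.rpow_le_rpow_of_exponent_ge' k11 k12 (by linarith)
        (by linarith : 2 * γ ≤ 3)
    · have m1 := (le_abs_self _).trans ((Complex.abs_re_le_norm _).trans k8)
      have m2 := rpow_mul_le (norm_nonneg _) hB1 k11 k13 (p := 2 * γ) (by linarith) (by linarith)
      rw [k4.val, Complex.sub_re, Complex.ofReal_re] at m1
      linarith [mul_le_mul_of_nonneg_left m2 g4,
        mul_le_mul_of_nonneg_left hB3 (mul_nonneg g4 k2.le)]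
    · have m2 := pow_le_pow_left₀ (norm_nonneg _) k13 3
      rw [mul_pow] at m2
      linarith [mul_le_mul_of_nonneg_left m2 g4,
        mul_le_mul_of_nonneg_left hB3 (mul_nonneg g4 k2.le)]
  have hKK : 0 ≤ (c₀ + K' + 1) * (K₁ * B₁ ^ 3) := by positivity
  refine ⟨_, fun i => ψ (e i), γ, fun x ε => w _ (U (zc (nx Ψ e c₀ x) ε)
    (F.inv F.J0 (dg (zc (nx Ψ e c₀ x) ε)) (tx e c₀ x)))
    (F.inv F.J0 (dg (zc (nx Ψ e c₀ x) ε)) (tx e c₀ x) ∘ .inr), fun x ε i => c₁ * (o.lm _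
    (U (zc (nx Ψ e c₀ x) ε) (F.inv F.J0 (dg (zc (nx Ψ e c₀ x) ε)) (tx e c₀ x))) (e i)).re,
    fun x ε => zc (nx Ψ e c₀ x) ε - 3, ρ, K' + (c₀ + K' + 1) * (K₁ * B₁ ^ 3), hD.shr,
    fun i => hD.psi _, g1, ρ0, dfn_mono hD.dfn0 (by linarith), fun x ε k1 k2 k3 => dfn_mono
    (hD.dfn _ _ _ _ (h3 x ε _ _ k1 k2 k3 rfl rfl).1.rs) (by linarith), fun x ε k1 k2 k3 => ?_,
    fun x ε k1 k2 k3 => ?_, fun ω hω => ?_, ?_, fun u l k1 k2 k3 k4 => ?_⟩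
  · refine (hD.area _ _ _ _ (h3 x ε _ _ k1 k2 k3 rfl rfl).1.rs).trans
      (ENNReal.ofReal_le_ofReal ?_)
    obtain ⟨-, k4, k5, k6⟩ := h4 x ε _ _ _ k1 k2 k3 rfl rfl rfl
    have k7 : Real.exp (-zc (nx Ψ e c₀ x) ε ^ 2 / 8) ≤ _ := (Real.exp_le_exp.2
      (by linarith [sq_nonneg (zc (nx Ψ e c₀ x) ε)])).trans (k6.trans (mul_le_mul_of_nonneg_left
        (add_le_add k4 le_rfl) (by positivity)))
    have k8 := mul_le_mul_of_nonneg_left k5 hc.le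
    have k9 := mul_le_mul_of_nonneg_left k7 hK
    have k10 := mul_nonneg (add_nonneg hK (mul_nonneg g4 (zero_le_one.trans hB3)))
      (add_nonneg ((pow_nonneg (norm_nonneg _) 3).trans k4) k2.le)
    rw [hD.area0]
    linarith
  · obtain ⟨k4, -, -, k6⟩ := h4 x ε _ _ _ k1 k2 k3 rfl rfl rfl
    refine ⟨by linarith, (Real.exp_le_exp.2 (by nlinarith)).trans (k6.trans
      (mul_le_mul_of_nonneg_right ?_ (by positivity)))⟩
    linarith [mul_nonneg (add_nonneg hc.le hK) (mul_nonneg g4 (zero_le_one.trans hB3))]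
  · obtain ⟨η, k1, k2⟩ := hD.small (min ω (ω * |c₁|)) (by positivity)
    obtain ⟨ρ', k3, -, k4, k5, -⟩ := h2 (min η (ω / (|c₁| * B))) (by positivity)
    refine ⟨ρ', k3, fun x ε l1 l2 l3 => ?_⟩
    obtain ⟨l4, l5, -⟩ := k5 x ε _ _ l1 l2 l3 rfl rfl
    rw [le_min_iff] at l5
    obtain ⟨l6, l7⟩ := k2 _ _ _ _ l4.rs l5.1
    have l8 := hz (nx Ψ e c₀ x) l2 l3 k4
    refine ⟨(hl l4 (le_trans (le_add_of_nonneg_right (by positivity)) l5.2)).trans_eq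
      (mul_div_cancel₀ _ (by positivity)), cl2_mono l6 (by positivity) (min_le_left _ _),
      fun p m1 m2 => ?_⟩
    rw [norm_lam e l4.lm, ← mul_assoc, e.sum_comp fun i => c₁ * (o.lm _ _ i).re * ψ i p]
    exact (l7 p m1 m2).trans (mul_le_mul_of_nonneg_right (min_le_right _ _) (norm_nonneg _))
  · obtain ⟨η, η0, η1, η2⟩ : ∃ η, 0 < η ∧ η ≤ h₀ ∧
        K' * (2 * B ^ 2 * (1 / c₀ ^ 2 + (B / c₀ + 1))) * η ≤ 1 / 4 := by
      have m0 : 0 ≤ K' * (2 * B ^ 2 * (1 / c₀ ^ 2 + (B / c₀ + 1))) := by positivity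
      generalize K' * (2 * B ^ 2 * (1 / c₀ ^ 2 + (B / c₀ + 1))) = a at *
      refine ⟨min h₀ (1 / (4 * a + 1)), by positivity, min_le_left _ _,
        (mul_le_mul_of_nonneg_left (min_le_right _ _) m0).trans ?_⟩
      rw [mul_one_div, div_le_iff₀ (by positivity)]
      linarith
    obtain ⟨ρ', k3, k4, k5, k6, k7⟩ := h2 η η0
    refine ⟨ρ', k3, fun r' l1 l2 => ?_⟩
    obtain ⟨ε₀, l3, l4⟩ := zc_inv (α := α) (ι := ι) l1
    refine ⟨min ε₀ ρ', lt_min l3 k3, fun ε l5 l6 => ?_⟩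
    rw [le_min_iff] at l6
    have l7 := fun x (hx : ‖x‖ ≤ r') => k6 x ε _ _ (hx.trans l2) l5 l6.2 rfl rfl
    have l8 := fun x (hx : ‖x‖ ≤ r') => (le_add_of_nonneg_right
      (one_div_pos.2 (hz (nx Ψ e c₀ x) l5 l6.2 k5)).le).trans ((l7 x hx).2.1.trans η1)
    refine ⟨fun i p hp x hx => Metric.continuousWithinAt_iff'.2 fun ε' hε => ?_, fun x hx i => ?_⟩
    · rw [mem_closedBall_zero_iff] at hx
      obtain ⟨m1, m2⟩ := hD.core _ _ _ _ (l7 x hx).1.rs (l8 x hx) _ p hp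
      obtain ⟨η', m3, m4⟩ := m2 _ (half_pos hε)
      filter_upwards [self_mem_nhdsWithin, Metric.continuousWithinAt_iff'.1 ((k7 ε l5 l6.2).mono
        (closedBall_subset_closedBall l2) x (mem_closedBall_zero_iff.2 hx)) η' m3] with x' n1 n2
      rw [mem_closedBall_zero_iff] at n1
      rw [m1, (hD.core _ _ _ _ (l7 x' n1).1.rs (l8 x' n1) _ p hp).1]
      exact (m4 _ _ _ _ (l7 x' n1).1.rs (l8 x' n1)
        ((dist_eq_norm _ _).symm.trans_le n2.le)).trans_lt (half_lt_self hε)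
    · obtain ⟨m1, m2, -, -, m3⟩ := l7 x hx
      have m4 := hD.gauge _ _ _ _ m1.rs (l8 x hx) (e i)
      have m5 : c₀ * (tx e c₀ x (e i)).re = x i := by
        rw [tx, P218G.rp, Complex.ofReal_re, e.symm_apply_apply, mul_div_cancel₀ _ hc.ne']
      rw [m1.xx, m5] at m4
      refine m4.trans ?_
      have m6 := (l4 (nx Ψ e c₀ x) ε l5 l6.1 (l6.2.trans_lt k5)).trans (add_le_add
        (((pi_norm_le_iff_of_nonneg (norm_nonneg _)).2 fun j =>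
          norm_le_pi_norm (nx Ψ e c₀ x) _).trans m3) le_rfl)
      have m7 := m1.hs.trans (mul_le_mul_of_nonneg_left
        (add_le_add (norm_tx e hc x) le_rfl) hB0.le)
      have m9 := hz (nx Ψ e c₀ x) l5 l6.2 k5
      exact gauge_alg hK hB0 hc (norm_nonneg x) hx (l2.trans k4) m9 (hs0 _ _) m7 m6
        ((le_add_of_nonneg_left (hs0 _ _)).trans m2) η2
  · obtain ⟨k5, k6⟩ := hD.nd u (fun s => l (e.symm s)) k1 k2 (fun ζ m1 m2 => by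
      simp only [k3 ζ m1 m2, ← e.sum_comp, e.symm_apply_apply]) fun s => by
      simpa using k4 (e.symm s)
    exact ⟨k5, funext fun i => by simpa using congrFun k6 (e i)⟩

end Vale.Agent.P218T
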