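import Vale.Agent.P218T.Lfd
import Vale.Agent.P218D.Spec

/-! The blocks of the proof of `TStar` and how they fit together. -/

open Set Filter Topology MeasureTheory

noncomputable section

namespace Vale.Agent.P218T

open Vale.Agent.P218 Vale.Agent.P218Q Vale.Agent.P218G Vale.Agent.P218D

section

variable {α ι : Type} [Fintype α] [Fintype ι]
  {X Y : (ι → ℝ) → Type} {C : Type} [∀ W, NormedAddCommGroup (X W)]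
  [∀ W, NormedSpace ℂ (X W)] [∀ W, NormedAddCommGroup (Y W)] [∀ W, NormedSpace ℂ (Y W)]
  [NormedAddCommGroup C] [NormedSpace ℂ C]

/-- the finite dimensional family `F` comes from the solutions `U` -/
structure Link (o : Obj α ι X Y C) (F : FD α ι)
    (U : ∀ Z : ℝ, (α ⊕ ι → ℂ) → X fun _ => Z) (K : ℝ) : Prop where
  j0 : F.J0 = o.J₀
  K0 : 0 ≤ K
  sol : ∀ Z, F.Zs F.J0 ≤ Z → ∀ y ∈ F.dm F.J0 (FD.dg Z),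
    o.Ad o.J₀ Z (fun _ => Z / 4) (fun _ => Z) (y ∘ .inr) 1 ∧
    o.Sol o.J₀ (fun _ => Z) (y ∘ .inr) 1 (y ∘ .inl) (U Z y) ∧
    (star y = y → o.cj _ (U Z y) = U Z y ∧ star (o.lm _ (U Z y)) = o.lm _ (U Z y)) ∧
    F.X F.J0 (FD.dg Z) y = o.xx _ (U Z y) ∧
    F.f F.J0 (FD.dg Z) y = o.f o.J₀ 0 _ (U Z y, bs (y ∘ .inr) 1) ∧
    ∀ y', fderiv ℂ (F.f F.J0 (FD.dg Z)) y y'
      = ∑ i, o.lm _ (U Z y) i * fderiv ℂ (F.X F.J0 (FD.dg Z)) y y' i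
  mid : ∀ Z, F.Zs F.J0 ≤ Z → ∀ y ∈ F.dm F.J0 (FD.dg Z), Mid (fun _ => Z) (y ∘ .inr) →
    o.hs _ (y ∘ .inr) (U Z y) ≤ K * (‖y‖ + 1 / Z ^ 2) ∧
    ‖y‖ ≤ K * (‖F.X F.J0 (FD.dg Z) y‖ + 1 / Z ^ 2) ∧
    ‖F.X F.J0 (FD.dg Z) y‖ ≤ K * (‖y‖ + 1 / Z ^ 2) ∧
    ‖o.lm _ (U Z y)‖ ≤ K * o.hs _ (y ∘ .inr) (U Z y) ∧
    ‖F.f F.J0 (FD.dg Z) y - o.FS‖ ≤ K * (‖y‖ + 1 / Z)
  cont : ContinuousOn (fun q : ℝ × (α ⊕ ι → ℂ) => o.co _ (U q.1 q.2))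
    {q | F.Zs F.J0 ≤ q.1 ∧ q.2 ∈ F.dm F.J0 (FD.dg q.1)}

end

/-- the finite dimensional reduction -/
def FAM : Prop := ∀ (α ι : Type) [Fintype α] [Fintype ι] (X Y : (ι → ℝ) → Type) (C : Type)
  [∀ W, NormedAddCommGroup (X W)] [∀ W, NormedSpace ℂ (X W)] [∀ W, CompleteSpace (X W)]
  [∀ W, NormedAddCommGroup (Y W)] [∀ W, NormedSpace ℂ (Y W)]
  [NormedAddCommGroup C] [NormedSpace ℂ C] (o : Obj α ι X Y C), o.PDE →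
  ∃ F U K, Link o F U K

/-- the assembly of `LF` -/
def ASM : Prop := ∀ (α ι : Type) [Fintype α] [Fintype ι] (X Y : (ι → ℝ) → Type) (C : Type)
  [∀ W, NormedAddCommGroup (X W)] [∀ W, NormedSpace ℂ (X W)]
  [∀ W, NormedAddCommGroup (Y W)] [∀ W, NormedSpace ℂ (Y W)]
  [NormedAddCommGroup C] [NormedSpace ℂ C] (o : Obj α ι X Y C) F U K, Link o F U K →
  ∀ Ψ Θ r, F.Out Ψ Θ r → LojF (F.fN Θ F.J0) →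
  ∀ S w₀ δ₀ C₀ ψ w wc c₀ c₁ δ a₀ K' h₀ e₀, o.LFD S w₀ δ₀ C₀ ψ w wc c₀ c₁ δ a₀ K' h₀ e₀ →
  ∃ k ψ' γ w' lam Z r' K'', LF 2 k S w₀ δ₀ C₀ ψ' γ w' lam Z δ a₀ r' K''

/-- the analysis on the surface -/
def INST : Prop := ∀ S : Set E3, IsEndedShrinker S →
  ∃ (α ι : Type) (_ : Fintype α) (_ : Fintype ι) (X Y : (ι → ℝ) → Type) (C : Type)
  (_ : ∀ W, NormedAddCommGroup (X W)) (_ : ∀ W, NormedSpace ℂ (X W))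
  (_ : ∀ W, CompleteSpace (X W)) (_ : ∀ W, NormedAddCommGroup (Y W))
  (_ : ∀ W, NormedSpace ℂ (Y W)) (_ : NormedAddCommGroup C) (_ : NormedSpace ℂ C)
  (o : Obj α ι X Y C), o.PDE ∧ ∃ w₀ δ₀ C₀ ψ w wc c₀ c₁ δ a₀ K' h₀ e₀,
    o.LFD S w₀ δ₀ C₀ ψ w wc c₀ c₁ δ a₀ K' h₀ e₀

theorem tstar_of (inst : INST) (fam : FAM) (nf : ∀ (α ι : Type) [Fintype α] [Fintype ι], NF α ι)
    (hlf : ∀ (α ι : Type) [Fintype α] [Fintype ι], HLF α ι) (asm : ASM) (main : MAIN E3 2) :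
    TStar := by
  intro μ h1 h2 x₀ t₀ h3 S hS h4
  obtain ⟨α, ι, _, _, X, Y, C, _, _, _, _, _, _, _, o, ho, w₀, δ₀, C₀, ψ, w, wc, c₀, c₁, δ, a₀,
    K', h₀, e₀, hl⟩ := inst S hS
  obtain ⟨F, U, K, hF⟩ := fam α ι X Y C o ho
  obtain ⟨Ψ, Θ, r, hO⟩ := nf α ι F
  obtain ⟨δ', G, hG⟩ := hO.fam0
  have hL : LojF (F.fN Θ F.J0) := by
    rw [← hG]
    exact hlf α ι _ _ _ G (hG ▸ hO.real) (hG ▸ hO.fam)
  obtain ⟨k, ψ', γ, w', lam, Z, r', K'', hLF⟩ := asm α ι X Y C o F U K hF Ψ Θ r hO hL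
    S w₀ δ₀ C₀ ψ w wc c₀ c₁ δ a₀ K' h₀ e₀ hl
  exact main two_pos (by simp) k S w₀ δ₀ C₀ ψ' γ w' lam Z δ a₀ r' K'' hLF μ h1 h2 x₀ t₀ h3 h4

end Vale.Agent.P218T
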