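import Vale.Agent.P218T.FamE
import Vale.Agent.P218T.Spec

/-! The finite dimensional reduction. -/

set_option linter.all false

open Set Filter Topology Metric

noncomputable section

namespace Vale.Agent.P218T

namespace Fam

open Vale.Agent.P218Q (dsc nu vb dom dP Ad FD)

variable {α ι : Type} [Fintype α] [Fintype ι]
  {X Y : (ι → ℝ) → Type} {C : Type} [∀ W, NormedAddCommGroup (X W)]
  [∀ W, NormedSpace ℂ (X W)] [∀ W, NormedAddCommGroup (Y W)] [∀ W, NormedSpace ℂ (Y W)]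
  [NormedAddCommGroup C] [NormedSpace ℂ C] {o : Obj α ι X Y C}
  {J : ℕ} {Z Zs : ℝ} {m W : ι → ℝ} {c : ι → ℂ} {v : ℝ} {y : α ⊕ ι → ℂ}

theorem zero_dsc (hP : o.PDE) (hA : o.Ad J Z m W c v) : Dsc J W 0 := fun l => by
  obtain ⟨h1, h2⟩ := big hP hA
  have h3 := (hA.hW l).1
  have h4 : 10 ≤ W l := by linarith [show (10 : ℝ) ≤ 10 ^ 13 by norm_num]
  have h5 : 4 * (7 / 5 * nu J) / W l ^ 2 < 2 := by
    rw [div_lt_iff₀ (by positivity), nu]
    nlinarith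
  have e : vb (W l) 0 - 3 = -1 := by
    simp only [vb]
    ring
  show ‖vb (W l) 0 - 3‖ < _
  rw [e, norm_neg, norm_one]
  linarith

theorem ad_dg (hP : o.PDE) (hZ : o.Zs o.J₀ ≤ Z) (hy : y ∈ dm o o.J₀ fun _ => Z) :
    o.Ad o.J₀ Z (fun _ => Z / 4) (fun _ => Z) (y ∘ .inr) 1 := by
  have z0 : 0 < Z := (zs_pos hP le_rfl).trans_le hZ
  exact ⟨le_rfl, hZ, fun _ => ⟨le_rfl, by linarith⟩, fun _ => quarter z0.le, hy.2,
    zero_le_one, le_rfl⟩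

variable [∀ W, CompleteSpace (X W)]

theorem np_zero (hP : o.PDE) (hA : o.Ad J Z m W 0 v) {a : α → ℂ} {U : X W}
    (hU : o.Sol J W 0 v a U) : o.Np W 0 (U - o.US W) ≤ 2 * (o.K₂ J / Z ^ 2 + o.K * ‖a‖) := by
  have h := hP.pt _ _ _ _ _ _ hA
  have h1 := (lip hP hA hU.1 h.us.1).2
  have h2 := h.us0 rfl
  rw [(hP.indm _ _ _ _ _ _).1] at h2
  rw [hU.2] at h1
  have h3 := map_sub_le_add (o.Np W 0) (U - o.S W 0 (o.ia W a) - (o.US W - o.S W 0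
    (o.FF J 0 W (o.US W, bs 0 v))) + o.S W 0 (o.ia W a)) (o.S W 0 (o.FF J 0 W (o.US W, bs 0 v)))
  have h4 := map_add_le_add (o.Np W 0) (U - o.S W 0 (o.ia W a) - (o.US W - o.S W 0
    (o.FF J 0 W (o.US W, bs 0 v)))) (o.S W 0 (o.ia W a))
  rw [show U - o.S W 0 (o.ia W a) - (o.US W - o.S W 0 (o.FF J 0 W (o.US W, bs 0 v)))
    + o.S W 0 (o.ia W a) - o.S W 0 (o.FF J 0 W (o.US W, bs 0 v)) = U - o.US W by abel] at h3
  linarith [(h.ia a).2]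

theorem np_mid (hP : o.PDE) (hA : o.Ad J Z m W c v) (hy : y ∈ dm o J W) (hM : Mid W (y ∘ .inr)) :
    o.Np W 0 (UU o J W v y - o.US W)
      ≤ o.K₂ J * ((o.K + 1) * ‖y‖) + 2 * (o.K₂ J / Z ^ 2 + o.K * ‖y‖) := by
  have hA0 : o.Ad J Z m W 0 v := { hA with hc := zero_dsc hP hA }
  have hy0 : Sum.elim (y ∘ .inl) 0 ∈ dm o J W := ⟨hy.1, zero_dsc hP hA⟩
  have K1 := hP.Kge
  have K2 := hP.Kge₂ J
  obtain ⟨u, hu⟩ := seg hP hA hy hy0 fun _ => rfl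
  have e : (y - Sum.elim (y ∘ .inl) 0) ∘ .inr = y ∘ .inr := funext fun l => sub_zero _
  have h1 := mvs (eNp hP hA0) (C := o.K₂ J * ((o.K + 1) * ‖y‖)) (fun t ht => (hu t ht).1)
    fun t ht => by
      have h := hP.pt _ _ _ _ _ _ (chg hA (dom_seg hy hy0 ht))
      refine (h.mid (fun l => le_trans ?_ (hM l)) _).1.trans
        (mul_le_mul_of_nonneg_left ?_ (by linarith))
      · refine mul_le_mul_of_nonneg_right ?_ (sq_nonneg _)
        simp only [Function.comp_apply, Pi.add_apply, Pi.smul_apply, Pi.sub_apply, Sum.elim_inr,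
          Pi.zero_apply, zero_add, sub_zero, norm_smul, Complex.norm_real, Real.norm_of_nonneg ht.1]
        exact mul_le_of_le_one_left (norm_nonneg _) ht.2
      · have h2 := (hu t ht).2
        have h3 := (h.u0 (y ∘ .inr)).1
        rw [e] at h2
        have h4 := map_add_le_add (o.Np W ((Sum.elim (y ∘ .inl) 0 + (t : ℂ) •
          (y - Sum.elim (y ∘ .inl) 0)) ∘ .inr)) (u t - o.U0 W (y ∘ .inr)) (o.U0 W (y ∘ .inr))
        rw [sub_add_cancel] at h4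
        have h5 : 2 * o.η ≤ 1 := by
          linarith [hP.eta.2, hP.eta.1, mul_le_mul_of_nonneg_right K1 hP.eta.1]
        have h6 := mul_le_mul h5 (norm_inr y) (norm_nonneg _) zero_le_one
        have h7 := mul_le_mul_of_nonneg_left (norm_inr y) (zero_le_one.trans K1)
        linarith
  simp only [one_smul, zero_smul, add_zero, add_sub_cancel] at h1
  have h2 := np_zero hP hA0 (UU_spec hP hA hy0).1
  have h3 := map_add_le_add (o.Np W 0) (UU o J W v y - UU o J W v (Sum.elim (y ∘ .inl) 0))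
    (UU o J W v (Sum.elim (y ∘ .inl) 0) - o.US W)
  rw [sub_add_sub_cancel] at h3
  have h4 : o.K * ‖Sum.elim (y ∘ .inl) 0 ∘ (.inl : α → α ⊕ ι)‖ ≤ o.K * ‖y‖ :=
    mul_le_mul_of_nonneg_left (norm_inl y) (zero_le_one.trans K1)
  linarith

theorem fn_zero (hP : o.PDE) (hA : o.Ad J Z m W c v) (U : X W) :
    ‖o.Xi W U‖ ≤ o.K * o.Np W 0 (U - o.US W) ∧ ‖o.lm W U‖ ≤ o.K * o.Np W 0 (U - o.US W) := by
  have h := hP.pt _ _ _ _ _ _ ({ hA with hc := zero_dsc hP hA } : o.Ad J Z m W 0 v)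
  obtain ⟨h1, h2, h3⟩ := h.fn (U - o.US W)
  obtain ⟨-, a1, a2, a3⟩ := h.us
  rw [map_sub, a1, sub_zero] at h1
  rw [map_sub, a2, sub_zero] at h2
  rw [map_sub, a3, sub_zero] at h3
  exact ⟨h1, norm_sum_le h2 h3⟩

theorem y_le (hP : o.PDE) (hA : o.Ad J Z m W c v) (hy : y ∈ dm o J W) :
    ‖y‖ ≤ (3 + 3 * (o.K * o.K)) * ‖XX o J (W, v) y‖ + 3 * (o.K * o.K₂ J) * (1 / Z ^ 2) := by
  have hA0 : o.Ad J Z m W 0 v := { hA with hc := zero_dsc hP hA }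
  have hy0 : Sum.elim (y ∘ .inl) 0 ∈ dm o J W := ⟨hy.1, zero_dsc hP hA⟩
  have K1 := hP.Kge
  have K2 := hP.Kge₂ J
  have z1 := one_le hP hA
  have h1 := XX_lip hP hA hy hy0 fun _ => rfl
  have h2 : ‖y ∘ .inl‖ ≤ ‖XX o J (W, v) y‖ := norm_inl (XX o J (W, v) y)
  have h3 := (fn_zero hP hA _).1.trans (mul_le_mul_of_nonneg_left
    (np_zero hP hA0 (UU_spec hP hA hy0).1) (zero_le_one.trans K1))
  have k1 : 1 ≤ o.K * o.K := one_le_mul_of_one_le_of_one_le K1 K1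
  have h4 : o.K * o.K * ‖y ∘ .inl‖ ≤ o.K * o.K * ‖XX o J (W, v) y‖ := by gcongr
  have h5 : ‖XX o J (W, v) y‖ ≤ o.K * o.K * ‖XX o J (W, v) y‖ :=
    le_mul_of_one_le_left (norm_nonneg _) k1
  have h6 : 0 ≤ o.K * o.K₂ J * (1 / Z ^ 2) := by positivity
  have h7 : ‖XX o J (W, v) (Sum.elim (y ∘ .inl) 0)‖
      ≤ 2 * (o.K * o.K * ‖XX o J (W, v) y‖) + 2 * (o.K * o.K₂ J * (1 / Z ^ 2)) := by
    refine norm_sum_le (h2.trans (by linarith [norm_nonneg (XX o J (W, v) y)])) (h3.trans ?_)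
    have e : o.K * (2 * (o.K₂ J / Z ^ 2 + o.K * ‖Sum.elim (y ∘ .inl) 0 ∘ (.inl : α → α ⊕ ι)‖))
        = 2 * (o.K * o.K * ‖y ∘ .inl‖) + 2 * (o.K * o.K₂ J * (1 / Z ^ 2)) := by
      rw [Sum.elim_comp_inl]
      ring
    linarith
  have h8 : ‖(Sum.elim (y ∘ .inl) 0 : α ⊕ ι → ℂ)‖ ≤ ‖XX o J (W, v) y‖ :=
    norm_sum_le h2 ((norm_zero (E := ι → ℂ)).le.trans (norm_nonneg _))
  have h9 := norm_sub_norm_le y (Sum.elim (y ∘ .inl) 0)
  have h10 := norm_sub_norm_le (y - Sum.elim (y ∘ .inl) 0)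
    (XX o J (W, v) y - XX o J (W, v) (Sum.elim (y ∘ .inl) 0))
  rw [norm_sub_rev (y - _)] at h10
  linarith [norm_sub_le (XX o J (W, v) y) (XX o J (W, v) (Sum.elim (y ∘ .inl) 0)),
    norm_nonneg (XX o J (W, v) y)]

theorem co_cont (hP : o.PDE) (hZ : o.Zs o.J₀ ≤ Zs) :
    ContinuousOn (fun q : ℝ × (α ⊕ ι → ℂ) => o.co _ (UU o o.J₀ (fun _ => q.1) 1 q.2))
      {q | Zs ≤ q.1 ∧ q.2 ∈ dm o o.J₀ fun _ => q.1} := by
  rintro ⟨Z, y⟩ hq
  have hA := ad_dg hP (hZ.trans hq.1) hq.2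
  have r0 := hP.rpos
  obtain ⟨s1, s2⟩ := UU_spec hP hA hq.2
  obtain ⟨B, b1, b2, b3⟩ := branch hP hA s1
  let k : ℝ × (α ⊕ ι → ℂ) → Pm ι × (α → ℂ) := fun q =>
    ((q.2 ∘ .inr, em (fun _ => Z) (fun _ => q.1, 1)), q.2 ∘ .inl)
  have hk : Continuous k := ((pc.continuous.comp continuous_snd).prodMk
    (em_cont.comp (by fun_prop))).prodMk (pa.continuous.comp continuous_snd)
  have e : k (Z, y) = (bs (y ∘ .inr) 1, y ∘ .inl) := by simp only [k, em_base, bs]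
  have hB : ContinuousAt (fun q => B (k q)) (Z, y) :=
    ContinuousAt.comp (f := k) (e ▸ b1.continuousAt) hk.continuousAt
  have key : ∀ᶠ q : ℝ × (α ⊕ ι → ℂ) in 𝓝[{q | Zs ≤ q.1 ∧ q.2 ∈ dm o o.J₀ fun _ => q.1}] (Z, y),
      o.co _ (UU o o.J₀ (fun _ => q.1) 1 q.2) = o.co _ (B (k q)) := by
    have t : Continuous fun q : ℝ × (α ⊕ ι → ℂ) => ((fun _ : ι => q.1), q.2 ∘ Sum.inr, (1 : ℝ)) :=
      (continuous_pi fun _ => continuous_fst).prodMk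
        ((pc.continuous.comp continuous_snd).prodMk continuous_const)
    have e1 := (t.tendsto (Z, y)).eventually (hP.pt _ _ _ _ _ _ hA).rp
    have e2 := ((eN hP hA).cont.continuousAt.comp hB).eventually
      (gt_mem_nhds (a := o.r / 2) (by simp only [Function.comp_apply, e, b2]; linarith))
    have e3 := (e ▸ hk.tendsto (Z, y)).eventually b3
    filter_upwards [nhdsWithin_le_nhds e1, nhdsWithin_le_nhds e2, nhdsWithin_le_nhds e3,
      self_mem_nhdsWithin] with q q1 q2 q3 q4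
    obtain ⟨a1, -, a2, -⟩ := q1 _ _ q2 q3
    exact (congrArg _ (sol_eq hP (ad_dg hP (hZ.trans q4.1) q4.2) a1)).trans a2
  exact ((o.co _).continuous.continuousAt.comp hB).continuousWithinAt.congr_of_eventuallyEq key
    (key.self_of_nhdsWithin hq)

/-- the family -/
def fd (hP : o.PDE) (Z1 : ℝ) (h1 : ∀ Z, Z1 ≤ Z → bb o Z ≤ Real.exp (-Z ^ 2 / 5)) : FD α ι where
  r := ra o
  J0 := o.J₀
  Zs J := max (o.Zs J) Z1
  K := o.K₂
  X := XX o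
  f := ff o
  D := DD o
  O := OO o
  r0 := ra_pos hP
  big := hP.big
  zs J hJ := max_le_max (hP.zs J hJ).1 le_rfl
  inl _ _ _ _ := rfl
  holX J hJ p hp y hy := by
    obtain ⟨Z, hA⟩ := adm hP hJ hp (le_max_left _ _) hy
    exact (XX_der hP hA hy).differentiableAt.differentiableWithinAt
  holf J hJ p hp y hy := by
    obtain ⟨Z, hA⟩ := adm hP hJ hp (le_max_left _ _) hy
    exact (ff_der hP hA hy).differentiableAt.differentiableWithinAt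
  bd J hJ p hp y hy := by
    obtain ⟨Z, hA⟩ := adm hP hJ hp (le_max_left _ _) hy
    exact le_of_eq_of_le (congrArg _ (hP.indm _ _ _ _ _ _).2.1.symm)
      ((hP.pt _ _ _ _ _ _ hA).bd _ (UU_box hP hA hy)).2.1
  der J hJ p hp y hy y' hy' ha := by
    obtain ⟨Z, hA⟩ := adm hP hJ hp (le_max_left _ _) hy
    exact XX_lip hP hA hy hy' ha
  ind J hJ W hp y hy := by
    simp only [XX, ff, UU_ind hP, (hP.indJ J W _ _).2, and_self]
  conj p hp y hy := by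
    obtain ⟨Z, hA⟩ := adm hP le_rfl hp (le_max_left _ _) hy
    exact XX_star hP hA hy
  loc J hJ p hp y hy Z hl hZ :=
    loc hP hJ (le_max_left _ _) (fun Z hZ => h1 Z ((le_max_right _ _).trans hZ)) hp hy hl hZ
  prof J hJ p hp y hy j := by
    obtain ⟨Z, hA⟩ := adm hP hJ hp (le_max_left _ _) hy
    exact (hP.pt _ _ _ _ _ _ hA).prof _ _ (UU_spec hP hA hy).1 j
  df J hJ W hp y hy j := by
    obtain ⟨Z, hA⟩ := adm hP hJ hp (le_max_left _ _) hy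
    have := (hP.pt _ _ _ _ _ _ hA).df rfl _ _ (UU_spec hP hA hy).1 j
    rwa [((hP.indm _ _ _ _ _ _).2.2 j).1] at this

theorem mid_all (hP : o.PDE) : ∃ K, 0 ≤ K ∧ ∀ Z m W c y, o.Ad o.J₀ Z m W c 1 →
    y ∈ dm o o.J₀ W → Mid W (y ∘ .inr) →
    o.hs _ (y ∘ .inr) (UU o o.J₀ W 1 y) ≤ K * (‖y‖ + 1 / Z ^ 2) ∧
    ‖y‖ ≤ K * (‖XX o o.J₀ (W, 1) y‖ + 1 / Z ^ 2) ∧
    ‖XX o o.J₀ (W, 1) y‖ ≤ K * (‖y‖ + 1 / Z ^ 2) ∧
    ‖o.lm _ (UU o o.J₀ W 1 y)‖ ≤ K * o.hs _ (y ∘ .inr) (UU o o.J₀ W 1 y) ∧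
    ‖ff o o.J₀ (W, 1) y - o.FS‖ ≤ K * (‖y‖ + 1 / Z) := by
  have K1 := hP.Kge
  have K2 := hP.Kge₂ o.J₀
  obtain ⟨H, hH⟩ : ∃ H, H = o.K₂ o.J₀ * (o.K + 1) + 2 * o.K₂ o.J₀ + 2 * o.K + 1 := ⟨_, rfl⟩
  have H1 : 1 ≤ H := by
    rw [hH]
    exact le_add_of_nonneg_left (by positivity)
  obtain ⟨G, hG⟩ : ∃ G, G = 3 + 3 * (o.K * o.K) + 3 * (o.K * o.K₂ o.J₀) := ⟨_, rfl⟩
  have G0 : 0 ≤ G := by
    rw [hG]
    positivity
  have p1 : 0 ≤ o.K * H := by positivity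
  have p2 : 0 ≤ o.K₂ o.J₀ * (H + 1) := by positivity
  refine ⟨H + G + o.K * H + o.K + o.K₂ o.J₀ * (H + 1), by positivity,
    fun Z m W c y hA hy hM => ?_⟩
  have z1 := one_le hP hA
  have n0 := norm_nonneg y
  have z2 : 0 ≤ 1 / Z ^ 2 := by positivity
  have z3 : 1 / Z ^ 2 ≤ 1 / Z := one_div_le_one_div_of_le (by linarith) (le_self_pow₀ z1 two_ne_zero)
  have h1 := np_mid hP hA hy hM
  have h2 : o.hs _ (y ∘ .inr) (UU o o.J₀ W 1 y) ≤ H * (‖y‖ + 1 / Z ^ 2) := by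
    have a1 : 0 ≤ o.K₂ o.J₀ * (o.K + 1) * (1 / Z ^ 2) := by positivity
    have a2 : 0 ≤ o.K₂ o.J₀ * ‖y‖ := by positivity
    have a3 : 0 ≤ o.K * (1 / Z ^ 2) := by positivity
    rw [Obj.hs, hH]
    rw [div_eq_mul_one_div] at h1
    linarith [norm_inr y]
  have h3 : o.Np W 0 (UU o o.J₀ W 1 y - o.US W) ≤ o.hs _ (y ∘ .inr) (UU o o.J₀ W 1 y) :=
    le_add_of_nonneg_right (norm_nonneg _)
  have h4 := fn_zero hP hA (UU o o.J₀ W 1 y)
  have s0 : 0 ≤ ‖y‖ + 1 / Z ^ 2 := by positivity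
  refine ⟨h2.trans (mul_le_mul_of_nonneg_right (by linarith) s0), ?_, ?_, ?_, ?_⟩
  · refine (y_le hP hA hy).trans (le_trans ?_ (mul_le_mul_of_nonneg_right
      (show G ≤ _ by linarith) (by positivity)))
    have a1 : 0 ≤ (3 + 3 * (o.K * o.K)) * (1 / Z ^ 2) := by positivity
    have a2 : 0 ≤ o.K * o.K₂ o.J₀ * ‖XX o o.J₀ (W, 1) y‖ := by positivity
    rw [hG]
    linarith
  · refine le_trans (norm_sum_le ?_ ?_) (mul_le_mul_of_nonneg_right (show o.K * H ≤ _ by linarith) s0)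
    · exact ((norm_inl y).trans (le_add_of_nonneg_right z2)).trans
        (le_mul_of_one_le_left s0 (one_le_mul_of_one_le_of_one_le K1 H1))
    · rw [mul_assoc]
      exact h4.1.trans (mul_le_mul_of_nonneg_left (h3.trans h2) (by linarith))
  · exact h4.2.trans (mul_le_mul (by linarith) h3 (apply_nonneg _ _) (by positivity))
  · have h5 := ((hP.pt _ _ _ _ _ _ (chg hA hy)).mid hM _).2 (UU_spec hP hA hy).1.1
    rw [(hP.indm _ _ _ _ _ _).2.1] at h5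
    refine h5.trans (le_trans ?_ (mul_le_mul_of_nonneg_right
      (show o.K₂ o.J₀ * (H + 1) ≤ _ by linarith) (by positivity)))
    rw [mul_assoc]
    refine mul_le_mul_of_nonneg_left ?_ (by linarith)
    have a1 : H * (‖y‖ + 1 / Z ^ 2) ≤ H * (‖y‖ + 1 / Z) := by gcongr
    rw [Obj.hs] at h2
    linarith

end Fam

open Fam in
theorem fam : FAM := by
  intro α ι _ _ X Y C _ _ _ _ _ _ _ o hP
  obtain ⟨Z1, h1⟩ := bb_ev hP
  obtain ⟨K, K0, hK⟩ := mid_all hP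
  refine ⟨fd hP Z1 h1, fun Z y => UU o o.J₀ (fun _ => Z) 1 y, K, rfl, K0, fun Z hZ y hy => ?_,
    fun Z hZ y hy hM => hK Z _ _ _ y (ad_dg hP ((le_max_left _ _).trans hZ) hy) hy hM,
    co_cont hP (le_max_left _ _)⟩
  have hA := ad_dg hP ((le_max_left _ _).trans hZ) hy
  refine ⟨hA, (UU_spec hP hA hy).1, fun hs => ?_, XX_eq hP hA hy, rfl, ff_form hP hA hy⟩
  have h2 : o.cj _ (UU o o.J₀ (fun _ => Z) 1 y) = UU o o.J₀ (fun _ => Z) 1 y := by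
    rw [← UU_star hP hA hy, hs]
  obtain ⟨-, -, a1, a2, -⟩ := (hP.pt _ _ _ _ _ _ hA).cj _ _ (UU_spec hP hA hy).1
  rw [h2] at a1 a2
  refine ⟨h2, funext fun i => ?_⟩
  cases i with
  | inl i => exact (congrFun a1 i).symm
  | inr i => exact (congrFun a2 i).symm

end Vale.Agent.P218T
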