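import Mathlib

/-!
# P218: the formal solution of the Hamilton-Jacobi equation of the bowl

`eta = 1 - sum b_n Y^(-n)` formally solves `eta^2 + (eta + 2 Y eta')^2 / Y = 1`.
-/

set_option linter.all false

open Finset

namespace Vale.Agent.P218T.HJ

noncomputable section

/-- convolution square -/
def cv (a : ℕ → ℝ) (m : ℕ) : ℝ := ∑ i ∈ range (m + 1), a i * a (m - i)

/-- the coefficients -/
def b : ℕ → ℝ
  | 0 => 0
  | n + 1 => ((∑ i : Fin n, b (i + 1) * b (n - i)) + (if n = 0 then 1 else 0) +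
      2 * ((2 * n - 1) * b n) + ∑ i : Fin (n + 1), ((2 * (i : ℕ) - 1) * b i) *
        ((2 * ((n - i : ℕ) : ℝ) - 1) * b (n - i))) / 2
  decreasing_by all_goals first | omega | (have := i.2; omega)

/-- the coefficients of `eta + 2 Y eta'` -/
def c (n : ℕ) : ℝ := (2 * n - 1) * b n

theorem b_zero : b 0 = 0 := by rw [b]

theorem c_zero : c 0 = 0 := by simp [c, b_zero]

theorem b_rec (n : ℕ) :
    2 * b (n + 1) = cv b (n + 1) + (if n = 0 then 1 else 0) + 2 * c n + cv c n := by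
  have e : cv b (n + 1) = ∑ i : Fin n, b (i + 1) * b (n - i) := by
    rw [cv, sum_range_succ, sum_range_succ', Fin.sum_univ_eq_sum_range
      (fun i => b (i + 1) * b (n - i))]
    simp [b_zero]
  rw [e, cv, ← Fin.sum_univ_eq_sum_range (fun i => c i * c (n - i)), b]
  simp only [c]
  ring

theorem b_nonneg (n : ℕ) : 0 ≤ b n := by
  induction n using Nat.strong_induction_on with
  | _ n ih =>
    rcases n with _ | n
    · rw [b_zero]
    have hc : ∀ m, m ≤ n → 0 ≤ c m := fun m hm => by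
      rcases m with _ | m
      · rw [c_zero]
      · exact mul_nonneg (by push_cast; linarith [m.cast_nonneg (α := ℝ)]) (ih _ (by omega))
    rw [b]
    refine div_nonneg (add_nonneg (add_nonneg (add_nonneg (sum_nonneg fun i _ => ?_)
      (by positivity)) (mul_nonneg zero_le_two (hc n le_rfl))) (sum_nonneg fun i _ => ?_))
      zero_le_two
    · exact mul_nonneg (ih _ (by have := i.2; omega)) (ih _ (by omega))
    · exact mul_nonneg (hc i (by have := i.2; omega)) (hc (n - i) (by omega))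

theorem b_le_c (n : ℕ) : b n ≤ c n := by
  rcases n with _ | n
  · rw [b_zero, c_zero]
  · have := mul_nonneg (n.cast_nonneg (α := ℝ)) (b_nonneg (n + 1))
    simp only [c]
    push_cast
    linarith

theorem c_nonneg (n : ℕ) : 0 ≤ c n := (b_nonneg n).trans (b_le_c n)

theorem cv_nonneg {a : ℕ → ℝ} (h : ∀ i, 0 ≤ a i) (n : ℕ) : 0 ≤ cv a n :=
  sum_nonneg fun _ _ => mul_nonneg (h _) (h _)

theorem c_le_b (n : ℕ) : c n ≤ b (n + 1) := by
  have := b_rec n
  have := cv_nonneg b_nonneg (n + 1)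
  have := cv_nonneg c_nonneg n
  have : (0 : ℝ) ≤ if n = 0 then 1 else 0 := by positivity
  linarith

theorem b_one : b 1 = 1 / 2 := by
  have := b_rec 0
  simp [cv, sum_range_succ, b_zero, c_zero] at this
  linarith

theorem b_two : b 2 = 5 / 8 := by
  have := b_rec 1
  simp [cv, sum_range_succ, b_zero, c, b_one] at this
  linarith

theorem b_three : b 3 = 37 / 16 := by
  have := b_rec 2
  simp [cv, sum_range_succ, b_zero, c, b_one, b_two] at this
  linarith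

theorem c_one : c 1 = 1 / 2 := by norm_num [c, b_one]

theorem c_two : c 2 = 15 / 8 := by norm_num [c, b_two]

theorem b_pos (n : ℕ) : 0 < b (n + 1) := by
  induction n with
  | zero => norm_num [b_one]
  | succ n ih => exact ih.trans_le ((b_le_c _).trans (c_le_b _))

theorem lc {a lo : ℕ → ℝ} {n : ℕ} (hlo : Monotone lo) (h0 : ∀ m, 0 ≤ a m) (h0' : 0 ≤ lo 1)
    (h1 : ∀ m, lo m * a m ≤ a (m + 1)) (h2 : ∀ m, 1 ≤ m → m < n → a (m + 1) ≤ lo (m + 1) * a m)
    {k j : ℕ} (hk : 1 ≤ k) (hj : k ≤ j) (d : ℕ) (hd : k + d ≤ n) :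
    a (k + d) * a j ≤ a k * a (j + d) := by
  rcases hj.eq_or_lt with rfl | hj
  · rw [mul_comm]
  induction d with
  | zero => simp
  | succ d ih =>
    have l := h0'.trans (hlo (show 1 ≤ k + d + 1 by omega))
    calc a (k + d + 1) * a j ≤ lo (k + d + 1) * a (k + d) * a j :=
          mul_le_mul_of_nonneg_right (h2 _ (by omega) (by omega)) (h0 _)
      _ ≤ lo (j + d) * (a k * a (j + d)) := by
          rw [mul_assoc]
          exact mul_le_mul (hlo (by omega)) (ih (by omega)) (mul_nonneg (h0 _) (h0 _))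
            (l.trans (hlo (by omega)))
      _ ≤ a k * a (j + d + 1) := by
          rw [mul_left_comm]
          exact mul_le_mul_of_nonneg_left (h1 _) (h0 _)

theorem cv_le {a : ℕ → ℝ} (h0 : a 0 = 0) (m : ℕ)
    (h : ∀ i, i < m → a (2 + i) * a (m + 1 - i) ≤ a 2 * a (m + 1)) :
    cv a (m + 3) ≤ 2 * (a 1 * a (m + 2)) + m * (a 2 * a (m + 1)) := by
  have := sum_le_card_nsmul (range m) (fun i => a (i + 1 + 1) * a (m + 3 - (i + 1 + 1))) _
    fun i hi => by
      rw [show i + 1 + 1 = 2 + i by omega, show m + 3 - (2 + i) = m + 1 - i by omega]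
      exact h i (mem_range.1 hi)
  rw [cv, sum_range_succ, sum_range_succ, sum_range_succ', sum_range_succ']
  simp only [card_range, nsmul_eq_mul] at this
  simp only [h0, Nat.sub_self, zero_mul, mul_zero, add_zero, zero_add,
    show m + 3 - 1 = m + 2 by omega, show m + 3 - (m + 2) = 1 by omega]
  linarith

theorem lo_b (m : ℕ) : (2 * (m : ℝ) - 1) * b m ≤ b (m + 1) := c_le_b m

theorem lo_c (m : ℕ) : (2 * (m : ℝ) + 1) * c m ≤ c (m + 1) := by
  have := mul_le_mul_of_nonneg_left (c_le_b m) (show 0 ≤ 2 * (m : ℝ) + 1 by positivity)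
  rw [c.eq_1 (m + 1)]
  push_cast
  linarith

theorem mono1 (e : ℝ) : Monotone fun m : ℕ => 2 * (m : ℝ) + e := fun _ _ h => by
  have := (Nat.cast_le (α := ℝ)).2 h
  simp only
  linarith

theorem up_b {m : ℕ} (h : c (m + 1) ≤ (2 * m + 3) * c m) : b (m + 1) ≤ (2 * m + 1) * b m := by
  have h1 := b_nonneg m
  have h2 : (0 : ℝ) < 2 * m + 1 := by positivity
  refine le_of_mul_le_mul_left ?_ h2
  simp only [c] at h
  push_cast at h
  nlinarith

theorem lc_b {n : ℕ} (h : ∀ m, 1 ≤ m → m < n → c (m + 1) ≤ (2 * m + 3) * c m) {k j : ℕ}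
    (hk : 1 ≤ k) (hj : k ≤ j) (d : ℕ) (hd : k + d ≤ n) : b (k + d) * b j ≤ b k * b (j + d) :=
  lc (mono1 (-1)) b_nonneg (by norm_num) lo_b (fun m h1 h2 => by
    convert up_b (h m h1 h2) using 2; push_cast; ring) hk hj d hd

theorem lc_c {n : ℕ} (h : ∀ m, 1 ≤ m → m < n → c (m + 1) ≤ (2 * m + 3) * c m) {k j : ℕ}
    (hk : 1 ≤ k) (hj : k ≤ j) (d : ℕ) (hd : k + d ≤ n) : c (k + d) * c j ≤ c k * c (j + d) :=
  lc (mono1 1) c_nonneg (by norm_num) lo_c (fun m h1 h2 => by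
    convert h m h1 h2 using 2; push_cast; ring) hk hj d hd

theorem up_c (n : ℕ) (hn : 1 ≤ n) : c (n + 1) ≤ (2 * n + 3) * c n := by
  induction n using Nat.strong_induction_on with
  | _ n ih =>
    have ih' : ∀ m, 1 ≤ m → m < n → c (m + 1) ≤ (2 * m + 3) * c m := fun m h1 h2 => ih m h2 h1
    obtain _ | _ | _ | m := n
    · omega
    · norm_num [c, b_one, b_two]
    · norm_num [c, b_three, b_two]
    have h1 := cv_le b_zero (m + 1) fun i hi => by
      have := lc_b ih' (k := 2) (j := m + 1 + 1 - i) (by omega) (by omega) i (by omega)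
      rwa [show m + 1 + 1 - i + i = m + 1 + 1 by omega] at this
    have h2 := cv_le c_zero m fun i hi => by
      have := lc_c ih' (k := 2) (j := m + 1 - i) (by omega) (by omega) i (by omega)
      rwa [show m + 1 - i + i = m + 1 by omega] at this
    have h3 := b_rec (m + 3)
    have h4 := c_le_b (m + 1)
    have h5 := c_le_b (m + 2)
    have h6 := lo_b (m + 2)
    have h7 := b_nonneg (m + 2)
    have hm := m.cast_nonneg (α := ℝ)
    have h8 := mul_le_mul_of_nonneg_left h4 hm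
    rw [b_one, b_two] at h1
    rw [c_one, c_two] at h2
    rw [if_neg (by omega), c.eq_1 (m + 3)] at h3
    rw [c.eq_1 (m + 3), c.eq_1 (m + 3 + 1)]
    push_cast at *
    have h9 : 2 * b (m + 4) ≤ (4 * m + 12) * b (m + 3) + (20 * m + 5) / 8 * b (m + 2) := by
      nlinarith
    have h10 := mul_le_mul_of_nonneg_left h9 (show 0 ≤ 2 * (m : ℝ) + 7 by positivity)
    have h11 := mul_le_mul_of_nonneg_left h6 (show 0 ≤ 2 * (m : ℝ) + 3 by positivity)
    nlinarith [mul_nonneg hm h7, mul_nonneg (mul_nonneg hm hm) h7]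

theorem b_succ_le {n : ℕ} (hn : 1 ≤ n) : b (n + 1) ≤ (2 * n + 1) * b n := up_b (up_c n hn)

theorem c_le (k : ℕ) : 2 * c (k + 1) ≤ (k + 4) ^ k := by
  induction k with
  | zero => norm_num [c_one]
  | succ k ih =>
    have hk := k.cast_nonneg (α := ℝ)
    have h1 := up_c (k + 1) (by omega)
    have h2 := one_add_mul_le_pow (a := 1 / ((k : ℝ) + 4))
      (le_trans (by norm_num) (by positivity : (0 : ℝ) ≤ _)) k
    have h3 : ((k : ℝ) + 5) ^ k = (k + 4) ^ k * (1 + 1 / (k + 4)) ^ k := by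
      rw [← mul_pow]
      congr 1
      field_simp
      ring
    have h4 : 2 * (k : ℝ) + 5 ≤ (1 + k * (1 / (k + 4))) * (k + 5) := by
      rw [show (1 + k * (1 / (k + 4 : ℝ))) * (k + 5) = (2 * k + 4) * (k + 5) / (k + 4) by
        field_simp; ring, le_div_iff₀ (by positivity)]
      nlinarith
    push_cast at *
    calc 2 * c (k + 1 + 1) ≤ (2 * k + 5) * (2 * c (k + 1)) := by linarith
      _ ≤ ((1 + 1 / (k + 4)) ^ k * (k + 5)) * (k + 4) ^ k :=
          mul_le_mul (h4.trans (mul_le_mul_of_nonneg_right h2 (by positivity))) ih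
            (mul_nonneg zero_le_two (c_nonneg _)) (by positivity)
      _ = _ := by rw [show (k : ℝ) + 1 + 4 = k + 5 by ring, pow_succ, h3]; ring

theorem tail_le {n : ℕ} {r : ℝ} (h0 : 0 ≤ r) (h : 4 * ((n : ℝ) + 3) * r ≤ 3) :
    ∑ k ∈ range (n - 1), c (k + 2) * r ^ k ≤ 16 := by
  have e : ∀ N : ℕ, ∑ k ∈ range N, ((k : ℝ) + 5) * (3 / 4) ^ k = 32 - (4 * N + 32) * (3 / 4) ^ N :=
    fun N => by
    induction N with
    | zero => simp
    | succ N ih => rw [sum_range_succ, ih, pow_succ]; push_cast; ring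
  have : ∑ k ∈ range (n - 1), 2 * (c (k + 2) * r ^ k) ≤
      ∑ k ∈ range (n - 1), ((k : ℝ) + 5) * (3 / 4) ^ k := sum_le_sum fun k hk => by
    have h1 := c_le (k + 1)
    have h2 : (k : ℝ) + 2 ≤ n := by exact_mod_cast (by have := mem_range.1 hk; omega : k + 2 ≤ n)
    have h3 : (((k : ℝ) + 5) * r) ^ k ≤ (3 / 4) ^ k :=
      pow_le_pow_left₀ (by positivity) (by nlinarith) k
    push_cast at h1
    calc 2 * (c (k + 2) * r ^ k) = 2 * c (k + 1 + 1) * r ^ k := by ring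
      _ ≤ ((k : ℝ) + 1 + 4) ^ (k + 1) * r ^ k := mul_le_mul_of_nonneg_right h1 (by positivity)
      _ = (k + 5) * ((k + 5) * r) ^ k := by rw [mul_pow, pow_succ]; ring
      _ ≤ _ := mul_le_mul_of_nonneg_left h3 (by positivity)
  rw [← mul_sum, e] at this
  have : (0 : ℝ) ≤ (4 * (n - 1 : ℕ) + 32) * (3 / 4) ^ (n - 1) := by positivity
  linarith

/-- the polynomial with coefficients `a` -/
def ps (a : ℕ → ℝ) (n : ℕ) (x : ℂ) : ℂ := ∑ i ∈ range (n + 1), (a i : ℂ) * x ^ i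

theorem hi {a : ℕ → ℝ} (h0 : a 0 = 0) (hp : ∀ i, 0 ≤ a i) (hc : ∀ i, a i ≤ c i)
    (hl : ∀ k j d, 1 ≤ k → k ≤ j → a (k + d) * a j ≤ a k * a (j + d)) {n : ℕ} {x : ℂ}
    (h : 4 * ((n : ℝ) + 3) * ‖x‖ ≤ 3) :
    ‖ps a n x ^ 2 - ∑ m ∈ range (n + 2), (cv a m : ℂ) * x ^ m‖ ≤ 16 * (n * a n) * ‖x‖ ^ (n + 2) := by
  have e : ∑ m ∈ range (n + 2), (cv a m : ℂ) * x ^ m =
      ∑ i ∈ range (n + 2), ∑ j ∈ range (n + 2 - i), (a i * x ^ i) * (a j * x ^ j) := by
    rw [← sum_range_diag_flip (n + 2) fun i j => (a i * x ^ i) * (a j * x ^ j)]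
    refine sum_congr rfl fun m _ => ?_
    rw [cv, Complex.ofReal_sum, sum_mul]
    refine sum_congr rfl fun i hi => ?_
    have : x ^ m = x ^ i * x ^ (m - i) := by
      rw [← pow_add, Nat.add_sub_cancel' (by have := mem_range.1 hi; omega)]
    rw [this]
    push_cast
    ring
  rw [e, sq, ps, sum_mul_sum, sum_range_succ _ (n + 1), sum_range_succ' _ n, sum_range_succ' _ n,
    sum_range_succ' _ n]
  simp only [h0, Complex.ofReal_zero, zero_mul, sum_const_zero, add_zero, mul_zero,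
    show n + 2 - (n + 1) = 1 by omega, range_one, sum_singleton, ← sum_sub_distrib]
  refine le_trans (norm_sum_le_of_le _ (n := fun _ => 16 * a n * ‖x‖ ^ (n + 2)) fun i hi => ?_)
    (le_of_eq ?_)
  swap
  · rw [sum_const, card_range, nsmul_eq_mul]
    ring
  have hi' := mem_range.1 hi
  rw [show n + 2 - (i + 1) = n + 1 - i by omega]
  conv_lhs => rw [show n + 1 = n + 1 - i + i by omega]
  rw [sum_range_add, Nat.add_sub_cancel, add_sub_cancel_left]
  calc _ ≤ ∑ k ∈ range i, a n * ‖x‖ ^ (n + 2) * (c (k + 2) * ‖x‖ ^ k) := by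
        refine norm_sum_le_of_le _ fun k hk => ?_
        have hk' := mem_range.1 hk
        have h1 := hl (k + 2) (i + 1) (n - 1 - i) (by omega) (by omega)
        rw [show k + 2 + (n - 1 - i) = n + 1 - i + k by omega,
          show i + 1 + (n - 1 - i) = n by omega] at h1
        have h2 := mul_le_mul_of_nonneg_right (hc (k + 2)) (hp n)
        have h3 : ‖x‖ ^ (i + 1) * ‖x‖ ^ (n + 1 - i + k) = ‖x‖ ^ (n + 2) * ‖x‖ ^ k := by
          rw [← pow_add, ← pow_add]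
          congr 1
          omega
        simp only [norm_mul, norm_pow, Complex.norm_real, Real.norm_of_nonneg (hp _)]
        calc _ = (a (n + 1 - i + k) * a (i + 1)) * (‖x‖ ^ (i + 1) * ‖x‖ ^ (n + 1 - i + k)) := by
              ring
          _ ≤ (c (k + 2) * a n) * (‖x‖ ^ (n + 2) * ‖x‖ ^ k) := by
              rw [h3]
              exact mul_le_mul_of_nonneg_right (h1.trans h2) (by positivity)
          _ = _ := by ring
    _ ≤ _ := by
        rw [← mul_sum]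
        have := (sum_le_sum_of_subset_of_nonneg (range_subset_range.2 (by omega : i ≤ n - 1))
          fun k _ _ => mul_nonneg (c_nonneg (k + 2)) (pow_nonneg (norm_nonneg x) k)).trans
          (tail_le (norm_nonneg x) h)
        have h1 := hp n
        calc _ ≤ a n * ‖x‖ ^ (n + 2) * 16 := mul_le_mul_of_nonneg_left this (by positivity)
          _ = _ := by ring

theorem ps_two {a : ℕ → ℝ} (h0 : a 0 = 0) (h1 : a 1 = 1 / 2) (hp : ∀ i, 0 ≤ a i)
    (hc : ∀ i, a i ≤ c i) {n : ℕ} (hn : 1 ≤ n) {x : ℂ} (h : 4 * ((n : ℝ) + 3) * ‖x‖ ≤ 3) :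
    ‖ps a n x - x / 2‖ ≤ 16 * ‖x‖ ^ 2 := by
  obtain ⟨n, rfl⟩ := Nat.exists_eq_add_of_le' hn
  have := tail_le (norm_nonneg x) h
  rw [ps, sum_range_succ', sum_range_succ', h0, h1]
  simp only [Nat.add_sub_cancel] at this
  calc _ = ‖∑ k ∈ range n, (a (k + 1 + 1) : ℂ) * x ^ (k + 1 + 1)‖ := by
        congr 1
        push_cast
        ring
    _ ≤ ∑ k ∈ range n, c (k + 2) * ‖x‖ ^ k * ‖x‖ ^ 2 := norm_sum_le_of_le _ fun k _ => by
        rw [norm_mul, norm_pow, Complex.norm_real, Real.norm_of_nonneg (hp _), mul_assoc,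
          ← pow_add]
        exact mul_le_mul_of_nonneg_right (hc _) (by positivity)
    _ ≤ _ := by
        rw [← sum_mul]
        exact mul_le_mul_of_nonneg_right this (by positivity)

theorem ps_le {a : ℕ → ℝ} (h0 : a 0 = 0) (h1 : a 1 = 1 / 2) (hp : ∀ i, 0 ≤ a i)
    (hc : ∀ i, a i ≤ c i) {n : ℕ} {x : ℂ} (h : 4 * ((n : ℝ) + 3) * ‖x‖ ≤ 3) :
    ‖ps a n x‖ ≤ 7 / 2 * ‖x‖ := by
  rcases n.eq_zero_or_pos with rfl | hn
  · simp [ps, h0]
  have h2 := ps_two h0 h1 hp hc hn h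
  have h3 := norm_add_le (ps a n x - x / 2) (x / 2)
  have h4 : (1 : ℝ) ≤ n := by exact_mod_cast hn
  rw [sub_add_cancel, norm_div, Complex.norm_ofNat] at h3
  nlinarith [norm_nonneg x]

theorem res_x {I : ℕ} (hI : 1 ≤ I) {x : ℂ} (h : 4 * ((I : ℝ) + 3) * ‖x‖ ≤ 3) :
    ‖(1 - ps b I x) ^ 2 + (1 + ps c I x) ^ 2 * x - 1 - 2 * b (I + 1) * x ^ (I + 1)‖ ≤
      40 * b (I + 1) * ‖x‖ ^ (I + 2) := by
  obtain ⟨n, rfl⟩ := Nat.exists_eq_add_of_le' hI
  have hx := norm_nonneg x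
  have hn := n.cast_nonneg (α := ℝ)
  have h' : 4 * ((n : ℝ) + 3) * ‖x‖ ≤ 3 := by push_cast at h; nlinarith
  have e1 := hi b_zero b_nonneg b_le_c (fun k j d hk hj =>
    lc_b (fun m h1 _ => up_c m h1) hk hj d le_rfl) h
  have e2 := hi c_zero c_nonneg (fun _ => le_rfl) (fun k j d hk hj =>
    lc_c (fun m h1 _ => up_c m h1) hk hj d le_rfl) h'
  have e3 := ps_le c_zero c_one c_nonneg (fun _ => le_rfl) h
  have e4 := ps_le c_zero c_one c_nonneg (fun _ => le_rfl) h'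
  have r : ∑ m ∈ range (n + 2), ((cv b (m + 1) : ℂ) * x ^ (m + 1) + cv c m * x ^ m * x +
      2 * (c m * x ^ m) * x - 2 * (b (m + 1) * x ^ (m + 1))) = -x := by
    rw [sum_range_succ', sum_eq_zero fun m _ => ?_]
    · have := congrArg Complex.ofReal (b_rec 0)
      simp only [if_true] at this
      push_cast at this
      linear_combination -x * this
    · have := congrArg Complex.ofReal (b_rec (m + 1))
      rw [if_neg (by omega)] at this
      push_cast at this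
      linear_combination -x ^ (m + 1 + 1) * this
  have p1 : ∑ m ∈ range (n + 2), (b (m + 1) : ℂ) * x ^ (m + 1) =
      ps b (n + 1) x + b (n + 2) * x ^ (n + 2) := by
    rw [ps, ← sum_range_succ fun i => (b i : ℂ) * x ^ i, sum_range_succ' _ (n + 2)]
    simp [b_zero]
  have p2 : ∑ m ∈ range (n + 1 + 2), (cv b m : ℂ) * x ^ m =
      ∑ m ∈ range (n + 2), (cv b (m + 1) : ℂ) * x ^ (m + 1) := by
    rw [sum_range_succ' _ (n + 2)]
    simp [cv, b_zero]
  have p3 : ps c (n + 1) x = ps c n x + c (n + 1) * x ^ (n + 1) := sum_range_succ _ _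
  simp only [sum_add_distrib, sum_sub_distrib, ← sum_mul, ← mul_sum, p1, ← p2] at r
  rw [show ∑ m ∈ range (n + 2), (c m : ℂ) * x ^ m = ps c (n + 1) x from rfl] at r
  generalize ∑ m ∈ range (n + 1 + 2), (cv b m : ℂ) * x ^ m = s1 at e1 r
  generalize ∑ m ∈ range (n + 2), (cv c m : ℂ) * x ^ m = s2 at e2 r
  have e : (1 - ps b (n + 1) x) ^ 2 + (1 + ps c (n + 1) x) ^ 2 * x - 1 -
      2 * b (n + 1 + 1) * x ^ (n + 1 + 1) = (ps b (n + 1) x ^ 2 - s1) + (ps c n x ^ 2 - s2) * x +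
      c (n + 1) * x ^ (n + 2) * (ps c (n + 1) x + ps c n x) := by
    rw [p3] at r ⊢
    linear_combination r
  have l1 := lo_b (n + 1)
  have l2 := lo_c n
  have l3 := c_le_b (n + 1)
  have l4 := b_nonneg (n + 1)
  have l5 := c_nonneg n
  have l6 := c_nonneg (n + 1)
  have hp : 0 ≤ ‖x‖ ^ (n + 2) * ‖x‖ := by positivity
  rw [e, show n + 1 + 2 = n + 2 + 1 by rfl, pow_succ ‖x‖]
  rw [show n + 1 + 2 = n + 2 + 1 by rfl, pow_succ ‖x‖] at e1
  push_cast at e1 l1
  refine norm_add₃_le.trans ?_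
  simp only [norm_mul, norm_pow, Complex.norm_real, Real.norm_of_nonneg l6]
  have a1 := mul_le_mul_of_nonneg_right (show (n + 1) * b (n + 1) ≤ b (n + 1 + 1) by nlinarith) hp
  have a2 := mul_le_mul_of_nonneg_right (show n * c n ≤ b (n + 1 + 1) by nlinarith) hp
  have a3 := mul_le_mul_of_nonneg_right e2 hx
  have a4 := mul_le_mul_of_nonneg_left ((norm_add_le _ _).trans (add_le_add e3 e4))
    (show 0 ≤ c (n + 1) * ‖x‖ ^ (n + 2) by positivity)
  have a5 := mul_le_mul_of_nonneg_right l3 hp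
  have a6 := mul_nonneg (b_nonneg (n + 1 + 1)) hp
  linarith

/-- the truncated formal solution -/
def eta (I : ℕ) (Y : ℂ) : ℂ := 1 - ps b I Y⁻¹

/-- `eta + 2 Y eta'` -/
def dta (I : ℕ) (Y : ℂ) : ℂ := 1 + ps c I Y⁻¹

theorem hasDerivAt_eta (I : ℕ) {Y : ℂ} (hY : Y ≠ 0) :
    HasDerivAt (eta I) ((dta I Y - eta I Y) / (2 * Y)) Y := by
  have h := (HasDerivAt.fun_sum (u := range (I + 1)) fun i _ =>
    (((hasDerivAt_inv hY).fun_pow i).const_mul (b i : ℂ))).const_sub 1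
  refine HasDerivAt.congr_deriv h (Eq.symm ?_)
  rw [eta, dta, ps, ps, show ∀ u v : ℂ, 1 + u - (1 - v) = u + v by intros; ring,
    ← sum_add_distrib, sum_div, ← sum_neg_distrib]
  refine sum_congr rfl fun i _ => ?_
  rcases i with _ | i
  · simp [b_zero, c_zero]
  · simp only [c, Nat.add_sub_cancel, pow_succ]
    push_cast
    field_simp
    ring

theorem diff_ps (a : ℕ → ℝ) (n : ℕ) : Differentiable ℂ (ps a n) := by
  unfold ps
  fun_prop

theorem diff_eta (I : ℕ) {Y : ℂ} (hY : Y ≠ 0) : DifferentiableAt ℂ (eta I) Y :=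
  (hasDerivAt_eta I hY).differentiableAt

theorem diff_dta (I : ℕ) {Y : ℂ} (hY : Y ≠ 0) : DifferentiableAt ℂ (dta I) Y :=
  ((diff_ps c I _).comp Y (differentiableAt_inv hY)).const_add 1

theorem eta_conj (I : ℕ) (Y : ℂ) : eta I (starRingEnd ℂ Y) = starRingEnd ℂ (eta I Y) := by
  simp [eta, ps]

theorem dta_conj (I : ℕ) (Y : ℂ) : dta I (starRingEnd ℂ Y) = starRingEnd ℂ (dta I Y) := by
  simp [dta, ps]

variable {I : ℕ} {Y : ℂ}

theorem inv_le (h : 4 * ((I : ℝ) + 3) ≤ 3 * ‖Y‖) : 4 * ((I : ℝ) + 3) * ‖Y⁻¹‖ ≤ 3 := by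
  have : 0 < ‖Y‖ := by linarith [I.cast_nonneg (α := ℝ)]
  rwa [norm_inv, ← div_eq_mul_inv, div_le_iff₀ this]

theorem eta_le (h : 4 * ((I : ℝ) + 3) ≤ 3 * ‖Y‖) : ‖eta I Y - 1‖ ≤ 7 / 2 * ‖Y‖⁻¹ := by
  simpa [eta] using ps_le b_zero b_one b_nonneg b_le_c (inv_le h)

theorem dta_le (h : 4 * ((I : ℝ) + 3) ≤ 3 * ‖Y‖) : ‖dta I Y - 1‖ ≤ 7 / 2 * ‖Y‖⁻¹ := by
  simpa [dta] using ps_le c_zero c_one c_nonneg (fun _ => le_rfl) (inv_le h)

theorem eta_two (hI : 1 ≤ I) (h : 4 * ((I : ℝ) + 3) ≤ 3 * ‖Y‖) :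
    ‖eta I Y - (1 - Y⁻¹ / 2)‖ ≤ 16 * ‖Y‖⁻¹ ^ 2 := by
  rw [eta, sub_sub_sub_cancel_left, norm_sub_rev, ← norm_inv]
  exact ps_two b_zero b_one b_nonneg b_le_c hI (inv_le h)

theorem dta_two (hI : 1 ≤ I) (h : 4 * ((I : ℝ) + 3) ≤ 3 * ‖Y‖) :
    ‖dta I Y - (1 + Y⁻¹ / 2)‖ ≤ 16 * ‖Y‖⁻¹ ^ 2 := by
  rw [dta, add_sub_add_left_eq_sub, ← norm_inv]
  exact ps_two c_zero c_one c_nonneg (fun _ => le_rfl) hI (inv_le h)

theorem res_le (hI : 1 ≤ I) (h : 4 * ((I : ℝ) + 3) ≤ 3 * ‖Y‖) :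
    ‖eta I Y ^ 2 + dta I Y ^ 2 / Y - 1 - 2 * b (I + 1) * Y⁻¹ ^ (I + 1)‖ ≤
      40 * b (I + 1) * ‖Y‖⁻¹ ^ (I + 2) := by
  rw [← norm_inv, div_eq_mul_inv]
  exact res_x hI (inv_le h)

theorem root_le {s w : ℂ} (hs : s ^ 2 = 1 - w) (h0 : 0 ≤ s.re) : ‖s - 1‖ ≤ ‖w‖ := by
  have h1 : 1 ≤ ‖s + 1‖ := le_trans (by simp [h0]) (Complex.re_le_norm _)
  have h2 : ‖s - 1‖ * ‖s + 1‖ = ‖w‖ := by
    rw [← norm_mul, ← norm_neg w]
    congr 1
    linear_combination hs
  nlinarith [norm_nonneg (s - 1)]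

/-- the Hamiltonian of the truncated boundary term -/
theorem ham (hI : 1 ≤ I) (h : 4 * ((I : ℝ) + 3) ≤ 3 * ‖Y‖) (h' : 100 ≤ ‖Y‖) {V s : ℂ}
    (hV : ‖V‖ ≤ 8) (hs : s ^ 2 = 1 - (dta I Y - V * eta I Y / 2) ^ 2 / Y) (h0 : 0 ≤ s.re) :
    ‖s - 1‖ ≤ 27 * ‖Y‖⁻¹ ∧ ‖s - eta I Y + b (I + 1) * Y⁻¹ ^ (I + 1)‖ ≤
      44 * b (I + 1) * ‖Y‖⁻¹ ^ (I + 2) + 2 * ‖V‖ * ‖Y‖⁻¹ := by
  have e1 := eta_le h
  have e2 := dta_le h
  have e3 := res_le hI h
  have e4 := root_le hs h0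
  have hb := b_nonneg (I + 1)
  have hr : ‖Y‖⁻¹ ≤ 1 / 100 := by rw [one_div]; exact inv_anti₀ (by norm_num) h'
  rw [div_eq_mul_inv _ Y] at hs e3 e4
  rw [← norm_inv] at *
  generalize Y⁻¹ = x at *
  generalize eta I Y = η at *
  generalize dta I Y = δ at *
  have hx := norm_nonneg x
  have n1 : ‖η‖ ≤ 207 / 200 := by
    have := norm_add_le (η - 1) 1
    rw [sub_add_cancel, norm_one] at this
    linarith
  have n2 : ‖δ‖ ≤ 207 / 200 := by
    have := norm_add_le (δ - 1) 1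
    rw [sub_add_cancel, norm_one] at this
    linarith
  have n3 : ‖V * η‖ ≤ 207 / 25 := by
    rw [norm_mul]
    nlinarith [norm_nonneg V, norm_nonneg η]
  have n4 : ‖δ - V * η / 2‖ ≤ 207 / 40 := by
    have := norm_sub_le δ (V * η / 2)
    rw [norm_div, Complex.norm_ofNat] at this
    linarith
  have n5 : ‖s - 1‖ ≤ 27 * ‖x‖ := by
    rw [norm_mul, norm_pow] at e4
    have := pow_le_pow_left₀ (norm_nonneg _) n4 2
    nlinarith
  refine ⟨n5, ?_⟩
  have n6 : ‖s + η - 2‖ ≤ 31 * ‖x‖ := by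
    have := norm_add_le (s - 1) (η - 1)
    rw [show s - 1 + (η - 1) = s + η - 2 by ring] at this
    linarith
  have n7 : 169 / 100 ≤ ‖s + η‖ := by
    have := norm_sub_le (s + η) (s + η - 2)
    rw [sub_sub_cancel, Complex.norm_ofNat] at this
    linarith
  have n8 : ‖δ - V * η / 4‖ ≤ 621 / 200 := by
    have := norm_sub_le δ (V * η / 4)
    rw [norm_div, Complex.norm_ofNat] at this
    linarith
  have e : (s - η + b (I + 1) * x ^ (I + 1)) * (s + η) =
      -(η ^ 2 + δ ^ 2 * x - 1 - 2 * b (I + 1) * x ^ (I + 1)) +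
        b (I + 1) * x ^ (I + 1) * (s + η - 2) + V * x * (η * (δ - V * η / 4)) := by
    linear_combination hs
  have k := congrArg norm e
  rw [norm_mul] at k
  have k1 := k.le.trans norm_add₃_le
  simp only [norm_neg, norm_mul, norm_pow, Complex.norm_real, Real.norm_of_nonneg hb] at k1
  rw [pow_succ ‖x‖ (I + 1)] at e3 ⊢
  have a1 := mul_le_mul_of_nonneg_left n6 (show 0 ≤ b (I + 1) * ‖x‖ ^ (I + 1) by positivity)
  have a2 := mul_le_mul_of_nonneg_left (mul_le_mul n1 n8 (norm_nonneg _) (by norm_num))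
    (show 0 ≤ ‖V‖ * ‖x‖ by positivity)
  have a3 := mul_le_mul_of_nonneg_left n7 (norm_nonneg (s - η + b (I + 1) * x ^ (I + 1)))
  have a4 : 0 ≤ b (I + 1) * (‖x‖ ^ (I + 1) * ‖x‖) := by positivity
  have a5 : 0 ≤ ‖V‖ * ‖x‖ := by positivity
  linarith

theorem sqrt_sq (V : ℂ) : Complex.sqrt V ^ 2 = V := by
  simpa [Complex.sqrt] using Complex.cpow_nat_inv_pow V two_ne_zero

theorem sqrt_re (V : ℂ) : 0 ≤ (Complex.sqrt V).re := by
  rw [Complex.sqrt, Complex.cpow_inv_two_re]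
  positivity

theorem hasDerivAt_sqrt {V : ℂ} (hV : V ∈ Complex.slitPlane) :
    HasDerivAt Complex.sqrt (1 / (2 * Complex.sqrt V)) V := by
  refine (Complex.hasDerivAt_sqrt hV).congr_deriv ?_
  rw [show (-1 / 2 : ℂ) = -2⁻¹ by norm_num, Complex.cpow_neg, Complex.sqrt]
  ring

/-- the Gaussian weight -/
def wt (Z V : ℂ) : ℂ := Complex.exp (-Z ^ 2 / 4 - V / 4)

/-- the boundary term at height `Z` (per unit angle) -/
def Tb (I : ℕ) (Z V : ℂ) : ℂ := wt Z V * (2 / Z) * Complex.sqrt V * eta I (Z ^ 2 * V / 4)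

/-- the normalised momentum -/
def gm (I : ℕ) (Z V : ℂ) : ℂ := dta I (Z ^ 2 * V / 4) - V * eta I (Z ^ 2 * V / 4) / 2

theorem Tb_Z (I : ℕ) {Z V : ℂ} (hZ : Z ≠ 0) (hV : V ≠ 0) : HasDerivAt (fun z => Tb I z V)
    (wt Z V * Complex.sqrt V * (-eta I (Z ^ 2 * V / 4) +
      2 / Z ^ 2 * (dta I (Z ^ 2 * V / 4) - 2 * eta I (Z ^ 2 * V / 4)))) Z := by
  have h0 := hasDerivAt_pow 2 Z
  have h1 := ((h0.neg.div_const 4).sub_const (V / 4)).cexp
  have h2 := (hasDerivAt_inv hZ).const_mul 2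
  have h3 := (hasDerivAt_eta I (Y := Z ^ 2 * V / 4) (by simp [hZ, hV])).comp Z
    ((h0.mul_const V).div_const 4)
  refine HasDerivAt.congr_deriv (((h1.fun_mul h2).mul_const (Complex.sqrt V)).fun_mul h3) ?_
  simp only [wt, Function.comp_def, Pi.neg_apply]
  field_simp
  ring

theorem Tb_V (I : ℕ) {Z V : ℂ} (hZ : Z ≠ 0) (hV : V ∈ Complex.slitPlane) :
    HasDerivAt (Tb I Z) (wt Z V * gm I Z V / (Z * Complex.sqrt V)) V := by
  have hV0 := Complex.slitPlane_ne_zero hV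
  have hs := sqrt_sq V
  have hs0 : Complex.sqrt V ≠ 0 := fun h => hV0 (by rw [← hs, h]; ring)
  have h1 := (((hasDerivAt_id V).div_const 4).const_sub (-Z ^ 2 / 4)).cexp
  have h3 := (hasDerivAt_eta I (Y := Z ^ 2 * V / 4) (by simp [hZ, hV0])).comp V
    (((hasDerivAt_id V).const_mul (Z ^ 2)).div_const 4)
  refine HasDerivAt.congr_deriv
    (((h1.mul_const (2 / Z)).fun_mul (hasDerivAt_sqrt hV)).fun_mul h3) ?_
  simp only [wt, gm, Function.comp_def, id]
  generalize Complex.sqrt V = r at *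
  subst hs
  field_simp
  ring

end

end Vale.Agent.P218T.HJ
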