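import Vale.Agent.P218T.M0B

/-!
# P218: the rotationally symmetric mode on a cylindrical end, transport of the opening parameter
-/

set_option linter.all false

open Set

namespace Vale.Agent.P218T.M0

noncomputable section

variable {V V1 V2 : ℝ → ℂ} {Z A M μ ε ν z : ℝ}

theorem alg {W P u r τ : ℂ} {μ δ : ℝ} (hW : ‖W‖ ≤ 2 * μ) (hP : ‖P‖ ≤ μ * δ) (hu : ‖u‖ ≤ δ)
    (hτ : ‖τ - 1‖ ≤ δ) (hr : ‖r‖ ≤ μ * δ) (h1 : δ ≤ 1) :
    ‖4 * (W - r) ^ 2 * (1 - u) - τ * (2 * W + P) ^ 2 * (1 + u)‖ ≤ 144 * (μ ^ 2 * δ) := by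
  have hm : 0 ≤ μ := by linarith [norm_nonneg W]
  have hd := (norm_nonneg u).trans hu
  have a0 : μ * δ ≤ μ := by nlinarith
  have a1 : ‖W - r‖ ≤ 3 * μ := by linarith [norm_sub_le W r]
  have a2 : ‖2 * W + P‖ ≤ 5 * μ := by
    have := norm_add_le (2 * W) P
    rw [norm_mul, Complex.norm_ofNat] at this
    linarith
  have a3 : ‖2 * r + P‖ ≤ 3 * (μ * δ) := by
    have := norm_add_le (2 * r) P
    rw [norm_mul, Complex.norm_ofNat] at this
    linarith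
  have a4 : ‖2 * (W - r) + (2 * W + P)‖ ≤ 11 * μ := by
    have := norm_add_le (2 * (W - r)) (2 * W + P)
    rw [norm_mul, Complex.norm_ofNat] at this
    linarith
  have a5 : ‖1 + u‖ ≤ 2 := by linarith [norm_add_le 1 u, norm_one (α := ℂ)]
  have b1 := pow_le_pow_left₀ (norm_nonneg _) a1 2
  have b2 := pow_le_pow_left₀ (norm_nonneg _) a2 2
  have a6 : ‖4 * (W - r) ^ 2 + (2 * W + P) ^ 2‖ ≤ 61 * μ ^ 2 := by
    have := norm_add_le (4 * (W - r) ^ 2) ((2 * W + P) ^ 2)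
    rw [norm_mul, Complex.norm_ofNat, norm_pow, norm_pow] at this
    linarith
  rw [show 4 * (W - r) ^ 2 * (1 - u) - τ * (2 * W + P) ^ 2 * (1 + u) =
    -((2 * r + P) * (2 * (W - r) + (2 * W + P))) + -(u * (4 * (W - r) ^ 2 + (2 * W + P) ^ 2)) +
      -((τ - 1) * ((2 * W + P) ^ 2 * (1 + u))) by ring]
  refine norm_add₃_le.trans ?_
  simp only [norm_neg, norm_mul, norm_pow]
  have c1 := mul_le_mul a3 a4 (norm_nonneg _) (by positivity)
  have c2 := mul_le_mul hu a6 (norm_nonneg _) hd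
  have c3 := mul_le_mul hτ (mul_le_mul b2 a5 (norm_nonneg _) (by positivity)) (by positivity) hd
  linarith

/-- inverse of the damping -/
def ia (z : ℝ) : ℝ := 2 * (z ^ 2 - 2) / (z * (z ^ 2 - 10))

/-- the corrected opening parameter -/
def Wt (V V1 : ℝ → ℂ) (z : ℝ) : ℂ := W V z - ia z * q V V1 z

/-- the size of the relative errors -/
def dl (V : ℝ → ℂ) (Z M μ ν z : ℝ) : ℝ :=
  1000 * M ^ 2 / (z ^ 2 * sg V Z z) + 10 * M * (ν * z ^ 2 * ly Z z) / μ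

namespace Hyp

theorem d1 (H : Hyp V V1 V2 Z A M μ ε ν z) : dl V Z M μ ν z ≤ 1 := by
  have h1 : 1 / (z ^ 2 * sg V Z z) ≤ ε :=
    (div_le_iff₀ (mul_pos (pow_pos H.pos 2) H.s0)).2 H.s3
  have h2 : ν * z ^ 2 * ly Z z / μ ≤ M * ε := (div_le_iff₀ H.m0).2
    ((mul_le_of_le_one_right (mul_nonneg H.n0 (sq_nonneg z)) H.l1).trans H.n2)
  have h3 := mul_le_mul_of_nonneg_left h1 (sq_nonneg M)
  have h4 := mul_le_mul_of_nonneg_left h2 (zero_le_one.trans H.hM)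
  rw [dl, div_eq_mul_one_div, mul_div_assoc]
  nlinarith [H.he]

theorem d2 (H : Hyp V V1 V2 Z A M μ ε ν z) : z * bt V Z μ ν z ≤ μ * dl V Z M μ ν z ∧
    2 * μ + z ^ 2 * (z * bt V Z μ ν z) / 4 ≤ dl V Z M μ ν z ∧ 20 / z ^ 2 ≤ dl V Z M μ ν z := by
  have hz := H.pos
  have hs := H.s0
  have hm := H.m0
  have hM := H.hM
  have h4 := H.m4
  obtain ⟨x, hx⟩ : ∃ x, x = 1 / (z ^ 2 * sg V Z z) := ⟨_, rfl⟩
  obtain ⟨y, hy⟩ : ∃ y, y = ν * z ^ 2 * ly Z z / μ := ⟨_, rfl⟩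
  have x0 : 0 < x := by rw [hx]; positivity
  have y0 : 0 ≤ y := by have := H.n0; have := l0 (Z := Z) z; rw [hy]; positivity
  have e1 : dl V Z M μ ν z = 1000 * M ^ 2 * x + 10 * M * y := by rw [dl, hx, hy]; ring
  have e2 : z * bt V Z μ ν z = μ * (1000 * (μ * z ^ 2) * x + 10 * y) := by
    rw [bt, hx, hy]
    field_simp
  have e3 : 1 / z ^ 2 ≤ 8 * x := by
    rw [hx, ← mul_div_assoc, div_le_div_iff₀ (by positivity) (by positivity)]
    nlinarith [mul_le_mul_of_nonneg_left H.s8 (sq_nonneg z)]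
  have e4 : μ ≤ M * (1 / z ^ 2) := by rwa [mul_one_div, le_div_iff₀ (by positivity)]
  have m2 : M ≤ M ^ 2 := by nlinarith
  have k1 : 1000 * (μ * z ^ 2) * x + 10 * y ≤ 1000 * M * x + 10 * y := by nlinarith
  have k2 := mul_le_mul_of_nonneg_right m2 x0.le
  have k3 := mul_le_mul_of_nonneg_right hM y0
  have k4 := mul_le_mul h4 k1 (by positivity) (by linarith)
  have k5 := mul_le_mul_of_nonneg_left e3 (zero_le_one.trans hM)
  have k6 := mul_le_mul_of_nonneg_right hM x0.le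
  rw [e1, e2]
  refine ⟨mul_le_mul_of_nonneg_left (by linarith) hm.le, by nlinarith, ?_⟩
  rw [div_eq_mul_one_div]
  nlinarith

theorem ia_le (H : Hyp V V1 V2 Z A M μ ε ν z) :
    ‖ia z * q V V1 z‖ ≤ 4 / z ^ 2 * (z * bt V Z μ ν z) := by
  have hz := H.pos
  have hb := H.big
  have h0 : 0 ≤ ia z := div_nonneg (by linarith) (mul_nonneg hz.le (by linarith))
  have h1 : ia z ≤ 4 / z ^ 2 * z := by
    rw [ia, div_mul_eq_mul_div, div_le_div_iff₀ (mul_pos hz (by linarith)) (by positivity)]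
    nlinarith
  rw [norm_mul, Complex.norm_real, Real.norm_of_nonneg h0, ← mul_assoc]
  exact mul_le_mul h1 (H.q_le z (left_mem_Icc.2 H.le)) (norm_nonneg _) (h0.trans h1)

theorem r2 (H : Hyp V V1 V2 Z A M μ ε ν z) : ‖ia z * q V V1 z‖ ≤ μ * dl V Z M μ ν z := by
  have h1 : 4 / z ^ 2 ≤ 1 := (div_le_one (pow_pos H.pos 2)).2 (by linarith [H.big])
  have h2 := (norm_nonneg _).trans (H.q_le z (left_mem_Icc.2 H.le))
  exact H.ia_le.trans ((mul_le_of_le_one_left (mul_nonneg H.pos.le h2) h1).trans H.d2.1)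

theorem r3 (H : Hyp V V1 V2 Z A M μ ε ν z) : ‖ia z * q V V1 z‖ ≤ 4040 * (μ ^ 2 * ε) := by
  have hz := H.pos
  have hs := H.s0
  have h1 : 1 / (z ^ 2 * sg V Z z) ≤ ε := (div_le_iff₀ (by positivity)).2 H.s3
  have e : 4 / z ^ 2 * (z * bt V Z μ ν z) =
      4000 * (μ ^ 2 * (1 / (z ^ 2 * sg V Z z))) + 40 * (ν * ly Z z) := by
    rw [bt]
    field_simp
    ring
  have := mul_le_mul_of_nonneg_left h1 (sq_nonneg μ)
  have := mul_le_of_le_one_right H.n0 H.l1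
  linarith [H.ia_le, H.n1]

theorem wt_le (H : Hyp V V1 V2 Z A M μ ε ν z) : ‖Wt V V1 z‖ ≤ 3 * μ := by
  rw [Wt]
  linarith [norm_sub_le (W V z) (ia z * q V V1 z), H.w2 H.hb, H.r2,
    mul_le_of_le_one_right H.m0.le H.d1]

theorem u2 (H : Hyp V V1 V2 Z A M μ ε ν z) :
    ‖W V z + z * (z ^ 2 - 2) * q V V1 z / 4‖ ≤ dl V Z M μ ν z := by
  linarith [H.u_le (H.q_le z (left_mem_Icc.2 H.le)), H.w2 H.hb, H.d2.2.1]

theorem h_eq (H : Hyp V V1 V2 Z A M μ ε ν z) : 2 / z - V1 z / V z =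
    4 * (1 - (W V z + z * (z ^ 2 - 2) * q V V1 z / 4)) / (z * V z) := by
  have h1 := Complex.slitPlane_ne_zero (H.v2 H.hb).2.2
  have h2 : (z : ℂ) ≠ 0 := by exact_mod_cast H.pos.ne'
  have h3 := H.V_eq
  field_simp
  rw [H.V1_eq]
  linear_combination 2 * h3

theorem dL (H : Hyp V V1 V2 Z A M μ ε ν z) {s : ℝ} (hs : s ∈ Ioo z Z) :
    HasDerivAt (Lam V) (2 / s - V1 s / V s) s :=
  have K := H.mono (Ioo_subset_Icc_self hs)
  HasDerivAt.congr_deriv (((Real.hasDerivAt_log K.pos.ne').ofReal_comp.const_mul 2).fun_sub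
    ((H.dV s hs).clog_real (K.v2 K.hb).2.2)) (by simp [div_eq_mul_inv])

theorem cL (H : Hyp V V1 V2 Z A M μ ε ν z) : ContinuousOn (Lam V) (Icc z Z) :=
  (continuousOn_const.mul (Complex.continuous_ofReal.comp_continuousOn
    (continuousOn_id.log fun s hs => (H.mono hs).pos.ne'))).sub
    (H.cV.clog fun s hs => ((H.mono hs).v2 (H.mono hs).hb).2.2)

theorem zV (H : Hyp V V1 V2 Z A M μ ε ν z) {w : ℂ} {c : ℝ} (h : ‖w‖ ≤ c) :
    ‖w / (z * V z)‖ ≤ 4 * c / (z * sg V Z z) := by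
  have h1 := (H.v2 H.hb).1
  have hz := H.pos
  have hs := H.s0
  have hv : 0 < ‖V z‖ := by linarith
  rw [norm_div, norm_mul, Complex.norm_real, Real.norm_of_nonneg hz.le,
    div_le_div_iff₀ (by positivity) (by positivity)]
  nlinarith [mul_le_mul h (mul_le_mul_of_nonneg_left h1 hz.le) (by positivity)
    ((norm_nonneg _).trans h)]

theorem L_le (H : Hyp V V1 V2 Z A M μ ε ν z) : μ * ‖Lam V Z - Lam V z‖ ≤ 32 * (M * ε) := by
  have hm := H.m0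
  have hZ := H.top.pos
  have h0 : 0 ≤ 32 * (M * ε / Z) / μ := by have := H.hM; have := H.e0; positivity
  have := back (f := fun s => Lam V Z - Lam V s) (B := fun s => 32 * (M * ε / Z) / μ * (Z - s))
    H.le (continuousOn_const.sub H.cL) (by fun_prop) (fun s hs => ⟨_, _, (H.dL hs).const_sub _,
      ((hasDerivAt_id s).const_sub Z).const_mul _, ?_⟩) (by simp)
  · have h1 := mul_le_mul_of_nonneg_left (this.trans (mul_le_mul_of_nonneg_left
      (show Z - z ≤ Z by linarith [H.pos]) h0)) hm.le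
    rwa [show μ * (32 * (M * ε / Z) / μ * Z) = 32 * (M * ε) by field_simp] at h1
  have K := H.mono (Ioo_subset_Icc_self hs)
  have h1 : ‖4 * (1 - (W V s + s * (s ^ 2 - 2) * q V V1 s / 4))‖ ≤ 8 := by
    rw [norm_mul, Complex.norm_ofNat]
    linarith [norm_sub_le 1 (W V s + s * (s ^ 2 - 2) * q V V1 s / 4), norm_one (α := ℂ), K.u2, K.d1]
  have h2 : 4 * 8 / (s * sg V Z s) ≤ 32 * (M * ε / Z) / μ := by
    rw [← mul_div_assoc, div_div, div_le_div_iff₀ (mul_pos K.pos K.s0) (by positivity)]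
    linarith [K.s4]
  rw [norm_neg, K.h_eq]
  linarith [K.zV h1]

theorem den (H : Hyp V V1 V2 Z A M μ ε ν z) : ‖Wt V V1 z * (Lam V Z - Lam V z)‖ ≤ 1 / 2 := by
  rw [norm_mul]
  nlinarith [mul_le_mul_of_nonneg_right H.wt_le (norm_nonneg (Lam V Z - Lam V z)), H.L_le, H.e1]

theorem den' (H : Hyp V V1 V2 Z A M μ ε ν z) :
    1 / 2 ≤ ‖1 + Wt V V1 z * (Lam V Z - Lam V z)‖ := by
  have := norm_sub_le (1 + Wt V V1 z * (Lam V Z - Lam V z)) (Wt V V1 z * (Lam V Z - Lam V z))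
  rw [add_sub_cancel_right, norm_one] at this
  linarith [H.den]

theorem dWt (H : Hyp V V1 V2 Z A M μ ε ν z) {s : ℝ} (hs : s ∈ Ioo z Z) : ∃ e : ℂ,
    HasDerivAt (Wt V V1) (e - Wt V V1 s ^ 2 * (2 / s - V1 s / V s)) s ∧ ‖e‖ ≤
      608000 * (M ^ 2 * μ ^ 2) / (s ^ 3 * sg V Z s ^ 2) + 4 * A / s ^ 6 + 6 * (ν * s * ly Z s) := by
  have K := H.mono (Ioo_subset_Icc_self hs)
  have hz := K.pos
  have hb := K.big
  have hg := K.s0
  have hm := K.m0
  have h10 : 0 < s ^ 2 - 10 := by linarith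
  have c1 : (s : ℂ) ≠ 0 := by exact_mod_cast hz.ne'
  have c2 : (s : ℂ) ^ 2 - 10 ≠ 0 := by exact_mod_cast h10.ne'
  have c3 := K.ne
  have c4 := Complex.slitPlane_ne_zero (K.v2 K.hb).2.2
  have di : HasDerivAt ia (-((2 * s ^ 4 + 8 * s ^ 2 + 40) / (s * (s ^ 2 - 10)) ^ 2)) s :=
    HasDerivAt.congr_deriv ((((hasDerivAt_pow 2 s).sub_const 2).const_mul 2).fun_div
      ((hasDerivAt_id s).fun_mul ((hasDerivAt_pow 2 s).sub_const 10)) (mul_pos hz h10).ne')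
      (by simp; ring)
  refine ⟨((2 * s ^ 4 + 8 * s ^ 2 + 40) / (s * (s ^ 2 - 10)) ^ 2 : ℝ) * q V V1 s +
    -((2 / (s * (s ^ 2 - 10)) : ℝ) * (V2 s - G s (V s) (V1 s))) +
    (4 * (W V s - ia s * q V V1 s) ^ 2 * (1 - (W V s + s * (s ^ 2 - 2) * q V V1 s / 4)) -
      (s ^ 2 / (s ^ 2 - 10)) * (2 * W V s + (s ^ 2 - 2) * q V V1 s / s) ^ 2 *
        (1 + (W V s + s * (s ^ 2 - 2) * q V V1 s / 4))) / (s * V s),
    HasDerivAt.congr_deriv ((H.dW hs).fun_sub (di.ofReal_comp.fun_mul (H.dq hs))) ?_, ?_⟩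
  · rw [K.N_eq c4, K.h_eq, Wt, show 2 * W V s + (s ^ 2 - 2) * q V V1 s / s = V1 s / s by
      rw [K.V1_eq]; field_simp; ring]
    generalize W V s + s * (s ^ 2 - 2) * q V V1 s / 4 = u
    generalize W V s - ia s * q V V1 s = w
    simp only [ia]
    push_cast
    field_simp
    ring
  have hq := K.q_le s (left_mem_Icc.2 K.le)
  have p1 : ‖(s ^ 2 - 2) * q V V1 s / s‖ ≤ μ * dl V Z M μ ν s := by
    refine le_trans ?_ K.d2.1
    rw [norm_div, norm_mul, K.nph, Complex.norm_real, Real.norm_of_nonneg hz.le, div_le_iff₀ hz]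
    nlinarith [mul_le_mul (show s ^ 2 - 2 ≤ s ^ 2 by linarith) hq (norm_nonneg _) (sq_nonneg s)]
  have p2 : ‖(s : ℂ) ^ 2 / (s ^ 2 - 10) - 1‖ ≤ dl V Z M μ ν s := by
    refine le_trans ?_ K.d2.2.2
    rw [show (s : ℂ) ^ 2 / (s ^ 2 - 10) - 1 = (10 / (s ^ 2 - 10) : ℝ) by
      push_cast; field_simp; ring, Complex.norm_real, Real.norm_of_nonneg (by positivity),
      div_le_div_iff₀ h10 (by positivity)]
    linarith
  have p3 := K.zV (alg (K.w2 K.hb) p1 K.u2 p2 K.r2 K.d1)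
  have p4 : (2 * s ^ 4 + 8 * s ^ 2 + 40) / (s * (s ^ 2 - 10)) ^ 2 ≤ 4 / s ^ 2 := by
    rw [div_le_div_iff₀ (by positivity) (by positivity), mul_pow]
    nlinarith [mul_le_mul_of_nonneg_left (show 2 * s ^ 4 + 8 * s ^ 2 + 40 ≤ 4 * (s ^ 2 - 10) ^ 2 by
      nlinarith) (sq_nonneg s)]
  have p5 : 2 / (s * (s ^ 2 - 10)) ≤ 4 / s ^ 3 := by
    rw [div_le_div_iff₀ (by positivity) (by positivity)]
    nlinarith [mul_le_mul_of_nonneg_left hb hz.le]
  have p6 := mul_le_mul p4 hq (norm_nonneg _) (by positivity)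
  have p7 := mul_le_mul p5 (H.eq s hs) (norm_nonneg _) (by positivity)
  refine norm_add₃_le.trans ?_
  rw [norm_neg, norm_mul, norm_mul, Complex.norm_real, Complex.norm_real,
    Real.norm_of_nonneg (by positivity), Real.norm_of_nonneg (by positivity)]
  obtain ⟨y, hy⟩ : ∃ y, y = ν * s * ly Z s := ⟨_, rfl⟩
  obtain ⟨x, hx⟩ : ∃ x, x = μ ^ 2 / (s ^ 3 * sg V Z s ^ 2) := ⟨_, rfl⟩
  have x0 : 0 < x := by rw [hx]; positivity
  have y0 : 0 ≤ y := by have := H.n0; have := l0 (Z := Z) s; rw [hy]; positivity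
  have e1 : 4 / s ^ 2 * bt V Z μ ν s = 4000 * (x * sg V Z s) + y * (40 / s ^ 2) := by
    rw [bt, hx, hy]
    field_simp
    ring
  have e2 : 4 / s ^ 3 * (A / s ^ 3 + ν * s ^ 4 * ly Z s) = 4 * A / s ^ 6 + 4 * y := by
    rw [hy]
    field_simp
  have e3 : 4 * (144 * (μ ^ 2 * dl V Z M μ ν s)) / (s * sg V Z s) =
      576000 * (M ^ 2 * x) + y * (5760 * M * (μ / sg V Z s)) := by
    rw [dl, hx, hy]
    field_simp
    ring
  have f1 := mul_le_of_le_one_right y0 (show 40 / s ^ 2 ≤ 1 from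
    (div_le_one (by positivity)).2 (by linarith))
  have f2 := mul_le_of_le_one_right y0 (show 5760 * M * (μ / sg V Z s) ≤ 1 by
    nlinarith [mul_le_mul_of_nonneg_left ((div_le_iff₀ hg).2 K.s1) (zero_le_one.trans H.hM), H.e1])
  have f3 := mul_le_mul_of_nonneg_left K.s8 x0.le
  have f4 := mul_le_mul_of_nonneg_right (one_le_pow₀ (n := 2) H.hM) x0.le
  rw [← hy, show 608000 * (M ^ 2 * μ ^ 2) / (s ^ 3 * sg V Z s ^ 2) = 608000 * (M ^ 2 * x) by
    rw [hx]; ring]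
  linarith

theorem cWt (H : Hyp V V1 V2 Z A M μ ε ν z) : ContinuousOn (Wt V V1) (Icc z Z) :=
  H.cW.sub ((Complex.continuous_ofReal.comp_continuousOn (ContinuousOn.div (by fun_prop)
    (by fun_prop) fun s hs => (mul_pos (H.mono hs).pos
      (by linarith [(H.mono hs).big])).ne')).mul H.cq)

theorem psi (H : Hyp V V1 V2 Z A M μ ε ν z) :
    ‖Wt V V1 z / (1 + Wt V V1 z * (Lam V Z - Lam V z)) - Wt V V1 Z‖ ≤
      1824096 * (M ^ 2 * μ ^ 2 * ε) + 4 * A / z ^ 5 := by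
  have ne : ∀ s ∈ Icc z Z, 1 + Wt V V1 s * (Lam V Z - Lam V s) ≠ 0 := fun s hs =>
    norm_pos_iff.1 (by linarith [(H.mono hs).den'])
  have hA := H.a0
  have hz := H.pos
  have hZ := H.top.pos
  have := back (f := fun s => Wt V V1 s / (1 + Wt V V1 s * (Lam V Z - Lam V s)) - Wt V V1 Z)
    (B := fun s => 608000 * (M ^ 2 * μ ^ 2) * (1 / s ^ 2 + wr V Z / sg V Z s - wr V Z / sg V Z Z) +
      4 * A / s ^ 5 + 96 * ν * (1 - ly Z s)) H.le
    ((H.cWt.div (continuousOn_const.add (H.cWt.mul (continuousOn_const.sub H.cL))) ne).sub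
      continuousOn_const)
    (((continuousOn_const.mul (((continuousOn_const.div (by fun_prop) fun s hs =>
      (pow_pos (H.mono hs).pos 2).ne').add (continuousOn_const.div csg.continuousOn fun s hs =>
        (H.mono hs).s0.ne')).sub continuousOn_const)).add (continuousOn_const.div (by fun_prop)
          fun s hs => (pow_pos (H.mono hs).pos 5).ne')).add
      (continuousOn_const.mul (continuousOn_const.sub cly.continuousOn)))
    (fun s hs => ?_) (by simp [lZ]; positivity)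
  · have h1 : 1 / z ^ 2 ≤ ε := (div_le_iff₀ (by positivity)).2 H.h1
    have h2 : wr V Z / sg V Z z ≤ ε :=
      (div_le_iff₀ H.s0).2 ((le_abs_self _).trans (H.wr_le.trans H.s1))
    have h3 : -wr V Z / sg V Z Z ≤ ε :=
      (div_le_iff₀ H.top.s0).2 ((neg_le_abs _).trans (H.wr_le.trans H.top.s1))
    rw [neg_div] at h3
    have h4 := mul_le_mul_of_nonneg_left (show 1 / z ^ 2 + wr V Z / sg V Z z - wr V Z / sg V Z Z ≤
      3 * ε by linarith) (show 0 ≤ M ^ 2 * μ ^ 2 by positivity)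
    have h5 := mul_le_mul_of_nonneg_right (one_le_pow₀ (n := 2) H.hM) (H.n0.trans H.n1)
    nlinarith [mul_nonneg H.n0 (l0 (Z := Z) z).le, H.n1]
  have hs' := Ioo_subset_Icc_self hs
  have K := H.mono hs'
  obtain ⟨e, h1, h2⟩ := H.dWt hs
  have h0 := K.pos
  have hg := K.s0
  refine ⟨e / (1 + Wt V V1 s * (Lam V Z - Lam V s)) ^ 2, _, HasDerivAt.congr_deriv ((h1.fun_div
    ((h1.fun_mul ((H.dL hs).const_sub (Lam V Z))).const_add 1) (ne s hs')).sub_const _)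
    (by congr 1; ring), ((((((hasDerivAt_const s 1).fun_div (hasDerivAt_pow 2 s)
      (by positivity)).fun_add ((hasDerivAt_const s (wr V Z)).fun_div (dsg s) hg.ne')).sub_const
        _).const_mul _).fun_add ((hasDerivAt_const s (4 * A)).fun_div (hasDerivAt_pow 5 s)
          (by positivity))).fun_add (((dly s).const_sub 1).const_mul _), ?_⟩
  have h3 : ‖e / (1 + Wt V V1 s * (Lam V Z - Lam V s)) ^ 2‖ ≤ 4 * ‖e‖ := by
    have := pow_le_pow_left₀ (by norm_num) K.den' 2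
    rw [norm_div, norm_pow, div_le_iff₀ (by linarith)]
    nlinarith [norm_nonneg e]
  have h4 : 4 / (s ^ 3 * sg V Z s ^ 2) ≤ 2 / s ^ 3 + 2 * wr V Z ^ 2 * s / sg V Z s ^ 2 := by
    rw [div_add_div _ _ (by positivity) (by positivity)]
    refine div_le_div_of_nonneg_right ?_ (by positivity)
    have := pow_le_pow_left₀ zero_le_two K.two 2
    nlinarith [sq_nonneg (sg V Z s - |wr V Z| * s ^ 2), sq_abs (wr V Z),
      show (|wr V Z| * s ^ 2) ^ 2 = wr V Z ^ 2 * s ^ 4 by rw [mul_pow, sq_abs]; ring]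
  have h5 := mul_le_mul_of_nonneg_left h4 (show 0 ≤ 608000 * (M ^ 2 * μ ^ 2) by positivity)
  have h6 : 0 ≤ A / s ^ 6 := by positivity
  have e1 : 608000 * (M ^ 2 * μ ^ 2) * ((0 * s ^ 2 - 1 * ((2 : ℕ) * s ^ (2 - 1))) / (s ^ 2) ^ 2 +
      (0 * sg V Z s - wr V Z * (wr V Z * (2 * s))) / sg V Z s ^ 2) +
      (0 * s ^ 5 - 4 * A * ((5 : ℕ) * s ^ (5 - 1))) / (s ^ 5) ^ 2 + 96 * ν * -(ly Z s * (s / 4)) =
      -(608000 * (M ^ 2 * μ ^ 2) * (2 / s ^ 3 + 2 * wr V Z ^ 2 * s / sg V Z s ^ 2) +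
        20 * (A / s ^ 6) + 24 * (ν * s * ly Z s)) := by
    push_cast
    field_simp
    ring
  rw [e1]
  rw [mul_div_assoc 4 A, show 608000 * (M ^ 2 * μ ^ 2) / (s ^ 3 * sg V Z s ^ 2) =
    608000 * (M ^ 2 * μ ^ 2) * (4 / (s ^ 3 * sg V Z s ^ 2)) / 4 by ring] at h2
  linarith

/-- transport of the opening parameter -/
theorem transport (H : Hyp V V1 V2 Z A M μ ε ν z) :
    ‖W V z - W V Z - W V z * W V Z * (Lam V Z - Lam V z)‖ ≤
      3 * 10 ^ 6 * (M ^ 2 * μ ^ 2 * ε) + 6 * A / z ^ 5 := by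
  have ne : 1 + Wt V V1 z * (Lam V Z - Lam V z) ≠ 0 := norm_pos_iff.1 (by linarith [H.den'])
  have h1 := H.psi
  have h2 := H.r3
  have h3 := H.top.r3
  have h4 := H.L_le
  have h5 := H.wt_le
  have h6 := H.den
  have h7 := H.hW
  have e : W V z - W V Z - W V z * W V Z * (Lam V Z - Lam V z) =
      (Wt V V1 z / (1 + Wt V V1 z * (Lam V Z - Lam V z)) - Wt V V1 Z) *
        (1 + Wt V V1 z * (Lam V Z - Lam V z)) + ia z * q V V1 z + -(ia Z * q V V1 Z) +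
        -((ia z * q V V1 z * W V Z + ia Z * q V V1 Z * Wt V V1 z) * (Lam V Z - Lam V z)) := by
    rw [sub_mul, div_mul_cancel₀ _ ne, Wt, Wt]
    ring
  rw [e]
  generalize ia z * q V V1 z = r at *
  generalize ia Z * q V V1 Z = r' at *
  generalize Lam V Z - Lam V z = L at *
  have a0 : 0 ≤ μ ^ 2 * ε := mul_nonneg (sq_nonneg _) H.e0.le
  have a1 : ‖1 + Wt V V1 z * L‖ ≤ 3 / 2 := by
    linarith [norm_add_le 1 (Wt V V1 z * L), norm_one (α := ℂ)]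
  have a2 : ‖r * W V Z + r' * Wt V V1 z‖ ≤ 4040 * (μ ^ 2 * ε) * (4 * μ) := by
    refine (norm_add_le _ _).trans ?_
    rw [norm_mul, norm_mul]
    linarith [mul_le_mul h2 h7 (norm_nonneg _) (by positivity),
      mul_le_mul h3 h5 (norm_nonneg _) (by positivity)]
  have a3 := mul_le_mul_of_nonneg_right a2 (norm_nonneg L)
  have a4 := mul_le_mul_of_nonneg_left (show 4 * (μ * ‖L‖) ≤ 1 by linarith [H.e1]) a0
  have a5 := mul_le_mul h1 a1 (norm_nonneg _) ((norm_nonneg _).trans h1)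
  have a6 := mul_le_mul_of_nonneg_right (one_le_pow₀ (n := 2) H.hM) a0
  refine norm_add₄_le.trans ?_
  rw [norm_neg, norm_neg, norm_mul, norm_mul, mul_div_assoc 6]
  rw [mul_div_assoc 4] at a5
  linarith

/-- the invariant `-1/W + Lam` -/
theorem invariant (H : Hyp V V1 V2 Z A M μ ε ν z) {m : ℝ} (h0 : 4002 * (M * ε * μ) ≤ m)
    (h : m ≤ ‖W V Z‖) : ‖-(W V z)⁻¹ + Lam V z - (-(W V Z)⁻¹ + Lam V Z)‖ ≤
      2 * (3 * 10 ^ 6 * (M ^ 2 * μ ^ 2 * ε) + 6 * A / z ^ 5) / m ^ 2 := by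
  have hm : 0 < m := by
    have := H.hM; have := H.e0; have := H.m0
    exact lt_of_lt_of_le (by positivity) h0
  have h1 : m / 2 ≤ ‖W V z‖ := by
    have := norm_sub_norm_le (W V Z) (W V z)
    rw [norm_sub_rev] at this
    linarith [H.w1 H.hb]
  have n1 : W V z ≠ 0 := norm_pos_iff.1 (by linarith)
  have n2 : W V Z ≠ 0 := norm_pos_iff.1 (by linarith)
  have h2 := H.transport
  rw [show -(W V z)⁻¹ + Lam V z - (-(W V Z)⁻¹ + Lam V Z) = (W V z - W V Z - W V z * W V Z *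
    (Lam V Z - Lam V z)) / (W V z * W V Z) by field_simp; ring, norm_div, norm_mul,
    div_le_div_iff₀ (mul_pos (by linarith) (by linarith)) (by positivity)]
  have h3 := mul_le_mul h1 h hm.le (norm_nonneg _)
  nlinarith [mul_le_mul h2 h3 (by positivity) ((norm_nonneg _).trans h2)]

end Hyp

/-- the hypotheses in the form delivered by the family -/
theorem ex_hyp {M A A1 : ℝ} (hM : 1 ≤ M) (hA : 0 ≤ A) (hA1 : 0 ≤ A1) : ∃ Zs : ℝ, ∀ Z z, Zs ≤ Z →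
    Z / 300 ≤ z → z ≤ Z → ∀ V V1 V2 : ℝ → ℂ, ContinuousOn V (Icc z Z) → ContinuousOn V1 (Icc z Z) →
    (∀ s ∈ Ioo z Z, HasDerivAt V (V1 s) s) → (∀ s ∈ Ioo z Z, HasDerivAt V1 (V2 s) s) →
    (∀ s ∈ Ioo z Z, ‖V2 s - G s (V s) (V1 s)‖ ≤ A / s ^ 3 + A1 / √Z * ly Z s) → 0 ≤ (V Z).re →
    ‖V Z‖ ≤ 8 → 2 * 10 ^ 6 * M ^ 3 ≤ Z ^ 2 * ‖V Z‖ → ‖W V Z‖ ≤ M / Z ^ 2 →
    ‖V1 Z - 2 * Z * W V Z‖ ≤ M ^ 2 / (2 * Z ^ 3 * ‖V Z‖) + A1 / (Z * √Z) →
    Hyp V V1 V2 Z A M (M / Z ^ 2) (M / (Z ^ 2 * ‖V Z‖) + 10 ^ 5 * M / Z ^ 2 + 10 ^ 10 * A1 / √Z)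
      (10 ^ 10 * A1 / (Z ^ 4 * √Z)) z := by
  refine ⟨(4 * 10 ^ 16 * M ^ 2 * A1) ^ 2 + 10 ^ 6 * M ^ 2 + 10 ^ 14 * A,
    fun Z z hZ h1 h2 V V1 V2 c0 c1 d0 d1 he re n8 hY hW hq => ?_⟩
  have m2 : 1 ≤ M ^ 2 := one_le_pow₀ hM
  have z1 : 10 ^ 6 * M ^ 2 ≤ Z := by nlinarith [sq_nonneg (4 * 10 ^ 16 * M ^ 2 * A1)]
  have z0 : 0 < Z := by linarith
  have z2 : 4 * 10 ^ 16 * M ^ 2 * A1 ≤ √Z := Real.le_sqrt_of_sq_le (by linarith)
  have z3 : 10 ^ 14 * A ≤ Z := by nlinarith [sq_nonneg (4 * 10 ^ 16 * M ^ 2 * A1)]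
  have r0 : 0 < √Z := Real.sqrt_pos.2 z0
  have hz : 0 < z := by linarith
  have v0 : 0 < ‖V Z‖ := pos_of_mul_pos_right (lt_of_lt_of_le (by positivity) hY) (sq_nonneg Z)
  have p1 : 0 ≤ M / (Z ^ 2 * ‖V Z‖) := by positivity
  have p2 : 0 ≤ 10 ^ 5 * M / Z ^ 2 := by positivity
  have p3 : 0 ≤ 10 ^ 10 * A1 / √Z := by positivity
  have p4 : M / Z ^ 2 ≤ 10 ^ 5 * M / Z ^ 2 := by gcongr; linarith
  have b1 : ∀ s, z ≤ s → Z ^ 2 ≤ 10 ^ 5 * s ^ 2 := fun s hs => by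
    nlinarith [pow_le_pow_left₀ (by positivity) (h1.trans hs) 2]
  refine ⟨hz, h2, c0, c1, d0, d1, fun s hs => (he s hs).trans ?_, hM, ?_, ?_, by positivity,
    by rw [div_mul_cancel₀ _ (by positivity)], ?_, by linarith, re, n8, hW, ?_, hA, ?_,
    by positivity, ?_⟩
  · gcongr
    · exact (Hyp.l0 s).le
    rw [div_mul_eq_mul_div, div_le_div_iff₀ r0 (by positivity)]
    have := mul_le_mul_of_nonneg_left (pow_le_pow_left₀ (by positivity) (b1 s hs.1.le) 2)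
      (mul_nonneg hA1 r0.le)
    linarith
  · have a1 : M / (Z ^ 2 * ‖V Z‖) ≤ 1 / (2 * 10 ^ 6 * M ^ 2) := by
      rw [div_le_div_iff₀ (by positivity) (by positivity)]
      linarith
    have a2 : 10 ^ 5 * M / Z ^ 2 ≤ 1 / (4 * 10 ^ 6 * M ^ 2) := by
      rw [div_le_div_iff₀ (by positivity) (by positivity)]
      nlinarith [pow_le_pow_left₀ (by positivity) z1 2, mul_le_mul_of_nonneg_left hM
        (show 0 ≤ M ^ 3 by positivity), pow_pos (zero_lt_one.trans_le hM) 3]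
    have a3 : 10 ^ 10 * A1 / √Z ≤ 1 / (4 * 10 ^ 6 * M ^ 2) := by
      rw [div_le_div_iff₀ r0 (by positivity)]
      linarith
    refine (mul_le_mul_of_nonneg_left (add_le_add_three a1 a2 a3) (by positivity)).trans
      (le_of_eq ?_)
    field_simp
    ring
  · have a1 : 1 ≤ 10 ^ 5 * M / Z ^ 2 * z ^ 2 := by
      rw [div_mul_eq_mul_div, le_div_iff₀ (by positivity)]
      nlinarith [b1 z le_rfl, mul_le_mul_of_nonneg_right hM (sq_nonneg z)]
    nlinarith [mul_nonneg (add_nonneg p1 p3) (sq_nonneg z)]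
  · have : M / Z ^ 2 = M / (Z ^ 2 * ‖V Z‖) * ‖V Z‖ := by field_simp
    nlinarith [mul_nonneg (add_nonneg p2 p3) v0.le]
  · have a1 : Z ^ 2 / 2 ≤ Z ^ 2 - 2 := by nlinarith
    rw [q, norm_div, show (Z : ℂ) ^ 2 - 2 = (Z ^ 2 - 2 : ℝ) by push_cast; rfl, Complex.norm_real,
      Real.norm_of_nonneg (by linarith [pow_pos z0 2])]
    refine (div_le_div₀ (by positivity) hq (by positivity) a1).trans ?_
    have : 0 ≤ A1 / (Z ^ 3 * √Z) := by positivity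
    calc _ = (M / Z ^ 2) ^ 2 / (Z * ‖V Z‖) + 2 * (A1 / (Z ^ 3 * √Z)) := by field_simp
      _ ≤ (M / Z ^ 2) ^ 2 / (Z * ‖V Z‖) + 10 ^ 10 * (A1 / (Z ^ 3 * √Z)) := by linarith
      _ = _ := by field_simp
  · rw [div_pow, div_mul_eq_mul_div, le_div_iff₀ (by positivity)]
    have a1 := pow_le_pow_left₀ (by positivity) h1 5
    have a2 := mul_le_mul_of_nonneg_right z3 (pow_pos z0 4).le
    nlinarith [mul_le_mul_of_nonneg_right m2 (pow_pos hz 5).le, mul_nonneg hA (pow_pos z0 4).le]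
  · have a1 : 10 ^ 10 * A1 / (Z ^ 4 * √Z) = (1 / Z ^ 2) ^ 2 * (10 ^ 10 * A1 / √Z) := by field_simp
    rw [a1]
    gcongr
    linarith

end

end Vale.Agent.P218T.M0
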