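import Vale.Agent.P218T.HJ

/-!
# P218: the natural boundary condition with an error term
-/

set_option linter.all false

namespace Vale.Agent.P218T.HJ

noncomputable section

variable {I : ℕ} {Y V s d : ℂ}

theorem gm_le (h : 4 * ((I : ℝ) + 3) ≤ 3 * ‖Y‖) (hV : ‖V‖ ≤ 8) :
    ‖dta I Y - V * eta I Y / 2 - (1 - V / 2)‖ ≤ 35 / 2 * ‖Y‖⁻¹ := by
  have e1 := eta_le h
  have e2 := dta_le h
  have := norm_sub_le (dta I Y - 1) (V * (eta I Y - 1) / 2)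
  rw [norm_div, norm_mul, Complex.norm_ofNat] at this
  rw [show dta I Y - V * eta I Y / 2 - (1 - V / 2) = dta I Y - 1 - V * (eta I Y - 1) / 2 by ring]
  linarith [mul_le_mul hV e1 (norm_nonneg _) (by norm_num)]

theorem gm_le' (h : 4 * ((I : ℝ) + 3) ≤ 3 * ‖Y‖) (h' : 100 ≤ ‖Y‖) (hV : ‖V‖ ≤ 8) :
    ‖dta I Y - V * eta I Y / 2‖ ≤ 26 / 5 := by
  have hr : ‖Y‖⁻¹ ≤ 1 / 100 := by rw [one_div]; exact inv_anti₀ (by norm_num) h'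
  have h1 := norm_sub_norm_le (dta I Y - V * eta I Y / 2) (1 - V / 2)
  have h2 := norm_sub_le 1 (V / 2)
  rw [norm_div, Complex.norm_ofNat, norm_one] at h2
  linarith [gm_le h hV]

theorem root_sub {s s' w w' : ℂ} (hs : s ^ 2 = 1 - w) (h0 : 0 ≤ s.re) (hs' : s' ^ 2 = 1 - w')
    (h0' : 0 ≤ s'.re) (h : ‖w‖ ≤ 1 / 2) (h' : ‖w'‖ ≤ 1 / 2) : ‖s - s'‖ ≤ ‖w - w'‖ := by
  have h1 := root_le hs h0
  have h2 := root_le hs' h0'
  have h3 : 1 ≤ ‖s + s'‖ := by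
    have := norm_sub_le (s + s') (s - 1 + (s' - 1))
    rw [show s + s' - (s - 1 + (s' - 1)) = 2 by ring, Complex.norm_ofNat] at this
    linarith [norm_add_le (s - 1) (s' - 1)]
  have h4 : ‖s - s'‖ * ‖s + s'‖ = ‖w - w'‖ := by
    rw [← norm_mul, norm_sub_rev w]
    congr 1
    linear_combination hs - hs'
  nlinarith [norm_nonneg (s - s')]

/-- the Hamiltonian with an error in the momentum -/
theorem ham' (hI : 1 ≤ I) (h : 4 * ((I : ℝ) + 3) ≤ 3 * ‖Y‖) (h' : 100 ≤ ‖Y‖) (hV : ‖V‖ ≤ 8)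
    (hd : ‖d‖ ≤ 1 / 2) (hs : s ^ 2 = 1 - (dta I Y - V * eta I Y / 2 + d) ^ 2 / Y)
    (h0 : 0 ≤ s.re) : ‖s - 1‖ ≤ 33 * ‖Y‖⁻¹ ∧ ‖s - eta I Y + b (I + 1) * Y⁻¹ ^ (I + 1)‖ ≤
      44 * b (I + 1) * ‖Y‖⁻¹ ^ (I + 2) + (2 * ‖V‖ + 11 * ‖d‖) * ‖Y‖⁻¹ := by
  have hr : ‖Y‖⁻¹ ≤ 1 / 100 := by rw [one_div]; exact inv_anti₀ (by norm_num) h'
  have r0 : 0 ≤ ‖Y‖⁻¹ := by positivity
  have e1 := (ham hI h h' hV (sqrt_sq _) (sqrt_re _)).2
  have e2 := gm_le' h h' hV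
  generalize dta I Y - V * eta I Y / 2 = g at *
  have e3 : ‖g + d‖ ≤ 57 / 10 := by linarith [norm_add_le g d]
  have e4 : ‖(g + d) ^ 2 / Y‖ ≤ 33 * ‖Y‖⁻¹ := by
    rw [norm_div, norm_pow, div_eq_mul_inv]
    nlinarith [mul_le_mul_of_nonneg_right (pow_le_pow_left₀ (norm_nonneg _) e3 2) r0]
  have e5 : ‖g ^ 2 / Y‖ ≤ 33 * ‖Y‖⁻¹ := by
    rw [norm_div, norm_pow, div_eq_mul_inv]
    nlinarith [mul_le_mul_of_nonneg_right (pow_le_pow_left₀ (norm_nonneg _) e2 2) r0]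
  have e6 := root_sub hs h0 (sqrt_sq (1 - g ^ 2 / Y)) (sqrt_re _) (by linarith) (by linarith)
  have e7 : ‖(g + d) ^ 2 / Y - g ^ 2 / Y‖ ≤ 11 * ‖d‖ * ‖Y‖⁻¹ := by
    rw [show (g + d) ^ 2 / Y - g ^ 2 / Y = (g + (g + d)) * d * Y⁻¹ by ring, norm_mul, norm_mul,
      norm_inv]
    gcongr
    linarith [norm_add_le g (g + d)]
  refine ⟨(root_le hs h0).trans e4, ?_⟩
  have := norm_add_le (s - Complex.sqrt (1 - g ^ 2 / Y))
    (Complex.sqrt (1 - g ^ 2 / Y) - eta I Y + b (I + 1) * Y⁻¹ ^ (I + 1))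
  rw [← add_assoc, sub_add_sub_cancel] at this
  linarith

/-- the natural boundary condition in terms of `s = R / S` -/
theorem nat_bc {Z p R S g : ℂ} (hZ : Z ≠ 0) (hV : V ≠ 0) (hS0 : S ≠ 0) (hR : R ^ 2 = V)
    (hS : S ^ 2 = V + p ^ 2 / 4) (hb : p * R * Z = -4 * g * S) :
    (R / S) ^ 2 = 1 - g ^ 2 / (Z ^ 2 * V / 4) ∧ p * (R / S) = -(4 / Z) * g ∧
      S - p ^ 2 / (4 * S) = R * (R / S) := by
  refine ⟨?_, ?_, ?_⟩
  · field_simp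
    linear_combination (Z ^ 2 * V + Z ^ 2 * p ^ 2 / 4) * hR - Z ^ 2 * V * hS -
      (p * R * Z - 4 * g * S) / 4 * hb
  · field_simp
    linear_combination hb
  · field_simp
    linear_combination 4 * hS - 4 * hR

/-- the Robin condition -/
theorem robin {Z : ℝ} {p : ℂ} (hZ : 10 ≤ Z) (hY : Y = Z ^ 2 * V / 4)
    (h : 4 * ((I : ℝ) + 3) ≤ 3 * ‖Y‖) (h' : 100 ≤ ‖Y‖) (hV : ‖V‖ ≤ 8) (hs : ‖s - 1‖ ≤ 33 * ‖Y‖⁻¹)
    (hp : p * s = -(4 / Z) * (dta I Y - V * eta I Y / 2 + d)) :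
    ‖p - 2 * Z * ((V - 2) / (Z ^ 2 - 2))‖ ≤ 5000 / (Z ^ 3 * ‖V‖) + 6 * ‖d‖ / Z := by
  have hr : ‖Y‖⁻¹ ≤ 1 / 100 := by rw [one_div]; exact inv_anti₀ (by norm_num) h'
  have z0 : 0 < Z := by linarith
  have z1 : (Z : ℂ) ≠ 0 := by exact_mod_cast z0.ne'
  have z2 : 0 < Z ^ 2 - 2 := by nlinarith
  have z3 : (Z : ℂ) ^ 2 - 2 ≠ 0 := by exact_mod_cast z2.ne'
  have e0 : ‖Y‖ = Z ^ 2 * ‖V‖ / 4 := by simp [hY]
  have v0 : 0 < ‖V‖ := pos_of_mul_pos_right (show 0 < Z ^ 2 * ‖V‖ by linarith) (sq_nonneg Z)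
  have e1 : ‖Y‖⁻¹ = 4 * Z * (1 / (Z ^ 3 * ‖V‖)) := by rw [e0]; field_simp
  have e2 := gm_le h hV
  generalize dta I Y - V * eta I Y / 2 = g at *
  have s1 : 2 / 3 ≤ ‖s‖ := by
    have := norm_sub_norm_le 1 s
    rw [norm_sub_rev, norm_one] at this
    linarith
  have s0 : s ≠ 0 := norm_pos_iff.1 (by linarith)
  have v1 : ‖1 - V / 2‖ ≤ 5 := by
    have h2 := norm_sub_le 1 (V / 2)
    rw [norm_div, Complex.norm_ofNat, norm_one] at h2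
    linarith
  have e : p - 2 * Z * ((V - 2) / (Z ^ 2 - 2)) = (8 / (Z * (Z ^ 2 - 2)) : ℝ) * (1 - V / 2) -
      (4 / Z : ℝ) * ((g - (1 - V / 2) + d + -((1 - V / 2) * (s - 1))) / s) := by
    rw [eq_div_of_mul_eq s0 hp]
    push_cast
    field_simp
    ring
  have a1 : ‖(g - (1 - V / 2) + d + -((1 - V / 2) * (s - 1))) / s‖ ≤
      274 * ‖Y‖⁻¹ + 3 / 2 * ‖d‖ := by
    have := (norm_add₃_le (a := g - (1 - V / 2)) (b := d) (c := -((1 - V / 2) * (s - 1))))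
    rw [norm_neg, norm_mul] at this
    rw [norm_div, div_le_iff₀ (by linarith)]
    nlinarith [mul_le_mul v1 hs (norm_nonneg _) (by norm_num), mul_le_mul_of_nonneg_left s1
      (show 0 ≤ 274 * ‖Y‖⁻¹ + 3 / 2 * ‖d‖ by positivity), inv_nonneg.2 (norm_nonneg Y)]
  have a2 : 8 / (Z * (Z ^ 2 - 2)) ≤ 80 * (1 / (Z ^ 3 * ‖V‖)) := by
    rw [mul_one_div, div_le_div_iff₀ (by positivity) (by positivity)]
    nlinarith [mul_le_mul_of_nonneg_left hV (pow_pos z0 3).le,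
      mul_le_mul_of_nonneg_left (show 100 ≤ Z ^ 2 by nlinarith) z0.le]
  rw [e]
  refine (norm_sub_le _ _).trans ?_
  rw [norm_mul, norm_mul, Complex.norm_real, Complex.norm_real, Real.norm_of_nonneg (by positivity),
    Real.norm_of_nonneg (by positivity), div_eq_mul_one_div 5000]
  have a3 := mul_le_mul a2 v1 (norm_nonneg _) (by positivity)
  have a4 := mul_le_mul_of_nonneg_left a1 (show 0 ≤ 4 / Z by positivity)
  have a5 : 4 / Z * (274 * ‖Y‖⁻¹ + 3 / 2 * ‖d‖) = 4384 * (1 / (Z ^ 3 * ‖V‖)) + 6 * ‖d‖ / Z := by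
    rw [e1]
    field_simp
    ring
  have a6 : 0 ≤ 1 / (Z ^ 3 * ‖V‖) := by positivity
  linarith

end

end Vale.Agent.P218T.HJ
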