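import Vale.Agent.P218T.Rn

/-! Tools for the finite dimensional reduction: Cauchy bounds, contraction, implicit functions. -/

set_option linter.all false

open Set Filter Topology Metric

noncomputable section

namespace Vale.Agent.P218T.Fam

section
variable {E F : Type} [NormedAddCommGroup E] [NormedSpace ℂ E] [NormedAddCommGroup F]
  [NormedSpace ℂ F]

theorem line_der {f : E → F} {y y' : E} {t : ℂ} (h : DifferentiableAt ℂ f (y + t • y')) :
    HasDerivAt (fun s : ℂ => f (y + s • y')) (fderiv ℂ f (y + t • y') y') t := by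
  have h1 : HasDerivAt (fun s : ℂ => y + s • y') y' t := by
    simpa using ((hasDerivAt_id t).smul_const y').const_add y
  exact h.hasFDerivAt.comp_hasDerivAt t h1

/-- Cauchy bound along a line -/
theorem cau {f : E → F} {y y' : E} {ρ M : ℝ} (hρ : 0 < ρ)
    (h : ∀ t : ℂ, ‖t‖ ≤ ρ → DifferentiableAt ℂ f (y + t • y') ∧ ‖f (y + t • y')‖ ≤ M) :
    ‖fderiv ℂ f y y'‖ ≤ M / ρ := by
  have hd : DifferentiableOn ℂ (fun s : ℂ => f (y + s • y')) (closedBall 0 ρ) := fun t ht =>
    (line_der (h t (by simpa using ht)).1).differentiableAt.differentiableWithinAt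
  have h2 := Complex.norm_deriv_le_of_forall_mem_sphere_norm_le hρ
    (DifferentiableOn.diffContOnCl_ball hd subset_rfl)
    (fun z hz => (h z (by simpa using (mem_sphere_iff_norm.1 hz).le)).2)
  have h0 := (line_der (h 0 (by simpa using hρ.le)).1).deriv
  rw [h0] at h2
  simpa using h2

theorem fderiv_le {f : E → F} {x : E} {ρ M : ℝ} (hρ : 0 < ρ) (hM : 0 ≤ M)
    (h : ∀ y, ‖y - x‖ ≤ ρ → DifferentiableAt ℂ f y ∧ ‖f y‖ ≤ M) : ‖fderiv ℂ f x‖ ≤ M / ρ := by
  refine ContinuousLinearMap.opNorm_le_of_unit_norm (by positivity) fun v hv => ?_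
  refine cau hρ fun t ht => h _ ?_
  simpa [norm_smul, hv] using ht

/-- complex differentiable near a point implies continuously differentiable -/
theorem hb {f : E → F} {x : E} (h : ∀ᶠ y in 𝓝 x, DifferentiableAt ℂ f y) :
    ContDiffAt ℂ 1 f x := by
  have hc : ∀ᶠ y in 𝓝 x, ‖f y‖ ≤ ‖f x‖ + 1 :=
    (h.self_of_nhds.continuousAt.norm).eventually (ge_mem_nhds (lt_add_one _))
  obtain ⟨ε, hε, hb⟩ := Metric.eventually_nhds_iff.1 (h.and hc)
  set M := ‖f x‖ + 1 with hM
  have hM0 : 0 ≤ M := by positivity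
  set ρ := ε / 4 with hρ
  have ρ0 : 0 < ρ := by positivity
  have hin : ∀ y, ‖y - x‖ ≤ 3 * ρ → DifferentiableAt ℂ f y ∧ ‖f y‖ ≤ M := fun y hy =>
    hb (by rw [dist_eq_norm]; linarith)
  have h1 : ∀ y, ‖y - x‖ ≤ 2 * ρ → ‖fderiv ℂ f y‖ ≤ M / ρ := fun y hy =>
    fderiv_le ρ0 hM0 fun z hz => hin z (by
      have := norm_sub_le_norm_sub_add_norm_sub z y x
      linarith)
  have h2 : ∀ y z, ‖y - x‖ ≤ 2 * ρ → ‖z - x‖ ≤ 2 * ρ → ‖f y - f z‖ ≤ M / ρ * ‖y - z‖ := by
    intro y z hy hz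
    refine (convex_closedBall x (2 * ρ)).norm_image_sub_le_of_norm_fderiv_le (𝕜 := ℂ)
      (fun w hw => (hin w ?_).1) (fun w hw => h1 w ?_) ?_ ?_
    · have := mem_closedBall_iff_norm.1 hw
      linarith
    · exact mem_closedBall_iff_norm.1 hw
    · exact mem_closedBall_iff_norm.2 hz
    · exact mem_closedBall_iff_norm.2 hy
  have h3 : ∀ y z, ‖y - x‖ < ρ → ‖z - x‖ < ρ →
      ‖fderiv ℂ f y - fderiv ℂ f z‖ ≤ M / ρ * ‖y - z‖ / ρ := by
    intro y z hy hz
    have dy := (hin y (by linarith)).1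
    have dz := (hin z (by linarith)).1
    have e : fderiv ℂ (fun w => f (y + w) - f (z + w)) 0 = fderiv ℂ f y - fderiv ℂ f z := by
      have a1 : HasFDerivAt (fun w => f (y + w)) (fderiv ℂ f y) 0 := by
        have : HasFDerivAt f (fderiv ℂ f y) (y + 0) := by simpa using dy.hasFDerivAt
        simpa [Function.comp_def] using this.comp 0 ((hasFDerivAt_id (0 : E)).const_add y)
      have a2 : HasFDerivAt (fun w => f (z + w)) (fderiv ℂ f z) 0 := by
        have : HasFDerivAt f (fderiv ℂ f z) (z + 0) := by simpa using dz.hasFDerivAt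
        simpa [Function.comp_def] using this.comp 0 ((hasFDerivAt_id (0 : E)).const_add z)
      exact (a1.sub a2).fderiv
    rw [← e]
    refine fderiv_le ρ0 (by positivity) fun w hw => ?_
    rw [sub_zero] at hw
    have b1 : ‖y + w - x‖ ≤ 2 * ρ := by
      have := norm_add_le (y - x) w
      rw [show y + w - x = y - x + w by abel]
      linarith
    have b2 : ‖z + w - x‖ ≤ 2 * ρ := by
      have := norm_add_le (z - x) w
      rw [show z + w - x = z - x + w by abel]
      linarith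
    refine ⟨?_, ?_⟩
    · exact ((hin (y + w) (by linarith)).1.comp w (differentiableAt_id.const_add y)).sub
        ((hin (z + w) (by linarith)).1.comp w (differentiableAt_id.const_add z))
    · have := h2 _ _ b1 b2
      rwa [show y + w - (z + w) = y - z by abel] at this
  rw [contDiffAt_one_iff]
  refine ⟨fderiv ℂ f, ball x ρ, ball_mem_nhds x ρ0, ?_, fun y hy =>
    (hin y (by have := mem_ball_iff_norm.1 hy; linarith)).1.hasFDerivAt⟩
  refine (LipschitzOnWith.of_dist_le' (K := M / ρ / ρ) fun y hy z hz => ?_).continuousOn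
  rw [dist_eq_norm, dist_eq_norm]
  refine (h3 y z (mem_ball_iff_norm.1 hy) (mem_ball_iff_norm.1 hz)).trans (le_of_eq ?_)
  ring

end

section
variable {X : Type} [NormedAddCommGroup X] [NormedSpace ℂ X] {p : Seminorm ℂ X}

/-- mean value inequality for an equivalent seminorm -/
theorem mvs (h : Eqv p) {γ γ' : ℂ → X} {C : ℝ}
    (hd : ∀ t ∈ Icc (0 : ℝ) 1, HasDerivAt γ (γ' t) t) (hb : ∀ t ∈ Icc (0 : ℝ) 1, p (γ' t) ≤ C) :
    p (γ 1 - γ 0) ≤ C := by
  letI : NormedSpace ℝ (Rn p h) := NormedSpace.restrictScalars ℝ ℂ _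
  have h1 : ∀ t ∈ Icc (0 : ℝ) 1, HasDerivWithinAt (fun s : ℝ => Rn.mk h (γ s)) (Rn.mk h (γ' t))
      (Icc 0 1) t := fun t ht => by
    have h2 := (Rn.mk h : X →L[ℂ] Rn p h).hasFDerivAt.comp_hasDerivAt (t : ℂ) (hd t ht)
    have h3 := (h2.hasFDerivAt.restrictScalars ℝ).comp_hasDerivAt t Complex.ofRealCLM.hasDerivAt
    simpa [Function.comp_def] using h3.hasDerivWithinAt
  have := norm_image_sub_le_of_norm_deriv_le_segment_01' h1 fun t ht => hb t (Ico_subset_Icc_self ht)
  rw [← map_sub, Rn.norm_mk] at this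
  simpa using this

theorem zero_of (h : Eqv p) {x : X} (hx : p x ≤ p x / 2) : x = 0 := by
  obtain ⟨C, hC⟩ := h
  have h0 : p x = 0 := le_antisymm (by linarith) (apply_nonneg p x)
  have := (hC x).1
  rw [h0, mul_zero] at this
  exact norm_le_zero_iff.1 this

theorem le_two {L : X →L[ℂ] X} (hL : ∀ x, p (x - L x) ≤ p x / 2) (x : X) : p x ≤ 2 * p (L x) := by
  have := map_add_le_add p (x - L x) (L x)
  rw [sub_add_cancel] at this
  linarith [hL x]

/-- fixed points -/
theorem fix [CompleteSpace X] (h : Eqv p) {G : X → X} {ρ : ℝ} (hρ : 0 ≤ ρ)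
    (hG : ∀ x y, p x ≤ ρ → p y ≤ ρ → p (G x - G y) ≤ p (x - y) / 2) (h0 : p (G 0) ≤ ρ / 2) :
    ∃ x, p x ≤ ρ ∧ G x = x := by
  let G' : Rn p h → Rn p h := fun x => Rn.mk h (G ((Rn.mk h).symm x))
  have hm : MapsTo G' (closedBall 0 ρ) (closedBall 0 ρ) := fun x hx => by
    rw [mem_closedBall_zero_iff] at hx ⊢
    have h1 := hG ((Rn.mk h).symm x) 0 hx (by simpa using hρ)
    have h2 := map_add_le_add p (G ((Rn.mk h).symm x) - G 0) (G 0)
    rw [sub_add_cancel] at h2
    rw [sub_zero, Rn.p_symm] at h1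
    show p (G ((Rn.mk h).symm x)) ≤ ρ
    linarith
  have hc : ContractingWith (1 / 2) (hm.restrict G' _ _) := by
    refine ⟨by norm_num, LipschitzWith.of_dist_le_mul fun x y => ?_⟩
    have h1 := hG ((Rn.mk h).symm x) ((Rn.mk h).symm y) (mem_closedBall_zero_iff.1 x.2)
      (mem_closedBall_zero_iff.1 y.2)
    rw [Subtype.dist_eq, Subtype.dist_eq, dist_eq_norm, dist_eq_norm]
    rw [← map_sub, Rn.p_symm] at h1
    have e : ‖((hm.restrict G' _ _ x : closedBall (0 : Rn p h) ρ) : Rn p h) - hm.restrict G' _ _ y‖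
        = p (G ((Rn.mk h).symm x) - G ((Rn.mk h).symm y)) := rfl
    rw [e]
    push_cast
    linarith
  obtain ⟨x, hx, hf, -⟩ := ContractingWith.exists_fixedPoint' isClosed_closedBall.isComplete hm hc
    (x := 0) (mem_closedBall_self hρ) (edist_ne_top _ _)
  exact ⟨(Rn.mk h).symm x, mem_closedBall_zero_iff.1 hx, hf⟩

theorem bij [CompleteSpace X] (h : Eqv p) {L : X →L[ℂ] X} (hL : ∀ x, p (x - L x) ≤ p x / 2) :
    Function.Bijective L := by
  refine ⟨(injective_iff_map_eq_zero L).2 fun x hx => zero_of h ?_, fun b => ?_⟩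
  · simpa [hx] using hL x
  · obtain ⟨x, -, hx⟩ := fix h (G := fun x => x - L x + b) (ρ := 2 * p b) (by positivity)
      (fun x y _ _ => by
        have := hL (x - y)
        rwa [show x - L x + b - (y - L y + b) = x - y - L (x - y) by rw [map_sub]; abel])
      (by simp)
    refine ⟨x, ?_⟩
    have : x - L x + b = x := hx
    rw [← sub_eq_zero] at this ⊢
    rw [← neg_eq_zero, ← this]
    abel

end

/-- implicit functions -/
theorem ift {E₁ E₂ F : Type} [NormedAddCommGroup E₁] [NormedSpace ℂ E₁] [CompleteSpace E₁]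
    [NormedAddCommGroup E₂] [NormedSpace ℂ E₂] [CompleteSpace E₂]
    [NormedAddCommGroup F] [NormedSpace ℂ F] [CompleteSpace F] {f : E₁ × E₂ → F} {u : E₁ × E₂}
    (cdf : ContDiffAt ℂ 1 f u) (hb : Function.Bijective fun y => fderiv ℂ f u (0, y)) :
    ∃ ψ : E₁ → E₂, ContDiffAt ℂ 1 ψ u.1 ∧ ψ u.1 = u.2 ∧ ∀ᶠ x in 𝓝 u.1, f (x, ψ x) = f u := by
  have hi : (fderiv ℂ f u ∘L .inr ℂ E₁ E₂).IsInvertible := by
    exact ⟨ContinuousLinearEquiv.ofBijective (fderiv ℂ f u ∘L .inr ℂ E₁ E₂)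
      (LinearMap.ker_eq_bot.2 hb.1) (LinearMap.range_eq_top.2 hb.2),
      ContinuousLinearEquiv.coe_ofBijective _ _ _⟩
  exact ⟨cdf.implicitFunction one_ne_zero hi, cdf.contDiffAt_implicitFunction _ hi,
    cdf.implicitFunction_apply_self _ hi, cdf.eventually_apply_implicitFunction _ hi⟩

end Vale.Agent.P218T.Fam
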