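import Vale.Agent.P218T.Rn
import Vale.Agent.P218Q.Defs

/-! The interface between the analysis on the surface and the finite dimensional reduction. -/

open Set Filter Topology

noncomputable section

namespace Vale.Agent.P218T

open Vale.Agent.P218Q (dsc nu Prof DF)

variable {α ι : Type} [Fintype α] [Fintype ι]

/-- opening parameters `c`, shifts of the cuts, sizes of the observables, choice of the boundary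
term -/
abbrev Pm (ι : Type) := (ι → ℂ) × (ι → ℂ) × (ι → ℂ) × ℂ

/-- the base parameters -/
def bs (c : ι → ℂ) (v : ℝ) : Pm ι := (c, 0, 0, v)

/-- the domain of the opening parameters -/
def Dsc (J : ℕ) (W : ι → ℝ) (c : ι → ℂ) : Prop := ∀ l, c l ∈ dsc (7 / 5 * nu J) (W l)

/-- the part of the domain far from the tips -/
def Mid (W : ι → ℝ) (c : ι → ℂ) : Prop := ∀ l, ‖c l‖ * W l ^ 2 ≤ 1

variable (α ι) in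
/-- the objects: `X W` unknowns, `Y W` data, `C` core parts. The arguments of `FF` are the order
`J` of the boundary term, the heights `m` of the observables, the cuts `W`. -/
structure Obj (X Y : (ι → ℝ) → Type) (C : Type) [∀ W, NormedAddCommGroup (X W)]
    [∀ W, NormedSpace ℂ (X W)] [∀ W, NormedAddCommGroup (Y W)] [∀ W, NormedSpace ℂ (Y W)]
    [NormedAddCommGroup C] [NormedSpace ℂ C] where
  r : ℝ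
  K : ℝ
  η : ℝ
  K₂ : ℕ → ℝ
  P : ℕ
  J₀ : ℕ
  Zs : ℕ → ℝ
  FS : ℝ
  N : ∀ W, (ι → ℂ) → Seminorm ℂ (X W)
  Np : ∀ W, (ι → ℂ) → Seminorm ℂ (X W)
  FF : ℕ → (ι → ℝ) → ∀ W, X W × Pm ι → Y W
  ia : ∀ W, (α → ℂ) →L[ℂ] Y W
  S : ∀ W, (ι → ℂ) → Y W →L[ℂ] X W
  f : ℕ → (ι → ℝ) → ∀ W, X W × Pm ι → ℂ
  D : ι → ℕ → (ι → ℝ) → ∀ W, X W × Pm ι → ℂ
  O : ι → ℕ → (ι → ℝ) → ∀ W, X W × Pm ι → ℂ
  Tv : ℕ → (ι → ℝ) → ∀ W, X W × Pm ι → ℂ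
  A : ∀ W, X W →L[ℂ] α → ℂ
  Xi : ∀ W, X W →L[ℂ] ι → ℂ
  lam : ∀ W, X W →L[ℂ] α → ℂ
  mu : ∀ W, X W →L[ℂ] ι → ℂ
  co : ∀ W, X W →L[ℂ] C
  U0 : ∀ W, (ι → ℂ) →L[ℂ] X W
  US : ∀ W, X W
  cj : ∀ W, X W → X W
  rp : ∀ W W', X W → X W'

namespace Obj

variable {X Y : (ι → ℝ) → Type} {C : Type} [∀ W, NormedAddCommGroup (X W)]
  [∀ W, NormedSpace ℂ (X W)] [∀ W, NormedAddCommGroup (Y W)] [∀ W, NormedSpace ℂ (Y W)]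
  [NormedAddCommGroup C] [NormedSpace ℂ C] (o : Obj α ι X Y C)

/-- admissible base points; `Z` is the scale of the cuts -/
structure Ad (J : ℕ) (Z : ℝ) (m W : ι → ℝ) (c : ι → ℂ) (v : ℝ) : Prop where
  hJ : o.J₀ ≤ J
  hZ : o.Zs J ≤ Z
  hW : ∀ l, W l ∈ Icc Z (10 * Z)
  hm : ∀ l, m l ∈ Icc (W l / 25) (3 * W l / 5)
  hc : Dsc J W c
  hv : v ∈ Icc (0 : ℝ) 1

/-- the box around a base point -/
def Box (Z : ℝ) (W : ι → ℝ) (c : ι → ℂ) (v : ℝ) : Set (X W × Pm ι) :=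
  {y | o.N W c y.1 < o.r ∧ ‖y.2 - bs c v‖ < (Z ^ o.P)⁻¹}

/-- solutions for the base parameters -/
def Sol (J : ℕ) (W : ι → ℝ) (c : ι → ℂ) (v : ℝ) (a : α → ℂ) (U : X W) : Prop :=
  o.N W c U < o.r ∧ o.FF J 0 W (U, bs c v) = o.ia W a

/-- what holds at an admissible base point -/
structure At (J : ℕ) (Z : ℝ) (m W : ι → ℝ) (c : ι → ℂ) (v : ℝ) : Prop where
  eqv : ∀ U, ‖U‖ ≤ Z ^ o.P * o.N W c U ∧ o.N W c U ≤ Z ^ o.P * ‖U‖ ∧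
    o.N W c U ≤ Z ^ o.P * o.Np W c U ∧ o.Np W c U ≤ Z ^ o.P * ‖U‖
  inj : Function.Injective (o.S W c)
  hol : ∀ y ∈ o.Box Z W c v, DifferentiableAt ℂ (o.FF J m W) y ∧ DifferentiableAt ℂ (o.f J m W) y ∧
    DifferentiableAt ℂ (o.Tv J m W) y ∧
    ∀ j, DifferentiableAt ℂ (o.D j J m W) y ∧ DifferentiableAt ℂ (o.O j J m W) y
  bd : ∀ y ∈ o.Box Z W c v, ‖o.S W c (o.FF J m W y)‖ ≤ Z ^ o.P ∧ ‖o.f J m W y‖ ≤ o.K₂ J ∧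
    ‖o.Tv J m W y‖ ≤ Z ^ o.P * Real.exp (-Z ^ 2 / 4) ∧
    ∀ j, ‖o.D j J m W y‖ ≤ Z ^ o.P * Real.exp (-Z ^ 2 / 4)
  nl : ∀ U, o.N W c U < o.r → ∀ U',
    o.N W c (U' - o.S W c (fderiv ℂ (o.FF J m W) (U, bs c v) (U', 0))) ≤ o.N W c U' / 2 ∧
    o.Np W c (U' - o.S W c (fderiv ℂ (o.FF J m W) (U, bs c v) (U', 0))) ≤ o.Np W c U' / 2
  res : o.N W c (o.S W c (o.FF J m W (0, bs c v))) ≤ o.r / 16
  ia : ∀ a, o.N W c (o.S W c (o.ia W a)) ≤ o.K * ‖a‖ ∧ o.Np W c (o.S W c (o.ia W a)) ≤ o.K * ‖a‖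
  der : ∀ U, o.N W c U < o.r → ∀ c', o.Np W c (o.S W c
    (fderiv ℂ (o.FF J m W) (U, bs c v) (o.U0 W c', c', 0))) ≤ o.η * ‖c'‖
  u0 : ∀ c', o.Np W c (o.U0 W c') ≤ o.K * ‖c'‖ ∧ o.Xi W (o.U0 W c') = c'
  fn : ∀ U, ‖o.Xi W U‖ ≤ o.K * o.Np W c U ∧ ‖o.lam W U‖ ≤ o.K * o.Np W c U ∧
    ‖o.mu W U‖ ≤ o.K * o.Np W c U
  con : ∀ y ∈ o.Box Z W c v, ∀ a, o.FF J m W y = o.ia W a → o.A W y.1 = a
  fv : ∀ y ∈ o.Box Z W c v, ∀ a, o.FF J m W y = o.ia W a → ∀ y' : X W × Pm ι,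
    fderiv ℂ (o.f J m W) y y' = ∑ i, o.lam W y.1 i * o.A W y'.1 i
      + ∑ j, o.mu W y.1 j * o.Xi W y'.1 j + ∑ j, o.D j J m W y * y'.2.2.1 j
      + ∑ j, o.O j J m W y * y'.2.2.2.1 j + o.Tv J m W y * y'.2.2.2.2
  cj : ∀ a U, o.Sol J W c v a U → o.Sol J W (star c) v (star a) (o.cj W U) ∧
    o.Xi W (o.cj W U) = star (o.Xi W U) ∧ o.lam W (o.cj W U) = star (o.lam W U) ∧
    o.mu W (o.cj W U) = star (o.mu W U) ∧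
    o.f J m W (o.cj W U, bs (star c) v) = star (o.f J m W (U, bs c v))
  nc : ∀ᶠ c' in 𝓝 c, ∀ U, o.N W c' U ≤ 2 * o.N W c U
  rp : ∀ᶠ t : (ι → ℝ) × (ι → ℂ) × ℝ in 𝓝 (W, c, v), ∀ a U, o.N W c U < o.r / 2 →
    o.FF J m W (U, t.2.1, fun l => (t.1 l - W l : ℝ), 0, t.2.2) = o.ia W a →
    o.Sol J t.1 t.2.1 t.2.2 a (o.rp W t.1 U) ∧ o.Xi t.1 (o.rp W t.1 U) = o.Xi W U ∧
    o.co t.1 (o.rp W t.1 U) = o.co W U ∧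
    o.f J m t.1 (o.rp W t.1 U, bs t.2.1 t.2.2)
      = o.f J m W (U, t.2.1, fun l => (t.1 l - W l : ℝ), 0, t.2.2) ∧
    ∀ j, o.O j J m t.1 (o.rp W t.1 U, bs t.2.1 t.2.2)
      = o.O j J m W (U, t.2.1, fun l => (t.1 l - W l : ℝ), 0, t.2.2)
  prof : ∀ a U, o.Sol J W c v a U → ∀ j, ∃ V V1 V2,
    Prof (o.K₂ J) (W j) (c j) (fun s => o.O j J (fun _ => s) W (U, bs c v)) V V1 V2
  df : v = 1 → ∀ a U, o.Sol J W c v a U → ∀ j,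
    DF J (o.K₂ J) (W j) (c j) (o.D j J m W (U, bs c v))
  us : o.N W c (o.US W) < o.r ∧ o.Xi W (o.US W) = 0 ∧ o.lam W (o.US W) = 0 ∧ o.mu W (o.US W) = 0
  us0 : c = 0 → o.Np W c (o.S W c (o.FF J m W (o.US W, bs c v))) ≤ o.K₂ J / Z ^ 2
  mid : Mid W c → ∀ U, o.Np W 0 U ≤ o.K₂ J * o.Np W c U ∧ (o.N W c U < o.r →
    ‖o.f J m W (U, bs c v) - o.FS‖ ≤ o.K₂ J * (o.Np W 0 (U - o.US W) + ‖c‖ + 1 / Z))

/-- **the interface** -/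
structure PDE : Prop where
  rpos : 0 < o.r
  Kge : 1 ≤ o.K
  Kge₂ : ∀ J, 1 ≤ o.K₂ J
  eta : 0 ≤ o.η ∧ 100 * o.K * o.η ≤ 1
  big : 10 ^ 13 ≤ o.J₀
  zs : ∀ J, o.J₀ ≤ J → o.Zs o.J₀ ≤ o.Zs J ∧ (J : ℝ) ≤ o.Zs J
  indm : ∀ J m W U c v, o.FF J m W (U, bs c v) = o.FF J 0 W (U, bs c v) ∧
    o.f J m W (U, bs c v) = o.f J 0 W (U, bs c v) ∧
    ∀ j, o.D j J m W (U, bs c v) = o.D j J 0 W (U, bs c v) ∧
      o.O j J m W (U, bs c v) = o.O j J (fun _ => m j) W (U, bs c v)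
  indJ : ∀ J W U c, o.FF J 0 W (U, bs c 0) = o.FF o.J₀ 0 W (U, bs c 1) ∧
    o.f J 0 W (U, bs c 0) = o.f o.J₀ 0 W (U, bs c 1)
  pt : ∀ J Z m W c v, o.Ad J Z m W c v → o.At J Z m W c v

end Obj

end Vale.Agent.P218T
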