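import Vale.Agent.P218T.FamA
import Vale.Agent.P218T.Pde

/-! The solutions: existence, uniqueness, holomorphic branches, bounds for the derivatives. -/

set_option linter.all false

open Set Filter Topology Metric

noncomputable section

namespace Vale.Agent.P218T.Fam

open Vale.Agent.P218Q (dsc nu vb)

variable {α ι : Type} [Fintype α] [Fintype ι]
  {X Y : (ι → ℝ) → Type} {C : Type} [∀ W, NormedAddCommGroup (X W)]
  [∀ W, NormedSpace ℂ (X W)] [∀ W, NormedAddCommGroup (Y W)] [∀ W, NormedSpace ℂ (Y W)]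
  [NormedAddCommGroup C] [NormedSpace ℂ C] {o : Obj α ι X Y C}
  {J : ℕ} {Z : ℝ} {m W : ι → ℝ} {c : ι → ℂ} {v : ℝ}

theorem big (hP : o.PDE) (hA : o.Ad J Z m W c v) : (10 : ℝ) ^ 13 ≤ J ∧ (J : ℝ) ≤ Z :=
  ⟨by exact_mod_cast hP.big.trans hA.hJ, (hP.zs J hA.hJ).2.trans hA.hZ⟩

theorem one_le (hP : o.PDE) (hA : o.Ad J Z m W c v) : 1 ≤ Z := by
  have := big hP hA
  linarith [this.1, this.2, show (1 : ℝ) ≤ 10 ^ 13 by norm_num]

theorem zp (hP : o.PDE) (hA : o.Ad J Z m W c v) : 1 ≤ Z ^ o.P := one_le_pow₀ (one_le hP hA)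

theorem eN (hP : o.PDE) (hA : o.Ad J Z m W c v) : Eqv (o.N W c) :=
  ⟨Z ^ o.P, fun U => ⟨((hP.pt _ _ _ _ _ _ hA).eqv U).1, ((hP.pt _ _ _ _ _ _ hA).eqv U).2.1⟩⟩

theorem eNp (hP : o.PDE) (hA : o.Ad J Z m W c v) : Eqv (o.Np W c) := by
  refine ⟨Z ^ o.P * Z ^ o.P, fun U => ?_⟩
  obtain ⟨h1, -, h3, h4⟩ := (hP.pt _ _ _ _ _ _ hA).eqv U
  have hz := zp hP hA
  refine ⟨h1.trans ?_, h4.trans ?_⟩
  · rw [mul_assoc]
    gcongr
  · rw [mul_assoc]
    exact le_mul_of_one_le_left (by positivity) hz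

theorem box_open (hP : o.PDE) (hA : o.Ad J Z m W c v) : IsOpen (o.Box Z W c v) :=
  (isOpen_lt ((eN hP hA).cont.comp continuous_fst) continuous_const).inter
    (isOpen_lt (continuous_snd.sub continuous_const).norm continuous_const)

theorem box_base (hP : o.PDE) (hA : o.Ad J Z m W c v) {U : X W} (hU : o.N W c U < o.r) :
    (U, bs c v) ∈ o.Box Z W c v :=
  ⟨hU, by have := zp hP hA; simp; positivity⟩

theorem box_ev (hP : o.PDE) (hA : o.Ad J Z m W c v) {U : X W} (hU : o.N W c U < o.r) :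
    ∀ᶠ y in 𝓝 (U, bs c v), y ∈ o.Box Z W c v :=
  (box_open hP hA).mem_nhds (box_base hP hA hU)

/-- the fixed point map is a contraction -/
theorem lip (hP : o.PDE) (hA : o.Ad J Z m W c v) {U U' : X W} (hU : o.N W c U < o.r)
    (hU' : o.N W c U' < o.r) :
    o.N W c (U - o.S W c (o.FF J 0 W (U, bs c v)) - (U' - o.S W c (o.FF J 0 W (U', bs c v))))
      ≤ o.N W c (U - U') / 2 ∧
    o.Np W c (U - o.S W c (o.FF J 0 W (U, bs c v)) - (U' - o.S W c (o.FF J 0 W (U', bs c v))))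
      ≤ o.Np W c (U - U') / 2 := by
  have h := hP.pt _ _ _ _ _ _ hA
  have hs : ∀ t ∈ Icc (0 : ℝ) 1, o.N W c (U' + (t : ℂ) • (U - U')) < o.r := fun t ht => by
    have e : U' + (t : ℂ) • (U - U') = ((1 - t : ℝ) : ℂ) • U' + (t : ℂ) • U := by
      push_cast
      module
    have h1 := map_add_le_add (o.N W c) (((1 - t : ℝ) : ℂ) • U') ((t : ℂ) • U)
    rw [map_smul_eq_mul, map_smul_eq_mul, Complex.norm_real, Complex.norm_real,
      Real.norm_of_nonneg ht.1, Real.norm_of_nonneg (sub_nonneg.2 ht.2)] at h1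
    rw [e]
    have h2 := Convex.add_smul_sub_mem (convex_Iio o.r) hU' hU ht
    simp only [mem_Iio, smul_eq_mul] at h2
    linarith
  have hd : ∀ t ∈ Icc (0 : ℝ) 1, HasDerivAt (fun s : ℂ => U' + s • (U - U')
      - o.S W c (o.FF J m W (U' + s • (U - U'), bs c v)))
      (U - U' - o.S W c (fderiv ℂ (o.FF J m W) (U' + (t : ℂ) • (U - U'), bs c v) (U - U', 0)))
      t := fun t ht => by
    have h1 : HasDerivAt (fun s : ℂ => U' + s • (U - U')) (U - U') t := by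
      simpa using ((hasDerivAt_id (t : ℂ)).smul_const (U - U')).const_add U'
    have h2 := (h.hol _ (box_base hP hA (hs t ht))).1.hasFDerivAt.comp_hasDerivAt (t : ℂ)
      (h1.prodMk (hasDerivAt_const (t : ℂ) (bs c v)))
    exact h1.sub ((o.S W c).hasFDerivAt.comp_hasDerivAt (t : ℂ) h2)
  have h1 := mvs (eN hP hA) (γ' := fun t => U - U' - o.S W c (fderiv ℂ (o.FF J m W)
    (U' + t • (U - U'), bs c v) (U - U', 0))) hd fun t ht => (h.nl _ (hs t ht) _).1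
  have h2 := mvs (eNp hP hA) (γ' := fun t => U - U' - o.S W c (fderiv ℂ (o.FF J m W)
    (U' + t • (U - U'), bs c v) (U - U', 0))) hd fun t ht => (h.nl _ (hs t ht) _).2
  simp only [one_smul, zero_smul, add_zero, add_sub_cancel, (hP.indm _ _ _ _ _ _).1] at h1 h2
  exact ⟨h1, h2⟩

theorem uniq (hP : o.PDE) (hA : o.Ad J Z m W c v) {a : α → ℂ} {U U' : X W}
    (hU : o.Sol J W c v a U) (hU' : o.Sol J W c v a U') : U = U' := by
  have := (lip hP hA hU.1 hU'.1).1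
  rw [hU.2, hU'.2, sub_sub_sub_cancel_right] at this
  exact sub_eq_zero.1 (zero_of (eN hP hA) this)

variable (o) in
/-- the radius for the values of the constraints -/
def ra : ℝ := o.r / (16 * o.K)

theorem ra_pos (hP : o.PDE) : 0 < ra o := by
  have := hP.rpos
  have := hP.Kge
  unfold ra
  positivity

variable (o) in
/-- the solution -/
def sol (J : ℕ) (W : ι → ℝ) (c : ι → ℂ) (v : ℝ) (a : α → ℂ) : X W :=
  @Classical.epsilon _ ⟨0⟩ (o.Sol J W c v a)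

theorem sol_eq (hP : o.PDE) (hA : o.Ad J Z m W c v) {a : α → ℂ} {U : X W}
    (hU : o.Sol J W c v a U) : sol o J W c v a = U :=
  uniq hP hA (Classical.epsilon_spec (p := o.Sol J W c v a) ⟨U, hU⟩) hU

variable [∀ W, CompleteSpace (X W)]

theorem exist (hP : o.PDE) (hA : o.Ad J Z m W c v) {a : α → ℂ} (ha : ‖a‖ ≤ ra o) :
    ∃ U, o.Sol J W c v a U ∧ o.N W c U ≤ o.r / 4 := by
  have h := hP.pt _ _ _ _ _ _ hA
  have r0 := hP.rpos
  have K1 := hP.Kge
  obtain ⟨U, hU, hf⟩ := fix (eN hP hA) (ρ := o.r / 4)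
    (G := fun U => U - o.S W c (o.FF J 0 W (U, bs c v)) + o.S W c (o.ia W a)) (by positivity)
    (fun x y hx hy => by
      simpa using (lip hP hA (U := x) (U' := y) (by linarith) (by linarith)).1)
    (by
      have h1 := h.res
      have h2 := (h.ia a).1
      have h3 : o.K * ‖a‖ ≤ o.r / 16 := by
        refine (mul_le_mul_of_nonneg_left ha (by linarith)).trans (le_of_eq ?_)
        unfold ra
        field_simp
      rw [(hP.indm _ _ _ _ _ _).1] at h1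
      have h4 := map_add_le_add (o.N W c) (0 - o.S W c (o.FF J 0 W (0, bs c v))) (o.S W c (o.ia W a))
      rw [zero_sub, map_neg_eq_map] at h4
      simp only [zero_sub]
      linarith)
  refine ⟨U, ⟨by linarith, h.inj ?_⟩, hU⟩
  have : U - o.S W c (o.FF J 0 W (U, bs c v)) + o.S W c (o.ia W a) = U := hf
  rw [← sub_eq_zero] at this ⊢
  rw [← neg_eq_zero, ← this]
  abel

theorem sol_spec (hP : o.PDE) (hA : o.Ad J Z m W c v) {a : α → ℂ} (ha : ‖a‖ ≤ ra o) :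
    o.Sol J W c v a (sol o J W c v a) ∧ o.N W c (sol o J W c v a) ≤ o.r / 4 := by
  obtain ⟨U, h1, h2⟩ := exist hP hA ha
  rw [sol_eq hP hA h1]
  exact ⟨h1, h2⟩

/-- the linearisation in the unknown -/
def LL (o : Obj α ι X Y C) (J : ℕ) (m W : ι → ℝ) (c : ι → ℂ) (v : ℝ) (U : X W) : X W →L[ℂ] X W :=
  o.S W c ∘L fderiv ℂ (o.FF J m W) (U, bs c v) ∘L ContinuousLinearMap.inl ℂ _ _

/-- the holomorphic branch through a solution -/
theorem branch (hP : o.PDE) (hA : o.Ad J Z m W c v) {a : α → ℂ} {U : X W}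
    (hU : o.Sol J W c v a U) : ∃ B : Pm ι × (α → ℂ) → X W, ContDiffAt ℂ 1 B (bs c v, a) ∧
      B (bs c v, a) = U ∧ ∀ᶠ x in 𝓝 (bs c v, a), o.FF J m W (B x, x.1) = o.ia W x.2 := by
  have h := hP.pt _ _ _ _ _ _ hA
  let g : (Pm ι × (α → ℂ)) × X W →L[ℂ] X W × Pm ι := (ContinuousLinearMap.snd ℂ _ _).prod
    (ContinuousLinearMap.fst ℂ _ _ ∘L ContinuousLinearMap.fst ℂ _ _)
  let k : (Pm ι × (α → ℂ)) × X W →L[ℂ] X W :=
    o.S W c ∘L o.ia W ∘L ContinuousLinearMap.snd ℂ _ _ ∘L ContinuousLinearMap.fst ℂ _ _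
  have h1 : ContDiffAt ℂ 1 (fun y => o.S W c (o.FF J m W y)) (g ((bs c v, a), U)) :=
    hb ((box_ev hP hA hU.1).mono fun y hy => (o.S W c).differentiableAt.comp y (h.hol y hy).1)
  have h2 : ContDiffAt ℂ 1 (fun y => o.S W c (o.FF J m W (g y)) - k y) ((bs c v, a), U) :=
    (h1.comp _ g.contDiff.contDiffAt).sub k.contDiff.contDiffAt
  have h3 : HasFDerivAt (fun y => o.S W c (o.FF J m W (g y)) - k y)
      (o.S W c ∘L fderiv ℂ (o.FF J m W) (U, bs c v) ∘L g - k) ((bs c v, a), U) :=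
    ((o.S W c).hasFDerivAt.comp _ (HasFDerivAt.comp (f := g) _
      (h.hol _ (box_base hP hA hU.1)).1.hasFDerivAt g.hasFDerivAt)).sub k.hasFDerivAt
  obtain ⟨B, b1, b2, b3⟩ := ift h2 (by
    rw [h3.fderiv]
    have := bij (eN hP hA) (L := LL o J m W c v U) fun U' => (h.nl U hU.1 U').1
    refine (congrArg _ (funext fun y => ?_)).mp this
    simp [LL, g, k])
  refine ⟨B, b1, b2, b3.mono fun x hx => h.inj ?_⟩
  have e : o.FF J m W (U, bs c v) = o.ia W a := (hP.indm _ _ _ _ _ _).1.trans hU.2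
  simpa [g, k, e, sub_eq_zero] using hx

/-- differentiating the equation -/
theorem lin {E : Type} [NormedAddCommGroup E] [NormedSpace ℂ E] {γ : E → X W × Pm ι}
    {β : E → α → ℂ} {γ' : E →L[ℂ] X W × Pm ι} {β' : E →L[ℂ] α → ℂ} {x : E}
    (hF : DifferentiableAt ℂ (o.FF J m W) (γ x)) (h1 : HasFDerivAt γ γ' x) (h2 : HasFDerivAt β β' x)
    (h3 : ∀ᶠ x in 𝓝 x, o.FF J m W (γ x) = o.ia W (β x)) (e : E) :
    fderiv ℂ (o.FF J m W) (γ x) (γ' e) = o.ia W (β' e) := by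
  have a1 := hF.hasFDerivAt.comp x h1
  have a2 := ((o.ia W).hasFDerivAt.comp x h2).congr_of_eventuallyEq h3
  exact congrArg (fun L => L e) (a1.unique a2)

/-- the basic estimate for tangent vectors -/
theorem est (hP : o.PDE) (hA : o.Ad J Z m W c v) {U U' : X W} (hU : o.N W c U < o.r)
    {c' : ι → ℂ} {q : (ι → ℂ) × (ι → ℂ) × ℂ} {a' : α → ℂ}
    (he : fderiv ℂ (o.FF J m W) (U, bs c v) (U', c', q) = o.ia W a') :
    o.Np W c (U' - o.U0 W c') ≤ 2 * (o.η * ‖c'‖ + o.K * ‖a'‖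
      + o.Np W c (o.S W c (fderiv ℂ (o.FF J m W) (U, bs c v) (0, 0, q)))) := by
  have h := hP.pt _ _ _ _ _ _ hA
  have h1 := le_two (L := LL o J m W c v U) (fun U' => (h.nl U hU U').2) (U' - o.U0 W c')
  have e : LL o J m W c v U (U' - o.U0 W c') = o.S W c (o.ia W a')
      - o.S W c (fderiv ℂ (o.FF J m W) (U, bs c v) (o.U0 W c', c', 0))
      - o.S W c (fderiv ℂ (o.FF J m W) (U, bs c v) (0, 0, q)) := by
    rw [← he, ← map_sub, ← map_sub, ← map_sub, ← map_sub]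
    simp [LL]
  rw [e] at h1
  have h2 := map_sub_le_add (o.Np W c) (o.S W c (o.ia W a')
      - o.S W c (fderiv ℂ (o.FF J m W) (U, bs c v) (o.U0 W c', c', 0)))
      (o.S W c (fderiv ℂ (o.FF J m W) (U, bs c v) (0, 0, q)))
  have h3 := map_sub_le_add (o.Np W c) (o.S W c (o.ia W a'))
      (o.S W c (fderiv ℂ (o.FF J m W) (U, bs c v) (o.U0 W c', c', 0)))
  linarith [(h.ia a').2, h.der U hU c']

/-- Cauchy bound inside the box -/
theorem cau_box {F : Type} [NormedAddCommGroup F] [NormedSpace ℂ F] (hP : o.PDE)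
    (hA : o.Ad J Z m W c v) {U : X W} (hU : o.N W c U ≤ o.r / 4) {g : X W × Pm ι → F} {M ρ : ℝ}
    (hg : ∀ y ∈ o.Box Z W c v, DifferentiableAt ℂ g y ∧ ‖g y‖ ≤ M) {y' : X W × Pm ι} (hρ : 0 < ρ)
    (h1 : ρ * o.N W c y'.1 ≤ o.r / 2) (h2 : ρ * ‖y'.2‖ < (Z ^ o.P)⁻¹) :
    ‖fderiv ℂ g (U, bs c v) y'‖ ≤ M / ρ := by
  refine cau hρ fun t ht => hg _ ⟨?_, ?_⟩
  · have a1 := map_add_le_add (o.N W c) U (t • y'.1)
    rw [map_smul_eq_mul] at a1
    have a2 : ‖t‖ * o.N W c y'.1 ≤ ρ * o.N W c y'.1 := by gcongr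
    have := hP.rpos
    show o.N W c (U + t • y'.1) < o.r
    linarith
  · show ‖bs c v + t • y'.2 - bs c v‖ < _
    rw [add_sub_cancel_left, norm_smul]
    exact (mul_le_mul_of_nonneg_right ht (norm_nonneg _)).trans_lt h2

theorem est_q (hP : o.PDE) (hA : o.Ad J Z m W c v) {U : X W} (hU : o.N W c U ≤ o.r / 4)
    {q : (ι → ℂ) × (ι → ℂ) × ℂ} (hq : ‖q‖ ≤ 1) :
    o.Np W c (o.S W c (fderiv ℂ (o.FF J m W) (U, bs c v) (0, 0, q))) ≤ 2 * (Z ^ o.P) ^ 3 := by
  have h := hP.pt _ _ _ _ _ _ hA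
  have hz := zp hP hA
  have r0 := hP.rpos
  have h1 := cau_box hP hA hU (g := fun y => o.S W c (o.FF J m W y)) (M := Z ^ o.P)
    (ρ := (Z ^ o.P)⁻¹ / 2) (y' := (0, 0, q))
    (fun y hy => ⟨(o.S W c).differentiableAt.comp y (h.hol y hy).1, (h.bd y hy).1⟩)
    (by positivity) (by simp; positivity) (by
      have : ‖((0 : ι → ℂ), q)‖ ≤ 1 := by simpa using hq
      have h0 : 0 < (Z ^ o.P)⁻¹ := by positivity
      have := mul_le_mul_of_nonneg_left this (show 0 ≤ (Z ^ o.P)⁻¹ / 2 by positivity)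
      show _ * ‖((0 : ι → ℂ), q)‖ < _
      linarith)
  have h2 := ((o.S W c).hasFDerivAt.comp _
    (h.hol _ (box_base hP hA (U := U) (by linarith))).1.hasFDerivAt).fderiv
  rw [show (fun y => o.S W c (o.FF J m W y)) = o.S W c ∘ o.FF J m W from rfl, h2] at h1
  refine (h.eqv _).2.2.2.trans ((mul_le_mul_of_nonneg_left h1 (by positivity)).trans (le_of_eq ?_))
  field_simp

end Vale.Agent.P218T.Fam
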