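import Vale.Agent.P218T.Pde
import Vale.Agent.P218T.Model
import Vale.Agent.P218D.Defs

/-! The geometric meaning of the real solutions: the input for `P218D.LF`. -/

open Set Filter Topology MeasureTheory

noncomputable section

namespace Vale.Agent.P218T.Obj

open Vale.Agent.P218 Vale.Agent.P218.H313 Vale.Agent.P218D
open Vale.Agent.P218.H63 (IsTubeShrinker stab)

variable {α ι : Type} [Fintype α] [Fintype ι]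
  {X Y : (ι → ℝ) → Type} {C : Type} [∀ W, NormedAddCommGroup (X W)]
  [∀ W, NormedSpace ℂ (X W)] [∀ W, NormedAddCommGroup (Y W)] [∀ W, NormedSpace ℂ (Y W)]
  [NormedAddCommGroup C] [NormedSpace ℂ C] (o : Obj α ι X Y C)

/-- real solutions, all cuts at the height `Z`, far from the tips -/
structure RS (e₀ : ℝ) (Z : ℝ) (c : ι → ℂ) (a : α → ℂ) (U : X fun _ => Z) : Prop where
  ad : o.Ad o.J₀ Z (fun _ => Z / 4) (fun _ => Z) c 1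
  mid : ∀ l, ‖c l‖ * Z ^ 2 ≤ e₀
  sol : o.Sol o.J₀ (fun _ => Z) c 1 a U
  rc : star c = c
  ra : star a = a
  rU : o.cj _ U = U

/-- the distance from the shrinker -/
def hs (W : ι → ℝ) (c : ι → ℂ) (U : X W) : ℝ := o.Np W 0 (U - o.US W) + ‖c‖

/-- the multipliers -/
def lm (W : ι → ℝ) (U : X W) : α ⊕ ι → ℂ := Sum.elim (o.lam W U) (o.mu W U)

/-- the values of the constraints -/
def xx (W : ι → ℝ) (U : X W) : α ⊕ ι → ℂ := Sum.elim (o.A W U) (o.Xi W U)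

/-- defining functions `w` of the surfaces given by the real solutions; `c₀` normalises the area,
`c₁` the multipliers -/
structure LFD (S : Set E3) (w₀ : E3 → ℝ) (δ₀ C₀ : ℝ) (ψ : α ⊕ ι → E3 → ℝ)
    (w : ∀ Z : ℝ, (X fun _ => Z) → (ι → ℂ) → E3 → ℝ) (wc : C → E3 → ℝ)
    (c₀ c₁ δ a₀ K h₀ e₀ : ℝ) : Prop where
  shr : IsTubeShrinker S w₀ δ₀ C₀
  psi : ∀ i, ContDiff ℝ 1 (ψ i) ∧ HasCompactSupport (ψ i)
  pos : 0 < c₀ ∧ c₁ ≠ 0 ∧ 0 < h₀ ∧ 0 ≤ K ∧ 0 < e₀ ∧ e₀ ≤ 1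
  dfn0 : Dfn w₀ δ a₀ K
  area0 : FA (hm 2 w₀) = c₀ * o.FS
  dfn : ∀ Z c a U, o.RS e₀ Z c a U → Dfn (w Z U c) δ a₀ K
  area : ∀ Z c a U, o.RS e₀ Z c a U →
    ∫⁻ p, ENNReal.ofReal (rho p) ∂(hm 2 (w Z U c))
      ≤ ENNReal.ofReal (c₀ * (o.f o.J₀ 0 _ (U, bs c 1)).re + K * Real.exp (-Z ^ 2 / 8))
  small : ∀ ω > 0, ∃ η > 0, ∀ Z c a U, o.RS e₀ Z c a U → o.hs _ c U + 1 / Z ≤ η →
    Cl2 ω (w Z U c) w₀ ∧ ∀ p, w Z U c p = 0 → ‖p‖ ≤ Z - 3 →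
      |phiS (w Z U c) p - ∑ i, c₁ * (o.lm _ U i).re * ψ i p| ≤ ω * ‖o.lm _ U‖
  gauge : ∀ Z c a U, o.RS e₀ Z c a U → o.hs _ c U ≤ h₀ → ∀ i,
    |∫ p, w Z U c p * ψ i p * rho p ∂(hm 2 w₀) + c₀ * (o.xx _ U i).re| ≤ K * o.hs _ c U ^ 2
  core : ∀ Z c a U, o.RS e₀ Z c a U → o.hs _ c U ≤ h₀ → ∀ i p, ψ i p ≠ 0 →
    w Z U c p = wc (o.co _ U) p ∧ ∀ ε > 0, ∃ η > 0, ∀ Z' c' a' U', o.RS e₀ Z' c' a' U' →
      o.hs _ c' U' ≤ h₀ → ‖o.co _ U' - o.co _ U‖ ≤ η → |wc (o.co _ U') p - wc (o.co _ U) p| ≤ ε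
  nd : ∀ (u : E3 → ℝ) (l : α ⊕ ι → ℝ), AEStronglyMeasurable u (hm 2 w₀) →
    Integrable (fun p => u p ^ 2 * rho p) (hm 2 w₀) →
    (∀ ζ : E3 → ℝ, ContDiff ℝ 2 ζ → HasCompactSupport ζ →
      ∫ p, u p * stab w₀ ζ p * rho p ∂(hm 2 w₀)
        = ∫ p, (∑ i, l i * ψ i p) * ζ p * rho p ∂(hm 2 w₀)) →
    (∀ i, ∫ p, u p * ψ i p * rho p ∂(hm 2 w₀) = 0) → u =ᵐ[hm 2 w₀] 0 ∧ l = 0

end Vale.Agent.P218T.Obj
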