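import Vale.Agent.P218T.FamB
import Vale.Agent.P218T.Lfd

/-! The family of solutions as a function of the parameters `y = (a, c)`. -/

set_option linter.all false

open Set Filter Topology Metric

noncomputable section

namespace Vale.Agent.P218T.Fam

open Vale.Agent.P218Q (dsc nu vb dom)

variable {α ι : Type} [Fintype α] [Fintype ι]
  {X Y : (ι → ℝ) → Type} {C : Type} [∀ W, NormedAddCommGroup (X W)]
  [∀ W, NormedSpace ℂ (X W)] [∀ W, NormedAddCommGroup (Y W)] [∀ W, NormedSpace ℂ (Y W)]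
  [NormedAddCommGroup C] [NormedSpace ℂ C] {o : Obj α ι X Y C}
  {J : ℕ} {Z : ℝ} {m W : ι → ℝ} {c : ι → ℂ} {v : ℝ} {y y' : α ⊕ ι → ℂ}

/-- first block -/
def pa : (α ⊕ ι → ℂ) →L[ℂ] α → ℂ := .pi fun i => .proj (.inl i)

/-- second block -/
def pc : (α ⊕ ι → ℂ) →L[ℂ] ι → ℂ := .pi fun i => .proj (.inr i)

theorem dsc_open (Y Z : ℝ) : IsOpen (dsc Y Z) :=
  isOpen_lt (by unfold vb; fun_prop) continuous_const

theorem dsc_convex (Y Z : ℝ) : Convex ℝ (dsc Y Z) := by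
  intro x hx y hy s t hs ht hst
  have := convex_ball (3 : ℂ) (3 - 4 * Y / Z ^ 2) (mem_ball_iff_norm.2 hx) (mem_ball_iff_norm.2 hy)
    hs ht hst
  have e : vb Z (s • x + t • y) = s • vb Z x + t • vb Z y := by
    have : (s : ℂ) + t = 1 := by exact_mod_cast hst
    simp only [vb, Complex.real_smul]
    linear_combination (-2) * this
  show ‖vb Z _ - 3‖ < _
  rw [e]
  exact mem_ball_iff_norm.1 this

theorem dsc_star {Y Z : ℝ} {c : ℂ} (h : c ∈ dsc Y Z) : star c ∈ dsc Y Z := by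
  have e : vb Z (star c) - 3 = star (vb Z c - 3) := by simp [vb]
  show ‖vb Z _ - 3‖ < _
  rw [e, norm_star]
  exact h

theorem dom_open (r Y : ℝ) (W : ι → ℝ) : IsOpen (dom r Y W : Set (α ⊕ ι → ℂ)) := by
  have e : (dom r Y W : Set (α ⊕ ι → ℂ)) = (⋂ i, {y | ‖y (.inl i)‖ < r}) ∩
      ⋂ l, (fun y => y (.inr l)) ⁻¹' dsc Y (W l) := by
    ext y
    simp [dom]
  rw [e]
  exact (isOpen_iInter_of_finite fun i => isOpen_lt (by fun_prop) continuous_const).inter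
    (isOpen_iInter_of_finite fun l => (dsc_open _ _).preimage (continuous_apply _))

theorem dom_seg {r Y : ℝ} (hy : y ∈ dom r Y W) (hy' : y' ∈ dom r Y W) {t : ℝ}
    (ht : t ∈ Icc (0 : ℝ) 1) : y' + (t : ℂ) • (y - y') ∈ dom r Y W := by
  refine ⟨fun i => ?_, fun l => ?_⟩
  · have := Convex.add_smul_sub_mem (convex_ball (0 : ℂ) r) (mem_ball_zero_iff.2 (hy'.1 i))
      (mem_ball_zero_iff.2 (hy.1 i)) ht
    exact mem_ball_zero_iff.1 this
  · exact Convex.add_smul_sub_mem (dsc_convex Y (W l)) (hy'.2 l) (hy.2 l) ht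

theorem dom_star {r Y : ℝ} (hy : y ∈ dom r Y W) : star y ∈ dom r Y W :=
  ⟨fun i => by simpa using hy.1 i, fun l => dsc_star (hy.2 l)⟩

variable (o) in
/-- the domain -/
abbrev dm (J : ℕ) (W : ι → ℝ) : Set (α ⊕ ι → ℂ) := dom (ra o) (7 / 5 * nu J) W

theorem dm_a (hP : o.PDE) (hy : y ∈ dm o J W) : ‖y ∘ .inl‖ ≤ ra o :=
  (pi_norm_le_iff_of_nonneg (ra_pos hP).le).2 fun i => (hy.1 i).le

theorem chg (hA : o.Ad J Z m W c v) (hy : y ∈ dm o J W) : o.Ad J Z m W (y ∘ .inr) v :=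
  { hA with hc := hy.2 }

variable (o) in
/-- the solution with parameters `y` -/
def UU (J : ℕ) (W : ι → ℝ) (v : ℝ) (y : α ⊕ ι → ℂ) : X W := sol o J W (y ∘ .inr) v (y ∘ .inl)

variable (o) in
/-- the values of the constraints -/
def XX (J : ℕ) (p : (ι → ℝ) × ℝ) (y : α ⊕ ι → ℂ) : α ⊕ ι → ℂ :=
  Sum.elim (y ∘ .inl) (o.Xi p.1 (UU o J p.1 p.2 y))

variable (o) in
/-- the reduced functional -/
def ff (J : ℕ) (p : (ι → ℝ) × ℝ) (y : α ⊕ ι → ℂ) : ℂ :=
  o.f J 0 p.1 (UU o J p.1 p.2 y, bs (y ∘ .inr) p.2)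

variable (o) in
/-- the envelope -/
def DD (J : ℕ) (p : (ι → ℝ) × ℝ) (y : α ⊕ ι → ℂ) (j : ι) : ℂ :=
  o.D j J 0 p.1 (UU o J p.1 p.2 y, bs (y ∘ .inr) p.2)

variable (o) in
/-- the observables -/
def OO (J : ℕ) (p : (ι → ℝ) × ℝ) (y : α ⊕ ι → ℂ) (j : ι) (s : ℝ) : ℂ :=
  o.O j J (fun _ => s) p.1 (UU o J p.1 p.2 y, bs (y ∘ .inr) p.2)

variable (o) in
/-- the constraints as one linear map -/
def xL (W : ι → ℝ) : X W →L[ℂ] α ⊕ ι → ℂ :=
  .pi (Sum.rec (fun i => .proj i ∘L o.A W) fun j => .proj j ∘L o.Xi W)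

theorem xL_apply (U : X W) : xL o W U = o.xx W U := by
  ext i
  cases i <;> rfl

theorem gam_der {E : Type} [NormedAddCommGroup E] [NormedSpace ℂ E] {u : (α ⊕ ι → ℂ) → E}
    (h : DifferentiableAt ℂ u y) : HasFDerivAt (fun y => (u y, bs (y ∘ .inr) v))
      ((fderiv ℂ u y).prod (pc.prod 0)) y :=
  h.hasFDerivAt.prodMk (pc.hasFDerivAt.prodMk (hasFDerivAt_const _ _))

variable [∀ W, CompleteSpace (X W)]

theorem UU_spec (hP : o.PDE) (hA : o.Ad J Z m W c v) (hy : y ∈ dm o J W) :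
    o.Sol J W (y ∘ .inr) v (y ∘ .inl) (UU o J W v y) ∧
      o.N W (y ∘ .inr) (UU o J W v y) ≤ o.r / 4 :=
  sol_spec hP (chg hA hy) (dm_a hP hy)

theorem UU_eq (hP : o.PDE) (hA : o.Ad J Z m W c v) (hy : y ∈ dm o J W) :
    o.FF J m W (UU o J W v y, bs (y ∘ .inr) v) = o.ia W (y ∘ .inl) :=
  (hP.indm _ _ _ _ _ _).1.trans (UU_spec hP hA hy).1.2

theorem UU_box (hP : o.PDE) (hA : o.Ad J Z m W c v) (hy : y ∈ dm o J W) :
    (UU o J W v y, bs (y ∘ .inr) v) ∈ o.Box Z W (y ∘ .inr) v :=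
  box_base hP (chg hA hy) (UU_spec hP hA hy).1.1

theorem UU_diff (hP : o.PDE) (hA : o.Ad J Z m W c v) (hy : y ∈ dm o J W) :
    DifferentiableAt ℂ (UU o J W v) y := by
  have hA' := chg hA hy
  obtain ⟨h1, h2⟩ := UU_spec hP hA hy
  obtain ⟨B, b1, b2, b3⟩ := branch hP hA' h1
  have hk : DifferentiableAt ℂ (fun y : α ⊕ ι → ℂ => (bs (y ∘ .inr) v, y ∘ .inl)) y :=
    (pc.differentiableAt.prodMk (differentiableAt_const _)).prodMk pa.differentiableAt
  have hB := (b1.differentiableAt one_ne_zero).comp y hk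
  refine hB.congr_of_eventuallyEq ?_
  have r0 := hP.rpos
  have e1 := hk.continuousAt.eventually b3
  have e2 := (pc (α := α)).continuous.continuousAt.eventually (hP.pt _ _ _ _ _ _ hA').nc
  have e3 := ((eN hP hA').cont.continuousAt.comp hB.continuousAt).eventually
    (gt_mem_nhds (a := o.r / 2) (by simp only [Function.comp_apply, b2]; linarith))
  filter_upwards [e1, e2, e3, (dom_open _ _ _).mem_nhds hy] with z z1 z2 z3 z4
  refine sol_eq hP (chg hA z4) ⟨?_, (hP.indm _ _ _ _ _ _).1.symm.trans z1⟩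
  exact (z2 _).trans_lt (by simp only [Function.comp_apply] at z3 ⊢; linarith)

theorem UU_tan (hP : o.PDE) (hA : o.Ad J Z m W c v) (hy : y ∈ dm o J W) (e : α ⊕ ι → ℂ) :
    o.Np W (y ∘ .inr) (fderiv ℂ (UU o J W v) y e - o.U0 W (e ∘ .inr))
      ≤ 2 * (o.η * ‖e ∘ .inr‖ + o.K * ‖e ∘ .inl‖) := by
  have hA' := chg hA hy
  have h1 := lin (γ := fun y => (UU o J W v y, bs (y ∘ .inr) v))
    ((hP.pt _ _ _ _ _ _ hA').hol _ (UU_box hP hA hy)).1
    (gam_der (UU_diff hP hA hy)) pa.hasFDerivAt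
    (Filter.mem_of_superset ((dom_open _ _ _).mem_nhds hy) fun z hz => UU_eq hP hA hz) e
  have h2 := est hP hA' (UU_spec hP hA hy).1.1 (U' := fderiv ℂ (UU o J W v) y e)
    (c' := e ∘ .inr) (q := 0) (a' := e ∘ .inl) h1
  have e0 : ((0 : X W), (0 : ι → ℂ), (0 : (ι → ℂ) × (ι → ℂ) × ℂ)) = 0 := rfl
  rw [e0, map_zero, map_zero, map_zero, add_zero] at h2
  exact h2

theorem XX_eq (hP : o.PDE) (hA : o.Ad J Z m W c v) (hy : y ∈ dm o J W) :
    XX o J (W, v) y = o.xx W (UU o J W v y) := by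
  have := (hP.pt _ _ _ _ _ _ (chg hA hy)).con _ (UU_box hP hA hy) _ (UU_eq hP hA hy)
  simp only [XX, Obj.xx]
  rw [this]

theorem XX_der (hP : o.PDE) (hA : o.Ad J Z m W c v) (hy : y ∈ dm o J W) :
    HasFDerivAt (XX o J (W, v)) (xL o W ∘L fderiv ℂ (UU o J W v) y) y := by
  refine ((xL o W).hasFDerivAt.comp y (UU_diff hP hA hy).hasFDerivAt).congr_of_eventuallyEq ?_
  filter_upwards [(dom_open _ _ _).mem_nhds hy] with z hz
  rw [XX_eq hP hA hz, Function.comp_apply, xL_apply]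

theorem ff_der (hP : o.PDE) (hA : o.Ad J Z m W c v) (hy : y ∈ dm o J W) :
    HasFDerivAt (ff o J (W, v)) (fderiv ℂ (o.f J m W) (UU o J W v y, bs (y ∘ .inr) v) ∘L
      (fderiv ℂ (UU o J W v) y).prod (pc.prod 0)) y := by
  have h := ((hP.pt _ _ _ _ _ _ (chg hA hy)).hol _ (UU_box hP hA hy)).2.1.hasFDerivAt.comp y
    (gam_der (UU_diff hP hA hy))
  exact h.congr_of_eventuallyEq (.of_forall fun z => (hP.indm _ m _ _ _ _).2.1.symm)

theorem ff_form (hP : o.PDE) (hA : o.Ad J Z m W c v) (hy : y ∈ dm o J W) (e : α ⊕ ι → ℂ) :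
    fderiv ℂ (ff o J (W, v)) y e
      = ∑ i, o.lm W (UU o J W v y) i * fderiv ℂ (XX o J (W, v)) y e i := by
  rw [(ff_der hP hA hy).fderiv, (XX_der hP hA hy).fderiv, ContinuousLinearMap.comp_apply,
    (hP.pt _ _ _ _ _ _ (chg hA hy)).fv _ (UU_box hP hA hy) _ (UU_eq hP hA hy),
    ContinuousLinearMap.comp_apply, xL_apply, Fintype.sum_sum_type]
  simp [Obj.lm, Obj.xx]

/-- the solution along a segment with fixed `a` -/
theorem seg (hP : o.PDE) (hA : o.Ad J Z m W c v) (hy : y ∈ dm o J W) (hy' : y' ∈ dm o J W)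
    (ha : ∀ i, y (.inl i) = y' (.inl i)) : ∃ u : ℂ → X W, ∀ t ∈ Icc (0 : ℝ) 1,
      HasDerivAt (fun s : ℂ => UU o J W v (y' + s • (y - y'))) (u t) t ∧
      o.Np W ((y' + (t : ℂ) • (y - y')) ∘ .inr) (u t - o.U0 W ((y - y') ∘ .inr))
        ≤ 2 * o.η * ‖(y - y') ∘ .inr‖ := by
  refine ⟨fun t => fderiv ℂ (UU o J W v) (y' + t • (y - y')) (y - y'), fun t ht =>
    ⟨line_der (UU_diff hP hA (dom_seg hy hy' ht)), ?_⟩⟩
  have h := UU_tan hP hA (dom_seg hy hy' ht) (y - y')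
  have e : (y - y') ∘ .inl = 0 := funext fun i => sub_eq_zero.2 (ha i)
  rw [e, norm_zero, mul_zero, add_zero, ← mul_assoc] at h
  exact h

theorem norm_inr (y : α ⊕ ι → ℂ) : ‖y ∘ .inr‖ ≤ ‖y‖ :=
  (pi_norm_le_iff_of_nonneg (norm_nonneg _)).2 fun i => norm_le_pi_norm y _

theorem norm_inl (y : α ⊕ ι → ℂ) : ‖y ∘ .inl‖ ≤ ‖y‖ :=
  (pi_norm_le_iff_of_nonneg (norm_nonneg _)).2 fun i => norm_le_pi_norm y _

theorem norm_sum_le {y : α ⊕ ι → ℂ} {b : ℝ} (h1 : ‖y ∘ .inl‖ ≤ b) (h2 : ‖y ∘ .inr‖ ≤ b) :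
    ‖y‖ ≤ b :=
  (pi_norm_le_iff_of_nonneg ((norm_nonneg _).trans h1)).2 fun i => by
    cases i with
    | inl i => exact (norm_le_pi_norm (y ∘ .inl) i).trans h1
    | inr i => exact (norm_le_pi_norm (y ∘ .inr) i).trans h2

theorem XX_lip (hP : o.PDE) (hA : o.Ad J Z m W c v) (hy : y ∈ dm o J W) (hy' : y' ∈ dm o J W)
    (ha : ∀ i, y (.inl i) = y' (.inl i)) :
    ‖XX o J (W, v) y - XX o J (W, v) y' - (y - y')‖ ≤ ‖y - y'‖ / 10 := by
  obtain ⟨u, hu⟩ := seg hP hA hy hy' ha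
  have K1 := hP.Kge
  have h := mvs (p := normSeminorm ℂ (ι → ℂ)) ⟨1, fun x => by simp⟩
    (γ := fun s => o.Xi W (UU o J W v (y' + s • (y - y'))) - s • (y - y') ∘ .inr)
    (γ' := fun s => o.Xi W (u s) - (y - y') ∘ .inr) (C := ‖y - y'‖ / 10)
    (fun t ht => ((o.Xi W).hasFDerivAt.comp_hasDerivAt (t : ℂ) (hu t ht).1).sub
      (by simpa using (hasDerivAt_id (t : ℂ)).smul_const ((y - y') ∘ .inr)))
    fun t ht => by
      have h := hP.pt _ _ _ _ _ _ (chg hA (dom_seg hy hy' ht))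
      have h1 := (h.fn (u t - o.U0 W ((y - y') ∘ .inr))).1
      rw [map_sub, (h.u0 _).2] at h1
      have h2 := mul_le_mul_of_nonneg_left (hu t ht).2 (show 0 ≤ o.K by linarith)
      have h3 := mul_le_mul hP.eta.2 (norm_inr (y - y')) (norm_nonneg _) zero_le_one
      have h4 := norm_nonneg (y - y')
      rw [coe_normSeminorm]
      linarith
  refine norm_sum_le ?_ ?_
  · have e : (XX o J (W, v) y - XX o J (W, v) y' - (y - y')) ∘ .inl = 0 :=
      funext fun i => by simp [XX]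
    rw [e, norm_zero]
    positivity
  · refine le_of_eq_of_le (congrArg _ (funext fun l => ?_)) h
    simp [XX]
    ring

theorem XX_inj (hP : o.PDE) (hA : o.Ad J Z m W c v) (hy : y ∈ dm o J W) (hy' : y' ∈ dm o J W)
    (h : XX o J (W, v) y = XX o J (W, v) y') : y = y' := by
  have := XX_lip hP hA hy hy' fun i => congrFun h (.inl i)
  rw [h, sub_self, zero_sub, norm_neg] at this
  exact sub_eq_zero.1 (norm_le_zero_iff.1 (by linarith))

theorem UU_star (hP : o.PDE) (hA : o.Ad J Z m W c v) (hy : y ∈ dm o J W) :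
    UU o J W v (star y) = o.cj W (UU o J W v y) :=
  sol_eq hP (chg hA (dom_star hy))
    ((hP.pt _ _ _ _ _ _ (chg hA hy)).cj _ _ (UU_spec hP hA hy).1).1

theorem XX_star (hP : o.PDE) (hA : o.Ad J Z m W c v) (hy : y ∈ dm o J W) :
    XX o J (W, v) (star y) = star (XX o J (W, v) y) ∧
      ff o J (W, v) (star y) = star (ff o J (W, v) y) := by
  obtain ⟨-, h1, -, -, h2⟩ := (hP.pt _ _ _ _ _ _ (chg hA hy)).cj _ _ (UU_spec hP hA hy).1
  refine ⟨funext fun i => ?_, ?_⟩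
  · cases i with
    | inl i => rfl
    | inr i =>
      show o.Xi W (UU o J W v (star y)) i = _
      rw [UU_star hP hA hy, h1]
      rfl
  · rw [(hP.indm _ _ _ _ (star _) _).2.1, (hP.indm _ m _ _ _ _).2.1] at h2
    show o.f J 0 W (UU o J W v (star y), _) = _
    rw [UU_star hP hA hy]
    exact h2

omit [∀ W, CompleteSpace (X W)] in
theorem UU_ind (hP : o.PDE) : UU o J W 0 y = UU o o.J₀ W 1 y := by
  have e : o.Sol J W (y ∘ .inr) 0 (y ∘ .inl) = o.Sol o.J₀ W (y ∘ .inr) 1 (y ∘ .inl) := by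
    ext U
    simp only [Obj.Sol, (hP.indJ J W U _).1]
  simp only [UU, sol, e]

end Vale.Agent.P218T.Fam
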