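import Vale.Agent.P218T.FamC

/-! Curves of solutions with fixed constraints; symmetry of second derivatives. -/

set_option linter.all false

open Set Filter Topology Metric

noncomputable section

namespace Vale.Agent.P218T.Fam

open Vale.Agent.P218Q (dsc nu vb dom dP)

variable {α ι : Type} [Fintype α] [Fintype ι]
  {X Y : (ι → ℝ) → Type} {C : Type} [∀ W, NormedAddCommGroup (X W)]
  [∀ W, NormedSpace ℂ (X W)] [∀ W, NormedAddCommGroup (Y W)] [∀ W, NormedSpace ℂ (Y W)]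
  [NormedAddCommGroup C] [NormedSpace ℂ C] {o : Obj α ι X Y C}
  {J : ℕ} {Z : ℝ} {m W : ι → ℝ} {c : ι → ℂ} {v : ℝ} {a : α → ℂ} {U : X W}

/-- the parameters other than the opening -/
abbrev Qm (ι : Type) := (ι → ℂ) × (ι → ℂ) × ℂ

variable [∀ W, CompleteSpace (X W)]

/-- bounds for tangent vectors with fixed constraints -/
theorem tan_bd (hP : o.PDE) (hA : o.Ad J Z m W c v) (hU : o.N W c U < o.r) {U' : X W}
    {c' : ι → ℂ} {q : Qm ι} {B : ℝ} (he : fderiv ℂ (o.FF J m W) (U, bs c v) (U', c', q) = 0)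
    (hx : o.Xi W U' = 0)
    (hB : o.Np W c (o.S W c (fderiv ℂ (o.FF J m W) (U, bs c v) (0, 0, q))) ≤ B) :
    ‖c'‖ ≤ 3 * (o.K * B) ∧ o.Np W c U' ≤ 8 * (o.K * (o.K * B)) := by
  have h := hP.pt _ _ _ _ _ _ hA
  have K1 := hP.Kge
  have B0 : 0 ≤ B := (apply_nonneg _ _).trans hB
  have h1 := est hP hA hU (a' := 0) (he.trans (map_zero _).symm)
  rw [norm_zero, mul_zero, add_zero] at h1
  have h2 := (h.fn (U' - o.U0 W c')).1
  rw [map_sub, hx, (h.u0 _).2, zero_sub, norm_neg] at h2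
  have h3 := mul_le_mul_of_nonneg_left h1 (show 0 ≤ o.K by linarith)
  have h4 := mul_le_mul_of_nonneg_right hP.eta.2 (norm_nonneg c')
  have h5 := mul_le_mul_of_nonneg_left hB (show 0 ≤ o.K by linarith)
  have h6 : ‖c'‖ ≤ 3 * (o.K * B) := by linarith [norm_nonneg c', mul_nonneg (zero_le_one.trans K1) B0]
  refine ⟨h6, ?_⟩
  have h7 := map_add_le_add (o.Np W c) (U' - o.U0 W c') (o.U0 W c')
  rw [sub_add_cancel] at h7
  have h8 := mul_le_mul_of_nonneg_left h6 (show 0 ≤ o.K by linarith)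
  have h9 : B ≤ o.K * B := le_mul_of_one_le_left B0 K1
  have h10 : o.K * B ≤ o.K * (o.K * B) := le_mul_of_one_le_left (B0.trans h9) K1
  have h11 : o.η * ‖c'‖ ≤ o.K * (o.η * ‖c'‖) :=
    le_mul_of_one_le_left (mul_nonneg hP.eta.1 (norm_nonneg _)) K1
  linarith [(h.u0 c').1]

/-- Cauchy bound for derivatives along curves with fixed constraints -/
theorem tan_cau (hP : o.PDE) (hA : o.Ad J Z m W c v) (hU : o.N W c U ≤ o.r / 4)
    {y' : X W × Pm ι} (he : fderiv ℂ (o.FF J m W) (U, bs c v) y' = 0) (hx : o.Xi W y'.1 = 0)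
    (hq : ‖y'.2.2‖ ≤ 1) {g : X W × Pm ι → ℂ} {M : ℝ}
    (hg : ∀ y ∈ o.Box Z W c v, DifferentiableAt ℂ g y ∧ ‖g y‖ ≤ M) :
    ‖fderiv ℂ g (U, bs c v) y'‖ ≤ M / (min o.r 1 / (32 * o.K ^ 2 * (Z ^ o.P) ^ 4)) := by
  have h := hP.pt _ _ _ _ _ _ hA
  have K1 := hP.Kge
  have r0 := hP.rpos
  have hz := zp hP hA
  obtain ⟨h1, h2⟩ := tan_bd hP hA (by linarith) (U' := y'.1) (c' := y'.2.1) (q := y'.2.2) he hx
    (est_q hP hA hU hq)
  set T := Z ^ o.P with hT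
  have m0 : 0 < min o.r 1 := lt_min r0 one_pos
  refine cau_box hP hA hU hg (by positivity) ?_ ?_
  · have h3 : o.N W c y'.1 ≤ T * (8 * (o.K * (o.K * (2 * T ^ 3)))) :=
      (h.eqv _).2.2.1.trans (by gcongr)
    refine (mul_le_mul (div_le_div_of_nonneg_right (min_le_left _ _) (by positivity)) h3
      (apply_nonneg _ _) (by positivity)).trans (le_of_eq ?_)
    field_simp
    norm_num
  · have h4 : 1 ≤ o.K * T ^ 3 := one_le_mul_of_one_le_of_one_le K1 (one_le_pow₀ hz)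
    have h3 : ‖y'.2‖ ≤ 6 * (o.K * T ^ 3) := max_le (by linarith) (by linarith)
    refine (mul_le_mul (div_le_div_of_nonneg_right (min_le_right _ _) (by positivity)) h3
      (norm_nonneg _) (by positivity)).trans_lt ?_
    rw [← hT, show 1 / (32 * o.K ^ 2 * T ^ 4) * (6 * (o.K * T ^ 3)) = 6 / (32 * o.K) * T⁻¹ by
      field_simp]
    exact mul_lt_of_lt_one_left (by positivity) ((div_lt_one (by positivity)).2 (by linarith))

/-- a family of solutions through `(U, bs c v)` with fixed constraints -/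
structure Cv (o : Obj α ι X Y C) (J : ℕ) (Z : ℝ) (m W : ι → ℝ) (c : ι → ℂ) (v : ℝ) (a : α → ℂ)
    (U : X W) (Γ : Qm ι → X W × Pm ι) : Prop where
  dif : ∀ᶠ q in 𝓝 ((0, 0, v) : Qm ι), DifferentiableAt ℂ Γ q
  base : Γ (0, 0, v) = (U, bs c v)
  par : ∀ q, (Γ q).2.2 = q
  eq : ∀ᶠ q in 𝓝 ((0, 0, v) : Qm ι), Γ q ∈ o.Box Z W c v ∧ o.FF J m W (Γ q) = o.ia W a ∧
    o.Xi W (Γ q).1 = o.Xi W U

theorem curve (hP : o.PDE) (hA : o.Ad J Z m W c v)
    (hU : o.Sol J W c v a U) : ∃ Γ, Cv o J Z m W c v a U Γ := by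
  have h := hP.pt _ _ _ _ _ _ hA
  obtain ⟨B, b1, b2, b3⟩ := branch hP hA hU
  let k : Qm ι × (ι → ℂ) → Pm ι × (α → ℂ) := fun x => ((x.2, x.1), a)
  have hk : ContDiff ℂ 1 k := (contDiff_snd.prodMk contDiff_fst).prodMk contDiff_const
  have h1 : ContDiffAt ℂ 1 (B ∘ k) ((0, 0, v), c) := ContDiffAt.comp _ b1 hk.contDiffAt
  have d1 := (h1.differentiableAt one_ne_zero).hasFDerivAt
  obtain ⟨ψ, p1, p2, p3⟩ := ift ((o.Xi W).contDiff.contDiffAt.comp _ h1) (by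
    rw [((o.Xi W).hasFDerivAt.comp _ d1).fderiv]
    let L : (ι → ℂ) →L[ℂ] ι → ℂ :=
      o.Xi W ∘L fderiv ℂ (B ∘ k) ((0, 0, v), c) ∘L ContinuousLinearMap.inr ℂ _ _
    have hi : Function.Injective L := by
      refine (injective_iff_map_eq_zero L).2 fun c' hc' => ?_
      have h2 := lin (γ := fun x => ((B ∘ k) x, x.2, x.1)) (β := fun _ => a) (x := ((0, 0, v), c))
        (by
          have : ((B ∘ k) ((0, 0, v), c), c, (0 : ι → ℂ), (0 : ι → ℂ), (v : ℂ)) = (U, bs c v) :=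
            congrArg (·, bs c v) b2
          exact this ▸ (h.hol _ (box_base hP hA hU.1)).1)
        (d1.prodMk (hasFDerivAt_snd.prodMk hasFDerivAt_fst)) (hasFDerivAt_const _ _)
        ((hk.continuous.tendsto ((0, 0, v), c)).eventually b3) (0, c')
      have e : ((B ∘ k) ((0, 0, v), c), c, (0 : ι → ℂ), (0 : ι → ℂ), (v : ℂ)) = (U, bs c v) :=
        congrArg (·, bs c v) b2
      have h3 : fderiv ℂ (o.FF J m W) (U, bs c v)
          (fderiv ℂ (B ∘ k) ((0, 0, v), c) (0, c'), c', 0) = 0 := by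
        rw [← e]
        exact h2.trans (map_zero _)
      have h4 := (tan_bd hP hA hU.1 h3 hc' (B := 0) (by
        rw [show ((0 : X W), (0 : ι → ℂ), (0 : Qm ι)) = 0 from rfl]
        simp)).1
      exact norm_le_zero_iff.1 (by simpa using h4)
    exact ⟨hi, (LinearMap.injective_iff_surjective (f := L.toLinearMap)).1 hi⟩)
  have hq : ContDiffAt ℂ 1 (fun q : Qm ι => (q, ψ q)) (0, 0, v) := contDiffAt_id.prodMk p1
  have e0 : (((0, 0, v) : Qm ι), ψ (0, 0, v)) = (((0, 0, v) : Qm ι), c) :=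
    congrArg (((0, 0, v) : Qm ι), ·) p2
  have hG : ContDiffAt ℂ 1 (fun q : Qm ι => ((B ∘ k) (q, ψ q), ψ q, q)) (0, 0, v) :=
    (ContDiffAt.comp _ (e0 ▸ h1) hq).prodMk (p1.prodMk contDiffAt_id)
  have e1 : ((B ∘ k) ((0, 0, v), ψ (0, 0, v)), ψ (0, 0, v), ((0, 0, v) : Qm ι)) = (U, bs c v) := by
    rw [show ψ (0, 0, v) = c from p2]
    exact congrArg (·, bs c v) b2
  refine ⟨fun q => ((B ∘ k) (q, ψ q), ψ q, q), (hG.eventually (by simp)).mono fun q hq =>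
    hq.differentiableAt one_ne_zero, e1, fun _ => rfl, ?_⟩
  have t1 : Tendsto (fun q : Qm ι => k (q, ψ q)) (𝓝 (0, 0, v)) (𝓝 (bs c v, a)) := by
    have := (hk.continuous.continuousAt.comp hq.continuousAt).tendsto
    simp only [Function.comp_apply, e0] at this
    exact this
  filter_upwards [hG.continuousAt.eventually (e1 ▸ box_ev hP hA hU.1), t1.eventually b3, p3]
    with q q1 q2 q3
  exact ⟨q1, q2, q3.trans (congrArg (o.Xi W) b2)⟩

/-- the coordinates of the parameters -/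
def cl (j : ι) : Qm ι →L[ℂ] ℂ := .proj j ∘L .fst ℂ _ _

/-- the coordinates of the parameters -/
def ce (j : ι) : Qm ι →L[ℂ] ℂ := .proj j ∘L .fst ℂ _ _ ∘L .snd ℂ _ _

/-- the coordinates of the parameters -/
def cv : Qm ι →L[ℂ] ℂ := .snd ℂ _ _ ∘L .snd ℂ _ _

namespace Cv

variable {Γ : Qm ι → X W × Pm ι}

theorem tan (hP : o.PDE) (hA : o.Ad J Z m W c v) (H : Cv o J Z m W c v a U Γ) :
    ∀ᶠ q in 𝓝 ((0, 0, v) : Qm ι), ∀ e, fderiv ℂ (o.FF J m W) (Γ q) (fderiv ℂ Γ q e) = 0 ∧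
      o.A W (fderiv ℂ Γ q e).1 = 0 ∧ o.Xi W (fderiv ℂ Γ q e).1 = 0 ∧ (fderiv ℂ Γ q e).2.2 = e := by
  have h := hP.pt _ _ _ _ _ _ hA
  filter_upwards [H.dif, H.eq.eventually_nhds] with q q1 q2 e
  have d := q1.hasFDerivAt
  refine ⟨(lin (h.hol _ q2.self_of_nhds.1).1 d (hasFDerivAt_const a _) (q2.mono fun _ h => h.2.1)
    e).trans (map_zero _), ?_, ?_, ?_⟩
  · exact congrArg (fun L => L e) (((o.A W).hasFDerivAt.comp q d.fst).unique
      ((hasFDerivAt_const a q).congr_of_eventuallyEq (q2.mono fun _ z => h.con _ z.1 _ z.2.1)))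
  · exact congrArg (fun L => L e) (((o.Xi W).hasFDerivAt.comp q d.fst).unique
      ((hasFDerivAt_const _ q).congr_of_eventuallyEq (q2.mono fun _ z => z.2.2)))
  · exact congrArg (fun L => L e) (d.snd.snd.unique
      ((hasFDerivAt_id q).congr_of_eventuallyEq (.of_forall H.par)))

theorem fder (hP : o.PDE) (hA : o.Ad J Z m W c v) (H : Cv o J Z m W c v a U Γ) :
    ∀ᶠ q in 𝓝 ((0, 0, v) : Qm ι), HasFDerivAt (fun q => o.f J m W (Γ q))
      (∑ j, o.D j J m W (Γ q) • cl j + ∑ j, o.O j J m W (Γ q) • ce j + o.Tv J m W (Γ q) • cv) q := by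
  have h := hP.pt _ _ _ _ _ _ hA
  filter_upwards [H.dif, H.eq, H.tan hP hA] with q q1 q2 q3
  refine ((h.hol _ q2.1).2.1.hasFDerivAt.comp q q1.hasFDerivAt).congr_fderiv
    (ContinuousLinearMap.ext fun e => ?_)
  obtain ⟨-, a1, a2, a3⟩ := q3 e
  rw [ContinuousLinearMap.comp_apply, h.fv _ q2.1 _ q2.2.1, a1, a2, a3]
  simp [cl, ce, cv]

theorem comp (H : Cv o J Z m W c v a U Γ) {g : X W × Pm ι → ℂ}
    (hg : DifferentiableAt ℂ g (U, bs c v)) : HasFDerivAt (fun q => g (Γ q))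
      (fderiv ℂ g (U, bs c v) ∘L fderiv ℂ Γ (0, 0, v)) (0, 0, v) :=
  HasFDerivAt.comp (f := Γ) _ (H.base ▸ hg.hasFDerivAt) H.dif.self_of_nhds.hasFDerivAt

open Classical in
theorem symm (hP : o.PDE) (hA : o.Ad J Z m W c v) (H : Cv o J Z m W c v a U Γ)
    (hU : o.N W c U < o.r) (j : ι) (l : ι → ℂ) (s : ℂ) :
    fderiv ℂ (o.O j J m W) (U, bs c v) (fderiv ℂ Γ (0, 0, v) (l, 0, s))
      = ∑ i, fderiv ℂ (o.D i J m W) (U, bs c v) (fderiv ℂ Γ (0, 0, v) (0, Pi.single j 1, 0)) * l i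
        + fderiv ℂ (o.Tv J m W) (U, bs c v) (fderiv ℂ Γ (0, 0, v) (0, Pi.single j 1, 0)) * s := by
  obtain ⟨-, -, h1, h2⟩ := (hP.pt _ _ _ _ _ _ hA).hol _ (box_base hP hA hU)
  have d := ((HasFDerivAt.fun_sum (u := Finset.univ) fun i _ =>
    (H.comp (h2 i).1).smul_const (cl i)).add (HasFDerivAt.fun_sum (u := Finset.univ) fun i _ =>
    (H.comp (h2 i).2).smul_const (ce i))).add ((H.comp h1).smul_const cv)
  have := second_derivative_symmetric_of_eventually (H.fder hP hA) d (l, 0, s)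
    (0, Pi.single j 1, 0)
  simpa [cl, ce, cv, Pi.single_apply] using this

end Cv

theorem norm_dP (D : ι → ℂ) (τ : ℂ) {b : ℝ} (h1 : ∀ j, ‖D j‖ ≤ b) (h2 : ‖τ‖ ≤ b) :
    ‖dP D τ‖ ≤ (Fintype.card ι + 1) * b := by
  have b0 : 0 ≤ b := (norm_nonneg _).trans h2
  refine ContinuousLinearMap.opNorm_le_bound _ (by positivity) fun q => ?_
  have e : dP D τ q = ∑ j, q.1 j • D j + q.2 • τ := by simp [dP]
  rw [e]
  have h3 : ‖∑ j, q.1 j • D j‖ ≤ ∑ _j : ι, ‖q‖ * b := norm_sum_le_of_le _ fun j _ => by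
    rw [norm_smul]
    exact mul_le_mul ((norm_le_pi_norm _ j).trans (norm_fst_le q)) (h1 j) (norm_nonneg _)
      (norm_nonneg _)
  have h4 : ‖q.2 • τ‖ ≤ ‖q‖ * b := by
    rw [norm_smul]
    exact mul_le_mul (norm_snd_le q) h2 (norm_nonneg _) (norm_nonneg _)
  rw [Finset.sum_const, Finset.card_univ, nsmul_eq_mul] at h3
  linarith [norm_add_le (∑ j, q.1 j • D j) (q.2 • τ)]

end Vale.Agent.P218T.Fam
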