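import Vale.Agent.P218T.FamD

/-! Dependence on the cuts and on the boundary term. -/

set_option linter.all false

open Set Filter Topology Metric

noncomputable section

namespace Vale.Agent.P218T.Fam

open Vale.Agent.P218Q (dsc nu vb dom dP Ad)

variable {α ι : Type} [Fintype α] [Fintype ι]
  {X Y : (ι → ℝ) → Type} {C : Type} [∀ W, NormedAddCommGroup (X W)]
  [∀ W, NormedSpace ℂ (X W)] [∀ W, NormedAddCommGroup (Y W)] [∀ W, NormedSpace ℂ (Y W)]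
  [NormedAddCommGroup C] [NormedSpace ℂ C] {o : Obj α ι X Y C}
  {J : ℕ} {Z Zs : ℝ} {m W : ι → ℝ} {c : ι → ℂ} {v : ℝ} {y : α ⊕ ι → ℂ}

/-- real parameters -/
def em (W : ι → ℝ) (q : (ι → ℝ) × ℝ) : Qm ι := (fun l => (q.1 l - W l : ℝ), 0, q.2)

/-- the differential of `em` -/
def emL : ((ι → ℝ) × ℝ) →L[ℝ] Qm ι :=
  (ContinuousLinearMap.pi fun l => Complex.ofRealCLM ∘L .proj l ∘L .fst ℝ _ _).prod
    ((0 : ((ι → ℝ) × ℝ) →L[ℝ] ι → ℂ).prod (Complex.ofRealCLM ∘L .snd ℝ _ _))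

theorem emL_apply (q : (ι → ℝ) × ℝ) : emL q = ((fun l => q.1 l, 0, q.2) : Qm ι) := rfl

theorem em_der (q : (ι → ℝ) × ℝ) : HasFDerivAt (em W) emL q := by
  refine (emL.hasFDerivAt.sub_const (emL (W, 0))).congr_of_eventuallyEq (.of_forall fun q => ?_)
  simp only [em, emL_apply]
  ext <;> simp

theorem em_base : em W (W, v) = ((0, 0, v) : Qm ι) := by
  simp only [em]
  ext <;> simp

theorem em_cont : Continuous (em W) := continuous_iff_continuousAt.2 fun q => (em_der q).continuousAt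

theorem scale (hJ : o.J₀ ≤ J) {p : (ι → ℝ) × ℝ} (hp : p ∈ Ad Zs) (hZ : o.Zs J ≤ Z)
    (hl : ∀ l, Z ≤ p.1 l) : ∃ Z', Z ≤ Z' ∧ ∀ c m, Dsc J p.1 c →
      (∀ l, m l ∈ Icc (p.1 l / 25) (3 * p.1 l / 5)) → o.Ad J Z' m p.1 c p.2 := by
  rcases isEmpty_or_nonempty ι with h | h
  · exact ⟨Z, le_rfl, fun c m hc hm => ⟨hJ, hZ, fun l => isEmptyElim l, hm, hc, hp.2.2⟩⟩
  · obtain ⟨l, h1⟩ := Finite.exists_min p.1
    exact ⟨p.1 l, hl l, fun c m hc hm =>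
      ⟨hJ, hZ.trans (hl l), fun k => ⟨h1 k, hp.2.1 k l⟩, hm, hc, hp.2.2⟩⟩

theorem zs_pos (hP : o.PDE) (hJ : o.J₀ ≤ J) : 0 < o.Zs J := by
  have h1 : (10 : ℝ) ^ 13 ≤ J := by exact_mod_cast hP.big.trans hJ
  exact (show (0 : ℝ) < 10 ^ 13 by norm_num).trans_le (h1.trans (hP.zs J hJ).2)

theorem quarter {x : ℝ} (h : 0 ≤ x) : x / 4 ∈ Icc (x / 25) (3 * x / 5) :=
  ⟨by linarith, by linarith⟩

theorem adm (hP : o.PDE) (hJ : o.J₀ ≤ J) {p : (ι → ℝ) × ℝ} (hp : p ∈ Ad Zs) (hZ : o.Zs J ≤ Zs)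
    (hy : y ∈ dm o J p.1) : ∃ Z, o.Ad J Z (fun l => p.1 l / 4) p.1 (y ∘ .inr) p.2 := by
  obtain ⟨Z, -, h⟩ := scale hJ hp hZ hp.1
  exact ⟨Z, h _ _ hy.2 fun l => quarter ((zs_pos hP hJ).le.trans (hZ.trans (hp.1 l)))⟩

theorem dsc_ev {Y Z : ℝ} {c : ℂ} (hZ : Z ≠ 0) (h : c ∈ dsc Y Z) :
    ∀ᶠ t : ℝ × ℂ in 𝓝 (Z, c), t.2 ∈ dsc Y t.1 := by
  refine ContinuousAt.eventually_lt (f := fun t : ℝ × ℂ => ‖vb t.1 t.2 - 3‖)
    (g := fun t : ℝ × ℂ => 3 - 4 * Y / t.1 ^ 2) (by unfold vb; fun_prop) ?_ h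
  exact continuousAt_const.sub (continuousAt_const.div (by fun_prop) (pow_ne_zero _ hZ))

variable (o) in
/-- the bound for the mixed derivatives -/
def bb (Z : ℝ) : ℝ := (Fintype.card ι + 1) *
  (Z ^ o.P * Real.exp (-Z ^ 2 / 4) / (min o.r 1 / (32 * o.K ^ 2 * (Z ^ o.P) ^ 4)))

theorem bb_ev (hP : o.PDE) : ∃ Z1, ∀ Z, Z1 ≤ Z → bb o Z ≤ Real.exp (-Z ^ 2 / 5) := by
  have K1 := hP.Kge
  have m0 : 0 < min o.r 1 := lt_min hP.rpos one_pos
  have h := ((Real.tendsto_pow_mul_exp_neg_atTop_nhds_zero (o.P * 5)).const_mul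
    ((Fintype.card ι + 1) * (32 * o.K ^ 2) / min o.r 1)).eventually
    (ge_mem_nhds (show _ < (1 : ℝ) by simp))
  obtain ⟨Z1, h1⟩ := eventually_atTop.1 (h.and (eventually_ge_atTop 20))
  refine ⟨Z1, fun Z hZ => ?_⟩
  obtain ⟨h2, h3⟩ := h1 Z hZ
  have h4 : Real.exp (-Z ^ 2 / 4) ≤ Real.exp (-Z) * Real.exp (-Z ^ 2 / 5) := by
    rw [← Real.exp_add]
    refine Real.exp_le_exp.2 ?_
    nlinarith
  have e : bb o Z = (Fintype.card ι + 1) * (32 * o.K ^ 2) / min o.r 1 * Z ^ (o.P * 5)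
      * Real.exp (-Z ^ 2 / 4) := by
    have : 0 < Z := by linarith
    rw [bb, pow_mul]
    field_simp
  rw [e]
  refine (mul_le_mul_of_nonneg_left h4 (by positivity)).trans ?_
  rw [← mul_assoc, mul_assoc _ (Z ^ _)]
  exact mul_le_of_le_one_left (Real.exp_pos _).le h2

theorem le_bb (hP : o.PDE) (hA : o.Ad J Z m W c v) :
    Z ^ o.P * Real.exp (-Z ^ 2 / 4) ≤ bb o Z := by
  have K1 := hP.Kge
  have hz := zp hP hA
  have m0 : 0 < min o.r 1 := lt_min hP.rpos one_pos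
  have h1 : 1 ≤ o.K ^ 2 * (Z ^ o.P) ^ 4 :=
    one_le_mul_of_one_le_of_one_le (one_le_pow₀ K1) (one_le_pow₀ hz)
  refine (le_div_self (by positivity) (by positivity) ((div_le_one (by positivity)).2
    ((min_le_right _ _).trans (by linarith)))).trans (le_mul_of_one_le_left (by positivity) ?_)
  simp

variable [∀ W, CompleteSpace (X W)]

theorem loc1 (hP : o.PDE) (hZs : o.Zs J ≤ Zs) (hp : (W, v) ∈ Ad Zs)
    (hA : o.Ad J Z m W (y ∘ .inr) v) (hy : y ∈ dm o J W) :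
    ∃ g : (ι → ℝ) × ℝ → α ⊕ ι → ℂ, ContinuousAt g (W, v) ∧ g (W, v) = y ∧
      (∀ᶠ q in 𝓝[Ad Zs] (W, v), g q ∈ dm o J q.1 ∧ XX o J q (g q) = XX o J (W, v) y) ∧
      (∃ τ : ℂ, ‖τ‖ ≤ bb o Z ∧
        HasFDerivWithinAt (fun q => ff o J q (g q)) (dP (DD o J (W, v) y) τ) (Ad Zs) (W, v)) ∧
      ∀ j, ∃ L : ((ι → ℝ) × ℝ) →L[ℝ] ℂ, ‖L‖ ≤ bb o Z ∧
        HasFDerivWithinAt (fun q => OO o J q (g q) j (m j)) L (Ad Zs) (W, v) := by
  classical
  have h := hP.pt _ _ _ _ _ _ hA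
  have r0 := hP.rpos
  obtain ⟨s1, s2⟩ := UU_spec hP hA hy
  obtain ⟨Γ, H⟩ := curve hP hA s1
  have cG : ContinuousAt (fun q => Γ (em W q)) (W, v) :=
    ContinuousAt.comp (f := em W) (em_base (W := W) (v := v) ▸ H.dif.self_of_nhds.continuousAt)
      em_cont.continuousAt
  have bG : Γ (em W (W, v)) = (UU o J W v y, bs (y ∘ .inr) v) := by rw [em_base, H.base]
  have tE : Tendsto (em W) (𝓝 (W, v)) (𝓝 (0, 0, v)) := em_base (W := W) (v := v) ▸ em_cont.tendsto _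
  have tC : Tendsto (fun q => (Γ (em W q)).2.1) (𝓝 (W, v)) (𝓝 (y ∘ .inr)) := by
    have := cG.snd.fst.tendsto
    rwa [bG] at this
  let g : (ι → ℝ) × ℝ → α ⊕ ι → ℂ := fun q => Sum.elim (y ∘ .inl) (Γ (em W q)).2.1
  have key : ∀ᶠ q in 𝓝[Ad Zs] (W, v), g q ∈ dm o J q.1 ∧ XX o J q (g q) = XX o J (W, v) y ∧
      ff o J q (g q) = o.f J m W (Γ (em W q)) ∧
      ∀ j, OO o J q (g q) j (m j) = o.O j J m W (Γ (em W q)) := by
    have e1 := (continuous_fst.continuousAt.tendsto.prodMk_nhds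
      (tC.prodMk_nhds continuous_snd.continuousAt.tendsto)).eventually h.rp
    have e2 := ((eN hP hA).cont.continuousAt.comp cG.fst).eventually
      (gt_mem_nhds (a := o.r / 2) (by simp only [Function.comp_apply, bG]; linarith))
    have e3 : ∀ᶠ q in 𝓝 (W, v), ∀ l, (Γ (em W q)).2.1 l ∈ dsc (7 / 5 * nu J) (q.1 l) :=
      eventually_all.2 fun l => ((((continuous_apply l).comp continuous_fst).tendsto
        (W, v)).prodMk_nhds (((continuous_apply l).tendsto _).comp tC)).eventually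
        (dsc_ev (by linarith [(hA.hW l).1, one_le hP hA] : (0 : ℝ) < W l).ne' (hy.2 l))
    filter_upwards [nhdsWithin_le_nhds e1, nhdsWithin_le_nhds e2, nhdsWithin_le_nhds e3,
      nhdsWithin_le_nhds (tE.eventually H.eq), self_mem_nhdsWithin] with q q1 q2 q3 q4 q5
    have e : ((Γ (em W q)).1, (Γ (em W q)).2.1, em W q) = Γ (em W q) :=
      Prod.ext rfl (Prod.ext rfl (H.par _).symm)
    obtain ⟨a1, a2, -, a3, a4⟩ := q1 (y ∘ .inl) _ q2 ((congrArg _ e).trans q4.2.1)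
    have hd : g q ∈ dm o J q.1 := ⟨hy.1, q3⟩
    obtain ⟨Z', hA'⟩ := adm hP hA.hJ q5 hZs hd
    have u : UU o J q.1 q.2 (g q) = o.rp W q.1 (Γ (em W q)).1 := sol_eq hP hA' a1
    refine ⟨hd, ?_, ?_, fun j => ?_⟩
    · simp only [XX, u, a2, q4.2.2]
      rfl
    · simp only [ff, u]
      exact ((hP.indm _ m _ _ _ _).2.1.symm.trans a3).trans (congrArg _ e)
    · simp only [OO, u]
      exact (((hP.indm _ m _ _ _ _).2.2 j).2.symm.trans (a4 j)).trans (congrArg _ e)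
  refine ⟨g, ?_, ?_, key.mono fun q hq => ⟨hq.1, hq.2.1⟩,
    ⟨o.Tv J m W (UU o J W v y, bs (y ∘ .inr) v), ?_, ?_⟩, fun j => ?_⟩
  · refine continuousAt_pi.2 fun i => ?_
    cases i with
    | inl i => exact continuousAt_const
    | inr i => exact (continuous_apply i).continuousAt.comp cG.snd.fst
  · funext i
    cases i with
    | inl i => rfl
    | inr i => exact congrArg (fun z : X W × Pm ι => z.2.1 i) bG
  · exact (h.bd _ (UU_box hP hA hy)).2.2.1.trans (le_bb hP hA)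
  · have d := HasFDerivAt.comp (f := em W) (W, v)
      (em_base (W := W) (v := v) ▸ (H.fder hP hA).self_of_nhds.restrictScalars ℝ) (em_der _)
    refine (d.congr_fderiv (ContinuousLinearMap.ext fun q => ?_)).hasFDerivWithinAt
      |>.congr_of_eventuallyEq (key.mono fun q hq => hq.2.2.1) (key.self_of_nhdsWithin hp).2.2.1
    simp [dP, cl, ce, cv, emL_apply, bG, DD, ((hP.indm _ m _ _ _ _).2.2 _).1, mul_comm]
  · obtain ⟨t1, -, t2, t3⟩ := (H.tan hP hA).self_of_nhds (0, Pi.single j 1, 0)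
    rw [H.base] at t1
    have hq : ‖(fderiv ℂ Γ (0, 0, v) (0, Pi.single j 1, 0)).2.2‖ ≤ 1 := by
      rw [t3]
      simp [Pi.norm_single]
    refine ⟨dP _ _, norm_dP _ _ (fun i => tan_cau hP hA s2 t1 t2 hq fun z hz =>
      ⟨((h.hol z hz).2.2.2 i).1, (h.bd z hz).2.2.2 i⟩) (tan_cau hP hA s2 t1 t2 hq fun z hz =>
      ⟨(h.hol z hz).2.2.1, (h.bd z hz).2.2.1⟩), ?_⟩
    have d := HasFDerivAt.comp (f := em W) (W, v) (em_base (W := W) (v := v) ▸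
      (H.comp ((h.hol _ (UU_box hP hA hy)).2.2.2 j).2).restrictScalars ℝ) (em_der _)
    refine (d.congr_fderiv (ContinuousLinearMap.ext fun q => ?_)).hasFDerivWithinAt
      |>.congr_of_eventuallyEq (key.mono fun q hq => hq.2.2.2 j)
        ((key.self_of_nhdsWithin hp).2.2.2 j)
    rw [em_base]
    refine (H.symm hP hA s1.1 j _ _).trans ?_
    simp [dP, mul_comm]

theorem loc (hP : o.PDE) (hJ : o.J₀ ≤ J) (hZs : o.Zs J ≤ Zs)
    (hb : ∀ Z, Zs ≤ Z → bb o Z ≤ Real.exp (-Z ^ 2 / 5)) {p : (ι → ℝ) × ℝ} (hp : p ∈ Ad Zs)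
    (hy : y ∈ dm o J p.1) (hl : ∀ l, Z ≤ p.1 l) (hZ : Zs ≤ Z) :
    ∃ g : (ι → ℝ) × ℝ → α ⊕ ι → ℂ, ContinuousWithinAt g (Ad Zs) p ∧ g p = y ∧
      (∀ᶠ q in 𝓝[Ad Zs] p, XX o J q (g q) = XX o J p y) ∧
      (∃ τ : ℂ, ‖τ‖ ≤ Real.exp (-Z ^ 2 / 5) ∧
        HasFDerivWithinAt (fun q => ff o J q (g q)) (dP (DD o J p y) τ) (Ad Zs) p) ∧
      ∀ j, ∀ s ∈ Icc (p.1 j / 20) (p.1 j / 2), ∃ L : ((ι → ℝ) × ℝ) →L[ℝ] ℂ,
        ‖L‖ ≤ Real.exp (-Z ^ 2 / 5) ∧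
          HasFDerivWithinAt (fun q => OO o J q (g q) j s) L (Ad Zs) p := by
  classical
  obtain ⟨Z', h1, h2⟩ := scale hJ hp (hZs.trans hZ) hl
  have z0 : 0 < Z := (zs_pos hP hJ).trans_le (hZs.trans hZ)
  have w0 : ∀ l, 0 ≤ p.1 l := fun l => z0.le.trans (hl l)
  have h3 : bb o Z' ≤ Real.exp (-Z ^ 2 / 5) := (hb Z' (hZ.trans h1)).trans
    (Real.exp_le_exp.2 (by linarith [pow_le_pow_left₀ z0.le h1 2]))
  obtain ⟨g, g1, g2, g3, ⟨τ, g4, g5⟩, -⟩ := loc1 hP hZs hp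
    (h2 _ (fun l => p.1 l / 4) hy.2 fun l => quarter (w0 l)) hy
  refine ⟨g, g1.continuousWithinAt, g2, g3.mono fun _ h => h.2, ⟨τ, g4.trans h3, g5⟩,
    fun j s hs => ?_⟩
  obtain ⟨g', -, -, k3, -, k4⟩ := loc1 hP hZs hp
    (h2 _ (Function.update (fun l => p.1 l / 4) j s) hy.2 fun l => by
      rcases eq_or_ne l j with rfl | hl
      · rw [Function.update_self]
        exact ⟨by linarith [hs.1, w0 l], by linarith [hs.2, w0 l]⟩
      · rw [Function.update_of_ne hl]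
        exact quarter (w0 l)) hy
  obtain ⟨L, l1, l2⟩ := k4 j
  rw [Function.update_self] at l2
  have e : ∀ᶠ q in 𝓝[Ad Zs] p, OO o J q (g q) j s = OO o J q (g' q) j s := by
    filter_upwards [g3, k3, self_mem_nhdsWithin] with q q1 q2 q3
    obtain ⟨Z'', hA⟩ := adm hP hJ q3 hZs q1.1
    rw [XX_inj hP hA q1.1 q2.1 (q1.2.trans q2.2.symm)]
  exact ⟨L, l1.trans h3, l2.congr_of_eventuallyEq e (e.self_of_nhdsWithin hp)⟩

end Vale.Agent.P218T.Fam
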