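import Mathlib

/-!
# P218: the rotationally symmetric mode on a cylindrical end, basic estimates
-/

set_option linter.all false

open Set

namespace Vale.Agent.P218T.M0

noncomputable section

theorem back {E : Type*} [NormedAddCommGroup E] [NormedSpace ℝ E] {f : ℝ → E} {B : ℝ → ℝ}
    {a b : ℝ} (hab : a ≤ b) (hf : ContinuousOn f (Icc a b)) (hB : ContinuousOn B (Icc a b))
    (h : ∀ x ∈ Ioo a b, ∃ f' B', HasDerivAt f f' x ∧ HasDerivAt B B' x ∧ ‖f'‖ + B' ≤ 0)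
    (h0 : ‖f b‖ ≤ B b) : ‖f a‖ ≤ B a := by
  obtain ⟨l, l1, l2⟩ := exists_dual_vector'' ℝ (f a)
  have l3 : ∀ v, |l v| ≤ ‖v‖ := fun v => (l.le_opNorm v).trans (by nlinarith [norm_nonneg v])
  choose! f' B' h1 h2 h3 using h
  have := antitoneOn_of_hasDerivWithinAt_nonpos (f := fun x => B x - l (f x))
    (f' := fun x => B' x - l (f' x)) (convex_Icc a b) (hB.sub (l.continuous.comp_continuousOn hf))
    (fun x hx => by
      rw [interior_Icc] at hx ⊢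
      exact ((h2 x hx).sub (l.hasFDerivAt.comp_hasDerivAt x (h1 x hx))).hasDerivWithinAt)
    (fun x hx => by
      rw [interior_Icc] at hx
      linarith [h3 x hx, neg_abs_le (l (f' x)), l3 (f' x)])
    (left_mem_Icc.2 hab) (right_mem_Icc.2 hab) hab
  simp only [l2, RCLike.ofReal_real_eq_id, id] at this
  linarith [le_abs_self (l (f b)), l3 (f b)]

theorem boot {f g : ℝ → ℝ} {a b : ℝ} (hf : ContinuousOn f (Icc a b))
    (hg : ContinuousOn g (Icc a b)) (h0 : ∀ x ∈ Icc a b, 0 < g x) (hb : f b ≤ 2 * g b)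
    (h : ∀ x ∈ Icc a b, (∀ y ∈ Icc x b, f y ≤ 2 * g y) → f x ≤ g x) :
    ∀ x ∈ Icc a b, f x ≤ g x := by
  have k : ∀ x ∈ Icc a b, f x < 2 * g x := by
    by_contra k
    push Not at k
    have c2 : ContinuousOn (fun x => 2 * g x) (Icc a b) := continuousOn_const.mul hg
    obtain ⟨x, ⟨hx, h1⟩, h2⟩ := (isCompact_Icc.of_isClosed_subset
      (isClosed_Icc.isClosed_le c2 hf) fun _ h => h.1).exists_isGreatest k
    have h3 : ∀ y ∈ Ioc x b, f y ≤ 2 * g y := fun y hy => by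
      by_contra h4
      exact not_le.2 hy.1 (h2 ⟨⟨hx.1.trans hy.1.le, hy.2⟩, (not_le.1 h4).le⟩)
    have s := Icc_subset_Icc_left (b := b) hx.1
    have h4 : ∀ y ∈ Icc x b, f y ≤ 2 * g y := by
      rcases hx.2.eq_or_lt with rfl | h5
      · intro y hy
        rwa [le_antisymm hy.2 hy.1]
      · intro y hy
        rw [← closure_Ioc h5.ne] at hy
        exact (closure_minimal (fun z hz => by exact ⟨Ioc_subset_Icc_self hz, h3 z hz⟩)
          (isClosed_Icc.isClosed_le (hf.mono s) (c2.mono s)) hy).2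
    linarith [h x hx h4, h0 x hx]
  exact fun x hx => h x hx fun y hy => (k y ⟨hx.1.trans hy.1, hy.2⟩).le

/-- the opening parameter at height `z` -/
def W (V : ℝ → ℂ) (z : ℝ) : ℂ := (V z - 2) / (z ^ 2 - 2)

/-- the derivative of the opening parameter -/
def q (V V1 : ℝ → ℂ) (z : ℝ) : ℂ := (V1 z - 2 * z * W V z) / (z ^ 2 - 2)

/-- the right hand side of the equation of rotationally symmetric shrinkers -/
def G (z : ℝ) (V p : ℂ) : ℂ := (1 + p ^ 2 / (4 * V)) * (z * p / 2 - V + 2) + p ^ 2 / (2 * V)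

/-- the logarithmic correction -/
def Lam (V : ℝ → ℂ) (z : ℝ) : ℂ := 2 * Real.log z - Complex.log (V z)

/-- the reference profile -/
def rho (V : ℝ → ℂ) (Z z : ℝ) : ℂ := 2 + W V Z * (z ^ 2 - 2)

/-- slope of the real majorant -/
def wr (V : ℝ → ℂ) (Z : ℝ) : ℝ := (‖V Z‖ - 2) / (Z ^ 2 - 2)

/-- the real majorant of the reference profile -/
def sg (V : ℝ → ℂ) (Z z : ℝ) : ℝ := 2 + wr V Z * (z ^ 2 - 2)

/-- the boundary layer -/
def ly (Z z : ℝ) : ℝ := Real.exp ((z ^ 2 - Z ^ 2) / 8)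

/-- the hypotheses -/
structure Hyp (V V1 V2 : ℝ → ℂ) (Z A M μ ε ν z1 : ℝ) : Prop where
  pos : 0 < z1
  le : z1 ≤ Z
  cV : ContinuousOn V (Icc z1 Z)
  cV1 : ContinuousOn V1 (Icc z1 Z)
  dV : ∀ z ∈ Ioo z1 Z, HasDerivAt V (V1 z) z
  dV1 : ∀ z ∈ Ioo z1 Z, HasDerivAt V1 (V2 z) z
  eq : ∀ z ∈ Ioo z1 Z, ‖V2 z - G z (V z) (V1 z)‖ ≤ A / z ^ 3 + ν * z ^ 4 * ly Z z
  hM : 1 ≤ M
  he : 10 ^ 6 * M ^ 2 * ε ≤ 1
  h1 : 1 ≤ ε * z1 ^ 2
  m0 : 0 < μ
  m1 : μ * Z ^ 2 ≤ M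
  m2 : μ ≤ ε * ‖V Z‖
  m3 : μ ≤ 2 * ε
  re : 0 ≤ (V Z).re
  n8 : ‖V Z‖ ≤ 8
  hW : ‖W V Z‖ ≤ μ
  hq : ‖q V V1 Z‖ ≤ μ ^ 2 / (Z * ‖V Z‖) + ν * Z
  a0 : 0 ≤ A
  a1 : 8 * A ≤ μ ^ 2 * z1 ^ 5
  n0 : 0 ≤ ν
  n1 : ν ≤ μ ^ 2 * ε

variable {V V1 V2 : ℝ → ℂ} {Z A M μ ε ν z : ℝ}

namespace Hyp

theorem e0 (H : Hyp V V1 V2 Z A M μ ε ν z) : 0 < ε := by linarith [H.m0, H.m3]

theorem mono (H : Hyp V V1 V2 Z A M μ ε ν z) {s : ℝ} (hs : s ∈ Icc z Z) :
    Hyp V V1 V2 Z A M μ ε ν s :=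
  have a := Icc_subset_Icc_left (b := Z) hs.1
  have b := Ioo_subset_Ioo_left (b := Z) hs.1
  { H with
    pos := H.pos.trans_le hs.1
    le := hs.2
    cV := H.cV.mono a
    cV1 := H.cV1.mono a
    dV := fun x hx => H.dV x (b hx)
    dV1 := fun x hx => H.dV1 x (b hx)
    eq := fun x hx => H.eq x (b hx)
    h1 := H.h1.trans (mul_le_mul_of_nonneg_left (pow_le_pow_left₀ H.pos.le hs.1 2) H.e0.le)
    a1 := H.a1.trans (mul_le_mul_of_nonneg_left (pow_le_pow_left₀ H.pos.le hs.1 5) (sq_nonneg _)) }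

theorem top (H : Hyp V V1 V2 Z A M μ ε ν z) : Hyp V V1 V2 Z A M μ ε ν Z :=
  H.mono (right_mem_Icc.2 H.le)

theorem e1 (H : Hyp V V1 V2 Z A M μ ε ν z) : 10 ^ 6 * M * ε ≤ 1 := by
  nlinarith [H.he, H.hM, H.e0, mul_nonneg (sub_nonneg.2 H.hM) H.e0.le]

theorem e2 (H : Hyp V V1 V2 Z A M μ ε ν z) : 10 ^ 6 * ε ≤ 1 := by
  nlinarith [H.e1, H.hM, H.e0]

theorem big (H : Hyp V V1 V2 Z A M μ ε ν z) : 10 ^ 6 ≤ z ^ 2 := by
  nlinarith [H.e2, H.h1, sq_nonneg z]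

theorem ne (H : Hyp V V1 V2 Z A M μ ε ν z) : (z : ℂ) ^ 2 - 2 ≠ 0 := by
  have : (z ^ 2 - 2 : ℝ) ≠ 0 := by linarith [H.big]
  exact_mod_cast this

theorem nph (H : Hyp V V1 V2 Z A M μ ε ν z) : ‖(z : ℂ) ^ 2 - 2‖ = z ^ 2 - 2 := by
  rw [show (z : ℂ) ^ 2 - 2 = (z ^ 2 - 2 : ℝ) by push_cast; rfl, Complex.norm_real,
    Real.norm_of_nonneg (by linarith [H.big])]

theorem V_eq (H : Hyp V V1 V2 Z A M μ ε ν z) : V z = 2 + W V z * (z ^ 2 - 2) := by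
  rw [W, div_mul_cancel₀ _ H.ne]
  ring

theorem V1_eq (H : Hyp V V1 V2 Z A M μ ε ν z) : V1 z = q V V1 z * (z ^ 2 - 2) + 2 * z * W V z := by
  rw [q, div_mul_cancel₀ _ H.ne]
  ring

theorem sg_top (H : Hyp V V1 V2 Z A M μ ε ν z) : sg V Z Z = ‖V Z‖ := by
  rw [sg, wr, div_mul_cancel₀ _ (by linarith [H.top.big])]
  ring

theorem wr_le (H : Hyp V V1 V2 Z A M μ ε ν z) : |wr V Z| ≤ μ := by
  refine le_trans ?_ H.hW
  have := abs_norm_sub_norm_le (V Z) 2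
  rw [W, wr, norm_div, abs_div, H.top.nph, abs_of_nonneg (a := Z ^ 2 - 2) (by linarith [H.top.big])]
  exact div_le_div_of_nonneg_right (by simpa using this) (by linarith [H.top.big])

theorem cvx (H : Hyp V V1 V2 Z A M μ ε ν z) : ∃ t : ℝ, 0 ≤ t ∧ t ≤ 1 ∧ Z - z ≤ Z * t ∧
    sg V Z z = (1 - t) * ‖V Z‖ + 2 * t ∧ rho V Z z = (1 - t) * V Z + 2 * t := by
  have h1 := H.big
  have h2 := H.top.big
  have h3 : 0 < Z ^ 2 - 2 := by linarith
  have h4 := pow_le_pow_left₀ H.pos.le H.le 2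
  have h5 := H.top.ne
  have h6 := H.pos
  have h7 := H.le
  refine ⟨(Z ^ 2 - z ^ 2) / (Z ^ 2 - 2), div_nonneg (by linarith) h3.le,
    (div_le_one h3).2 (by linarith), ?_, ?_, ?_⟩
  · rw [← mul_div_assoc, le_div_iff₀ h3]
    nlinarith [mul_nonneg (sub_nonneg.2 h7) (mul_pos h6 (h6.trans_le h7)).le]
  · rw [sg, wr]
    field_simp
    ring
  · rw [rho, W]
    push_cast
    field_simp
    ring

theorem s1 (H : Hyp V V1 V2 Z A M μ ε ν z) : μ ≤ ε * sg V Z z := by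
  obtain ⟨t, h0, h1, -, h2, -⟩ := H.cvx
  rw [h2]
  nlinarith [mul_le_mul_of_nonneg_left H.m2 (sub_nonneg.2 h1), mul_le_mul_of_nonneg_left H.m3 h0]

theorem s0 (H : Hyp V V1 V2 Z A M μ ε ν z) : 0 < sg V Z z :=
  pos_of_mul_pos_right (H.m0.trans_le H.s1) H.e0.le

theorem s8 (H : Hyp V V1 V2 Z A M μ ε ν z) : sg V Z z ≤ 8 := by
  obtain ⟨t, h0, h1, -, h2, -⟩ := H.cvx
  nlinarith [H.n8]

theorem s2 (H : Hyp V V1 V2 Z A M μ ε ν z) : 2 * (Z - z) ≤ Z * sg V Z z := by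
  obtain ⟨t, h0, h1, h3, h2, -⟩ := H.cvx
  rw [h2]
  nlinarith [mul_nonneg H.top.pos.le (mul_nonneg (sub_nonneg.2 h1) (norm_nonneg (V Z)))]

theorem r1 (H : Hyp V V1 V2 Z A M μ ε ν z) : 0 ≤ (rho V Z z).re ∧ ‖rho V Z z‖ ≤ sg V Z z ∧
    sg V Z z ≤ 2 * ‖rho V Z z‖ := by
  obtain ⟨t, h0, h1, -, h2, h3⟩ := H.cvx
  have h4 := mul_nonneg (sub_nonneg.2 h1) H.re
  have h5 : ‖(1 - t : ℂ)‖ = 1 - t := by
    rw [show (1 - t : ℂ) = (1 - t : ℝ) by push_cast; rfl, Complex.norm_real,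
      Real.norm_of_nonneg (by linarith)]
  have h6 : (rho V Z z).re = (1 - t) * (V Z).re + 2 * t := by simp [h3]
  have h7 : ‖(1 - t) * V Z‖ ≤ ‖rho V Z z‖ := by
    rw [← sq_le_sq₀ (norm_nonneg _) (norm_nonneg _), Complex.sq_norm, Complex.sq_norm,
      Complex.normSq_apply, Complex.normSq_apply, h6, h3]
    simp
    nlinarith
  have h8 := Complex.re_le_norm (rho V Z z)
  rw [norm_mul, h5] at h7
  refine ⟨by linarith, ?_, by linarith⟩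
  rw [h2, h3, ← h5, ← norm_mul]
  exact (norm_add_le _ _).trans (by simp [abs_of_nonneg h0])

theorem two (H : Hyp V V1 V2 Z A M μ ε ν z) : 2 ≤ sg V Z z + |wr V Z| * z ^ 2 := by
  have h1 := neg_abs_le (wr V Z)
  have h2 := abs_nonneg (wr V Z)
  rw [sg]
  nlinarith [H.big]

theorem s3 (H : Hyp V V1 V2 Z A M μ ε ν z) : 1 ≤ ε * (z ^ 2 * sg V Z z) := by
  have h1 := mul_le_mul_of_nonneg_right (H.wr_le.trans H.s1) (sq_nonneg z)
  have h2 := mul_le_mul_of_nonneg_right H.h1 H.s0.le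
  linarith [H.two]

theorem m4 (H : Hyp V V1 V2 Z A M μ ε ν z) : μ * z ^ 2 ≤ M :=
  (mul_le_mul_of_nonneg_left (pow_le_pow_left₀ H.pos.le H.le 2) H.m0.le).trans H.m1

theorem s4 (H : Hyp V V1 V2 Z A M μ ε ν z) : μ * Z ≤ M * ε * (z * sg V Z z) := by
  have h0 := H.pos
  have h1 : μ * Z * z ≤ M := by
    nlinarith [H.m1, mul_nonneg (mul_nonneg H.m0.le H.top.pos.le) (sub_nonneg.2 H.le)]
  have h2 := mul_le_mul h1 H.s3 zero_le_one (by linarith [H.hM])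
  refine le_of_mul_le_mul_right ?_ h0
  linarith

theorem dW (H : Hyp V V1 V2 Z A M μ ε ν z) {s : ℝ} (hs : s ∈ Ioo z Z) :
    HasDerivAt (W V) (q V V1 s) s := by
  have h := (H.mono (Ioo_subset_Icc_self hs)).ne
  refine HasDerivAt.congr_deriv (((H.dV s hs).sub_const 2).div
    (((hasDerivAt_id s).ofReal_comp.fun_pow 2).sub_const 2) h) ?_
  simp only [q, W, id]
  field_simp
  push_cast
  ring

/-- the nonlinear term -/
def N (V V1 V2 : ℝ → ℂ) (z : ℝ) : ℂ := V2 z - 2 * W V z - z * (z ^ 2 - 2) * q V V1 z / 2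

theorem dq (H : Hyp V V1 V2 Z A M μ ε ν z) {s : ℝ} (hs : s ∈ Ioo z Z) : HasDerivAt (q V V1)
    (s * (s ^ 2 - 10) / (2 * (s ^ 2 - 2)) * q V V1 s + N V V1 V2 s / (s ^ 2 - 2)) s := by
  have h := (H.mono (Ioo_subset_Icc_self hs)).ne
  refine HasDerivAt.congr_deriv (((H.dV1 s hs).sub (((hasDerivAt_id s).ofReal_comp.const_mul
    2).fun_mul (H.dW hs))).div (((hasDerivAt_id s).ofReal_comp.fun_pow 2).sub_const 2) h) ?_
  simp only [N, Pi.sub_apply, id, (H.mono (Ioo_subset_Icc_self hs)).V1_eq]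
  field_simp
  push_cast
  ring

theorem cW (H : Hyp V V1 V2 Z A M μ ε ν z) : ContinuousOn (W V) (Icc z Z) :=
  (H.cV.sub continuousOn_const).div (by fun_prop) fun _ hs => (H.mono hs).ne

theorem cq (H : Hyp V V1 V2 Z A M μ ε ν z) : ContinuousOn (q V V1) (Icc z Z) :=
  (H.cV1.sub (ContinuousOn.mul (by fun_prop) H.cW)).div (by fun_prop) fun _ hs => (H.mono hs).ne

theorem csg : Continuous (sg V Z) := by
  unfold sg
  fun_prop

theorem dsg (s : ℝ) : HasDerivAt (sg V Z) (wr V Z * (2 * s)) s := by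
  exact HasDerivAt.congr_deriv
    ((((hasDerivAt_pow 2 s).sub_const 2).const_mul (wr V Z)).const_add 2) (by simp)

theorem dly (s : ℝ) : HasDerivAt (ly Z) (ly Z s * (s / 4)) s :=
  HasDerivAt.congr_deriv ((((hasDerivAt_pow 2 s).sub_const (Z ^ 2)).div_const 8).exp)
    (by simp [ly]; ring)

theorem cly : Continuous (ly Z) := continuous_iff_continuousAt.2 fun s => (dly s).continuousAt

theorem l0 (s : ℝ) : 0 < ly Z s := Real.exp_pos _

theorem l1 (H : Hyp V V1 V2 Z A M μ ε ν z) : ly Z z ≤ 1 :=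
  Real.exp_le_one_iff.2 (by linarith [pow_le_pow_left₀ H.pos.le H.le 2])

theorem lZ : ly Z Z = 1 := by simp [ly]

end Hyp

end

end Vale.Agent.P218T.M0
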