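import Vale.Agent.P218T.M0A

/-!
# P218: the rotationally symmetric mode on a cylindrical end, the bootstrap
-/

set_option linter.all false

open Set

namespace Vale.Agent.P218T.M0

noncomputable section

variable {V V1 V2 : ℝ → ℂ} {Z A M μ ε ν z : ℝ}

/-- the barrier for the derivative of the opening parameter -/
def bt (V : ℝ → ℂ) (Z μ ν z : ℝ) : ℝ := 1000 * μ ^ 2 / (z * sg V Z z) + 10 * ν * z * ly Z z

namespace Hyp

theorem w0 (H : Hyp V V1 V2 Z A M μ ε ν z)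
    (hb : ∀ s ∈ Icc z Z, ‖q V V1 s‖ ≤ 2 * bt V Z μ ν s) :
    ‖W V z - W V Z‖ ≤ 2000 * μ * (M * ε / Z) * (Z - z) + 80 * ν * (1 - ly Z z) := by
  refine back (f := fun s => W V s - W V Z) (B := fun s => 2000 * μ * (M * ε / Z) * (Z - s) +
    80 * ν * (1 - ly Z s)) H.le (H.cW.sub continuousOn_const)
    (Continuous.continuousOn (by have := cly (Z := Z); fun_prop)) (fun s hs => ⟨_, _,
      (H.dW hs).sub_const _, (((hasDerivAt_id s).const_sub Z).const_mul _).add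
        (((dly s).const_sub 1).const_mul _), ?_⟩) (by simp [lZ])
  have K := H.mono (Ioo_subset_Icc_self hs)
  have h1 := hb s (Ioo_subset_Icc_self hs)
  have h2 : μ / (s * sg V Z s) ≤ M * ε / Z := by
    rw [div_le_div_iff₀ (mul_pos K.pos K.s0) H.top.pos]
    exact K.s4
  have h3 := mul_le_mul_of_nonneg_left h2 H.m0.le
  rw [bt, show 1000 * μ ^ 2 / (s * sg V Z s) = 1000 * (μ * (μ / (s * sg V Z s))) by ring] at h1
  linarith

theorem n2 (H : Hyp V V1 V2 Z A M μ ε ν z) : ν * z ^ 2 ≤ M * ε * μ := by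
  nlinarith [mul_le_mul_of_nonneg_right H.n1 (sq_nonneg z),
    mul_le_mul_of_nonneg_right H.m4 (mul_pos H.m0 H.e0).le]

theorem w1 (H : Hyp V V1 V2 Z A M μ ε ν z)
    (hb : ∀ s ∈ Icc z Z, ‖q V V1 s‖ ≤ 2 * bt V Z μ ν s) :
    ‖W V z - W V Z‖ ≤ 2001 * (M * ε * μ) := by
  have h0 := H.w0 hb
  have h1 : 2000 * μ * (M * ε / Z) * (Z - z) ≤ 2000 * μ * (M * ε / Z) * Z :=
    mul_le_mul_of_nonneg_left (by linarith [H.pos])
      (by have := H.m0; have := H.e0; have := H.hM; have := H.top.pos; positivity)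
  rw [mul_assoc _ (M * ε / Z) Z, div_mul_cancel₀ _ H.top.pos.ne'] at h1
  nlinarith [H.n2, mul_le_mul_of_nonneg_left H.big H.n0, mul_nonneg H.n0 (l0 (Z := Z) z).le, H.n0]

theorem v1 (H : Hyp V V1 V2 Z A M μ ε ν z)
    (hb : ∀ s ∈ Icc z Z, ‖q V V1 s‖ ≤ 2 * bt V Z μ ν s) :
    ‖V z - rho V Z z‖ ≤ 1001 * (M ^ 2 * ε) * sg V Z z := by
  have h0 := H.w0 hb
  have hM : 0 < M := by linarith [H.hM]
  have h1 : 2000 * μ * (M * ε / Z) * (Z - z) ≤ 2000 * μ * (M * ε / Z) * (Z * sg V Z z / 2) :=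
    mul_le_mul_of_nonneg_left (by linarith [H.s2])
      (by have := H.m0; have := H.e0; have := H.top.pos; positivity)
  have h2 : 2000 * μ * (M * ε / Z) * (Z * sg V Z z / 2) = 1000 * (M * ε * sg V Z z) * μ := by
    have := H.top.pos
    field_simp
    ring
  have h3 : ‖W V z - W V Z‖ ≤ 1000 * (M * ε * sg V Z z) * μ + 80 * ν := by
    nlinarith [mul_nonneg H.n0 (l0 (Z := Z) z).le]
  have h4 := mul_le_mul h3 (show z ^ 2 - 2 ≤ z ^ 2 by linarith) (by linarith [H.big])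
    ((norm_nonneg _).trans h3)
  have h5 := mul_pos (mul_pos hM H.e0) H.s0
  have h6 := mul_le_mul_of_nonneg_left H.m4 h5.le
  have h7 := mul_le_mul_of_nonneg_left H.s1 (mul_pos hM H.e0).le
  have h8 := mul_le_mul_of_nonneg_left (show 80 * ε ≤ M by linarith [H.e2, H.hM, H.e0]) h5.le
  rw [show V z - rho V Z z = (W V z - W V Z) * (z ^ 2 - 2) by rw [H.V_eq, rho]; ring, norm_mul,
    H.nph]
  nlinarith [H.n2]

theorem v2 (H : Hyp V V1 V2 Z A M μ ε ν z)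
    (hb : ∀ s ∈ Icc z Z, ‖q V V1 s‖ ≤ 2 * bt V Z μ ν s) : sg V Z z ≤ 4 * ‖V z‖ ∧
    ‖V z‖ ≤ 2 * sg V Z z ∧ V z ∈ Complex.slitPlane := by
  have h0 : ‖V z - rho V Z z‖ ≤ sg V Z z / 4 := by nlinarith [H.v1 hb, H.he, H.s0]
  obtain ⟨h1, h2, h3⟩ := H.r1
  have h4 := norm_sub_norm_le (V z) (rho V Z z)
  have h5 := norm_sub_norm_le (rho V Z z) (V z)
  have h6 := H.s0
  rw [norm_sub_rev] at h5
  refine ⟨by linarith, by linarith, ?_⟩
  by_contra h
  simp only [Complex.mem_slitPlane_iff, not_or, not_lt, not_not] at h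
  have : ‖rho V Z z‖ ≤ ‖V z - rho V Z z‖ := by
    rw [← sq_le_sq₀ (norm_nonneg _) (norm_nonneg _), Complex.sq_norm, Complex.sq_norm,
      Complex.normSq_apply, Complex.normSq_apply]
    simp only [Complex.sub_re, Complex.sub_im, h.2]
    nlinarith [mul_nonneg h1 (neg_nonneg.2 h.1), sq_nonneg (V z).re]
  linarith

theorem w2 (H : Hyp V V1 V2 Z A M μ ε ν z)
    (hb : ∀ s ∈ Icc z Z, ‖q V V1 s‖ ≤ 2 * bt V Z μ ν s) : ‖W V z‖ ≤ 2 * μ := by
  nlinarith [H.w1 hb, norm_sub_norm_le (W V z) (W V Z), H.hW, H.e1, H.m0]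

theorem bt_le (H : Hyp V V1 V2 Z A M μ ε ν z) : z * bt V Z μ ν z ≤ 1010 * (M * ε * μ) := by
  have h1 : μ / sg V Z z ≤ ε := (div_le_iff₀ H.s0).2 H.s1
  have h2 := mul_le_mul_of_nonneg_left h1 H.m0.le
  have h3 := mul_le_mul_of_nonneg_left H.l1 (mul_nonneg H.n0 (sq_nonneg z))
  have e : z * bt V Z μ ν z = 1000 * (μ * (μ / sg V Z z)) + 10 * (ν * z ^ 2 * ly Z z) := by
    have := H.pos
    have := H.s0
    rw [bt]
    field_simp
  nlinarith [H.n2, mul_le_mul_of_nonneg_right H.hM (mul_pos H.e0 H.m0).le]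

theorem N_eq (H : Hyp V V1 V2 Z A M μ ε ν z) (h : V z ≠ 0) : N V V1 V2 z = V1 z ^ 2 / V z *
    (1 + (W V z + z * (z ^ 2 - 2) * q V V1 z / 4)) / 2 + (V2 z - G z (V z) (V1 z)) := by
  have e : z * V1 z / 2 - V z + 2 = z * (z ^ 2 - 2) * q V V1 z / 2 + 2 * W V z := by
    rw [H.V1_eq, H.V_eq]
    ring
  rw [N, G, e]
  field_simp
  ring

theorem u_le (H : Hyp V V1 V2 Z A M μ ε ν z) {β : ℝ} (h : ‖q V V1 z‖ ≤ β) :
    ‖W V z + z * (z ^ 2 - 2) * q V V1 z / 4‖ ≤ ‖W V z‖ + z ^ 2 * (z * β) / 4 := by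
  refine (norm_add_le _ _).trans ?_
  rw [norm_div, norm_mul, norm_mul, H.nph, Complex.norm_real, Real.norm_of_nonneg H.pos.le,
    Complex.norm_ofNat]
  have := mul_le_mul (show z * (z ^ 2 - 2) ≤ z * z ^ 2 by nlinarith [H.pos]) h (norm_nonneg _)
    (by have := H.pos; positivity)
  linarith

theorem N_le (H : Hyp V V1 V2 Z A M μ ε ν z)
    (hb : ∀ s ∈ Icc z Z, ‖q V V1 s‖ ≤ 2 * bt V Z μ ν s)
    (he : ‖V2 z - G z (V z) (V1 z)‖ ≤ A / z ^ 3 + ν * z ^ 4 * ly Z z) :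
    ‖N V V1 V2 z‖ ≤ 101 * (z ^ 2 * μ ^ 2 / sg V Z z) + ν * z ^ 4 * ly Z z := by
  obtain ⟨h1, -, h2⟩ := H.v2 hb
  have h3 := hb z (left_mem_Icc.2 H.le)
  have hz := H.pos
  have hs := H.s0
  have hm := H.m0
  have h4 := H.bt_le
  have h5 := H.w2 hb
  have h6 : ‖V1 z‖ ≤ 5 * (z * μ) := by
    rw [H.V1_eq]
    refine (norm_add_le _ _).trans ?_
    simp only [norm_mul, H.nph, Complex.norm_real, Real.norm_of_nonneg hz.le, Complex.norm_ofNat]
    have a1 := mul_le_mul h3 (show z ^ 2 - 2 ≤ z ^ 2 by linarith) (by linarith [H.big])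
      ((norm_nonneg _).trans h3)
    have a2 := mul_le_mul_of_nonneg_left h4 hz.le
    have a3 := mul_le_mul_of_nonneg_right H.e1 (mul_pos hz hm).le
    nlinarith [mul_le_mul_of_nonneg_left h5 hz.le]
  have h7 : ‖1 + (W V z + z * (z ^ 2 - 2) * q V V1 z / 4)‖ ≤ 2 := by
    have a1 := H.u_le h3
    have a2 := mul_le_mul_of_nonneg_left h4 (sq_nonneg z)
    have a3 := mul_le_mul_of_nonneg_left H.m4 (show 0 ≤ M * ε by nlinarith [H.hM, H.e0])
    have := norm_add_le 1 (W V z + z * (z ^ 2 - 2) * q V V1 z / 4)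
    rw [norm_one] at this
    nlinarith [H.he, H.m3, H.e2]
  have h8 : ‖V1 z ^ 2 / V z‖ ≤ 100 * (z ^ 2 * μ ^ 2 / sg V Z z) := by
    rw [norm_div, norm_pow, ← mul_div_assoc, div_le_div_iff₀ (by linarith) hs]
    nlinarith [mul_le_mul (pow_le_pow_left₀ (norm_nonneg _) h6 2) h1 hs.le (by positivity)]
  have h9 : A / z ^ 3 ≤ z ^ 2 * μ ^ 2 / sg V Z z := by
    rw [div_le_div_iff₀ (by positivity) hs]
    nlinarith [mul_le_mul_of_nonneg_left H.s8 H.a0, H.a1]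
  rw [H.N_eq (Complex.slitPlane_ne_zero h2)]
  refine (norm_add_le _ _).trans ?_
  rw [norm_div, norm_mul, Complex.norm_ofNat]
  nlinarith [mul_le_mul h8 h7 (norm_nonneg _) (by positivity)]

theorem cbt (H : Hyp V V1 V2 Z A M μ ε ν z) : ContinuousOn (bt V Z μ ν) (Icc z Z) :=
  (continuousOn_const.div (continuousOn_id.mul csg.continuousOn) fun s hs =>
    (mul_pos (H.mono hs).pos (H.mono hs).s0).ne').add
    (Continuous.continuousOn (by have := cly (Z := Z); fun_prop))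

theorem q0 (H : Hyp V V1 V2 Z A M μ ε ν z) : ‖q V V1 Z‖ ≤ bt V Z μ ν Z := by
  have h1 := mul_nonneg H.n0 H.top.pos.le
  have h2 : 0 ≤ μ ^ 2 / (Z * ‖V Z‖) := by have := H.top.pos; positivity
  rw [bt, H.sg_top, lZ, mul_div_assoc]
  linarith [H.hq]

theorem q1 (H : Hyp V V1 V2 Z A M μ ε ν z)
    (hb : ∀ s ∈ Icc z Z, ‖q V V1 s‖ ≤ 2 * bt V Z μ ν s) : ‖q V V1 z‖ ≤ bt V Z μ ν z := by
  let E : ℝ → ℝ := fun s => (s ^ 2 - 2) ^ 2 * Real.exp (-s ^ 2 / 4)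
  have cE : Continuous E := by fun_prop
  have pE : ∀ s ∈ Icc z Z, 0 < E s := fun s hs =>
    mul_pos (pow_pos (by linarith [(H.mono hs).big]) 2) (Real.exp_pos _)
  have dE : ∀ s, HasDerivAt E (-(s * (s ^ 2 - 10) / 2) * ((s ^ 2 - 2) * Real.exp (-s ^ 2 / 4))) s :=
    fun s => HasDerivAt.congr_deriv ((((hasDerivAt_pow 2 s).sub_const 2).fun_pow 2).fun_mul
      (((hasDerivAt_pow 2 s).fun_neg.div_const 4).exp)) (by simp; ring)
  have := back (f := fun s => (E s : ℂ) * q V V1 s) (B := fun s => E s * bt V Z μ ν s) H.le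
    ((Complex.continuous_ofReal.comp cE).continuousOn.mul H.cq) (cE.continuousOn.mul H.cbt)
    (fun s hs => ?_) (by
      rw [norm_mul, Complex.norm_real, Real.norm_of_nonneg (pE Z (right_mem_Icc.2 H.le)).le]
      exact mul_le_mul_of_nonneg_left H.q0 (pE Z (right_mem_Icc.2 H.le)).le)
  · rw [norm_mul, Complex.norm_real, Real.norm_of_nonneg (pE z (left_mem_Icc.2 H.le)).le] at this
    exact le_of_mul_le_mul_left this (pE z (left_mem_Icc.2 H.le))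
  have hs' := Ioo_subset_Icc_self hs
  have K := H.mono hs'
  have h1 := K.N_le (fun x hx => hb x ⟨hs'.1.trans hx.1, hx.2⟩) (H.eq s hs)
  have hz := K.pos
  have h0 := K.s0
  have hb := K.big
  refine ⟨(((s ^ 2 - 2) * Real.exp (-s ^ 2 / 4) : ℝ) : ℂ) * N V V1 V2 s, _,
    HasDerivAt.congr_deriv ((dE s).ofReal_comp.fun_mul (H.dq hs)) ?_,
    (dE s).fun_mul (((hasDerivAt_const s (1000 * μ ^ 2)).fun_div ((hasDerivAt_id s).fun_mul
      (dsg s)) (mul_pos hz h0).ne').fun_add (((hasDerivAt_id s).const_mul (10 * ν)).fun_mul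
        (dly s))), ?_⟩
  · have := K.ne
    simp only [E]
    push_cast
    field_simp
    ring
  have a0 := Real.exp_pos (-s ^ 2 / 4)
  rw [norm_mul, Complex.norm_real, Real.norm_of_nonneg (mul_nonneg (by linarith) a0.le)]
  simp only [E, bt, id]
  generalize Real.exp (-s ^ 2 / 4) = e at *
  generalize ‖N V V1 V2 s‖ = n at *
  have a1 : |wr V Z| / sg V Z s ≤ 1 / 10 ^ 6 := by
    rw [div_le_div_iff₀ h0 (by norm_num)]
    nlinarith [K.wr_le.trans K.s1, K.e2]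
  have a2 : -(1 / 10 ^ 6) ≤ wr V Z / sg V Z s := by
    have := div_le_div_of_nonneg_right (neg_abs_le (wr V Z)) h0.le
    rw [neg_div] at this
    linarith
  have a3 := mul_nonneg (mul_nonneg H.n0 (l0 (Z := Z) s).le) (sq_nonneg s)
  have a4 : 0 < μ ^ 2 / sg V Z s := by have := H.m0; positivity
  rw [mul_div_assoc] at h1
  have e1 : (s ^ 2 - 2) * e * n + (-(s * (s ^ 2 - 10) / 2) * ((s ^ 2 - 2) * e) *
      (1000 * μ ^ 2 / (s * sg V Z s) + 10 * ν * s * ly Z s) + (s ^ 2 - 2) ^ 2 * e *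
      ((0 * (s * sg V Z s) - 1000 * μ ^ 2 * (1 * sg V Z s + s * (wr V Z * (2 * s)))) /
        (s * sg V Z s) ^ 2 + (10 * ν * 1 * ly Z s + 10 * ν * s * (ly Z s * (s / 4))))) =
      (s ^ 2 - 2) * e * (n - 1000 * (μ ^ 2 / sg V Z s) * ((s ^ 2 - 10) / 2 + (s ^ 2 - 2) / s ^ 2 +
        2 * (s ^ 2 - 2) * (wr V Z / sg V Z s)) - ν * ly Z s * (5 * s ^ 2 * (s ^ 2 - 10) -
          10 * (s ^ 2 - 2) * (1 + s ^ 2 / 4))) := by
    field_simp
    ring
  rw [e1]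
  refine mul_nonpos_of_nonneg_of_nonpos (mul_nonneg (by linarith) a0.le) ?_
  have a5 : 0 ≤ (s ^ 2 - 2) / s ^ 2 := div_nonneg (by linarith) (sq_nonneg s)
  have a6 := mul_le_mul_of_nonneg_left a2 (show 0 ≤ s ^ 2 - 2 by linarith)
  have a7 := mul_le_mul_of_nonneg_left (show 101 / 1000 * s ^ 2 ≤ (s ^ 2 - 10) / 2 +
    (s ^ 2 - 2) / s ^ 2 + 2 * (s ^ 2 - 2) * (wr V Z / sg V Z s) by linarith) a4.le
  have a8 := mul_le_mul_of_nonneg_left (show s ^ 4 ≤ 5 * s ^ 2 * (s ^ 2 - 10) -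
    10 * (s ^ 2 - 2) * (1 + s ^ 2 / 4) by nlinarith) (mul_nonneg H.n0 (l0 (Z := Z) s).le)
  linarith

theorem q_le (H : Hyp V V1 V2 Z A M μ ε ν z) : ∀ s ∈ Icc z Z, ‖q V V1 s‖ ≤ bt V Z μ ν s := by
  have p : ∀ s ∈ Icc z Z, 0 < bt V Z μ ν s := fun s hs => by
    have K := H.mono hs
    have := K.pos
    have := K.s0
    have := K.m0
    have := K.n0
    have := l0 (Z := Z) s
    rw [bt]
    positivity
  exact boot H.cq.norm H.cbt p (by linarith [H.q0, p Z (right_mem_Icc.2 H.le)])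
    fun s hs h => (H.mono hs).q1 h

theorem hb (H : Hyp V V1 V2 Z A M μ ε ν z) : ∀ s ∈ Icc z Z, ‖q V V1 s‖ ≤ 2 * bt V Z μ ν s :=
  fun s hs => by linarith [H.q_le s hs, norm_nonneg (q V V1 s)]

end Hyp

end

end Vale.Agent.P218T.M0
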